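import Vale.Agent.P146.H347.Mod4
import Vale.Agent.P146.H487.Regk
import Vale.Agent.P146.H615.Easm

/-!
# P146: the left side of the tested row equation (piece E2 of the assembly)

Model level: `K = Kset S BL FL`, `K' = Kset (insert i0 S) BL FL`, `M_j = cx K <a s_j>`,
`N = cx K' <a s_i0>`, `Q = |M|^2 / n`. For `G` bounded by `P0` and `L0`-Lipschitz,
`ex (G(Q) N^2)` is `(n/|S|) ex (G(Q) Q)` up to the increments of `ex |M|^2` in one step.
-/

open MeasureTheory ProbabilityTheory

namespace Vale.Agent.P146.H205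

open Vale.Agent.P157.Lv hiding Dep
open Vale.Agent.P146.H196 Vale.Agent.P146.H646 Vale.Agent.P146.H475 Vale.Agent.P146.H347
  Vale.Agent.P146.H487 Vale.Agent.P146.H325

set_option linter.unusedSectionVars false

variable {n : ℕ} {LB LF : Type} [Fintype LB] [DecidableEq LB] [Fintype LF] [DecidableEq LF]
variable (b : ℝ) (cB : LB → ℝ) (cF : LF → ℝ) (s η : ℝ)

/-- `⟨a s_j⟩` -/
noncomputable def Fa (b : ℝ) (cB : LB → ℝ) (cF : LF → ℝ) (s η lam c : ℝ) (j : Fin n) :
    (Co n LB LF → ℝ) → ℝ :=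
  avm (muA (Xs n) lam η c) 1 (Sm b cB cF s η) (fun w => al η w.1 * sp w.2 j)

/-- the weight `Z ^ x` -/
noncomputable abbrev Wx (n : ℕ) (b : ℝ) (cB : LB → ℝ) (cF : LF → ℝ) (s η lam c x : ℝ) :
    (Co n LB LF → ℝ) → ℝ :=
  Zxm (muA (Xs n) lam η c) 1 (Sm b cB cF s η) x

section

variable {lam : ℝ} (hl : 0 < lam) (hη : 0 ≤ η) (c x : ℝ)
include hl hη

lemma bm_Fa (j : Fin n) : BM (Fa b cB cF s η lam c j) :=
  bmA b cB cF s hl hη c ((bm_of_al (n := n) hη).mul (bm_sp j))

lemma abs_Fa (j : Fin n) (z : Co n LB LF → ℝ) : |Fa b cB cF s η lam c j z| ≤ 1 + η := by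
  refine (gmA b cB cF s hl hη c).abs_av_le 1
    ((bm_of_al (n := n) hη).mul (bm_sp j)).1 (fun w => ?_) z
  have h1 := al_mem hη w.1
  rw [abs_mul, abs_sp, mul_one, abs_le]
  constructor <;> linarith [h1.1, h1.2]

/-- a permutation of the sites which preserves `S` is a symmetry respecting `Kset S BL FL` -/
lemma sy_P (π : Equiv.Perm (Fin n)) {S : Finset (Fin n)} (BL : Finset LB) (FL : Finset LF)
    (h : ∀ i, π i ∈ S ↔ i ∈ S) :
    Sy (g1 (Co n LB LF)) (Wx n b cB cF s η lam c x) (Kset S BL FL) (acP (LB := LB) (LF := LF) π) where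
  mp := mp_ac (cP LB LF π) (fun _ => one_mul 1)
  wt z := invP_Z b cB cF s η hl c 1 x π z
  gl z z' := ac_glue (cP LB LF π) (fun _ => 1) (cP_memK π h) z z'

variable {P0 L0 : ℝ} {G : ℝ → ℝ}

/-- **E2**: the left side of the tested row equation. -/
theorem e2 (hn : 0 < n) {S : Finset (Fin n)} (hS : S.Nonempty) {i0 : Fin n} (hi : i0 ∉ S)
    (BL : Finset LB) (FL : Finset LF) (hG : Measurable G) (hP : ∀ r, |G r| ≤ P0)
    (hL0 : 0 ≤ L0) (hL : ∀ r r', |G r - G r'| ≤ L0 * |r - r'|) :
    |ex (g1 (Co n LB LF)) (Wx n b cB cF s η lam c x)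
        (fun z => G (H615.m2 S (fun j => cx (g1 _) (Kset S BL FL) (Wx n b cB cF s η lam c x)
          (Fa b cB cF s η lam c j)) z / n) *
          cx (g1 _) (Kset (insert i0 S) BL FL) (Wx n b cB cF s η lam c x)
            (Fa b cB cF s η lam c i0) z ^ 2) -
      n / S.card * ex (g1 (Co n LB LF)) (Wx n b cB cF s η lam c x)
        (fun z => G (H615.m2 S (fun j => cx (g1 _) (Kset S BL FL) (Wx n b cB cF s η lam c x)
          (Fa b cB cF s η lam c j)) z / n) *
          (H615.m2 S (fun j => cx (g1 _) (Kset S BL FL) (Wx n b cB cF s η lam c x)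
          (Fa b cB cF s η lam c j)) z / n))| ≤
    P0 * (∑ j ∈ S, (ex (g1 (Co n LB LF)) (Wx n b cB cF s η lam c x)
          (fun z => cx (g1 _) (Kset (insert i0 S) BL FL) (Wx n b cB cF s η lam c x)
            (Fa b cB cF s η lam c j) z ^ 2) -
        ex (g1 (Co n LB LF)) (Wx n b cB cF s η lam c x)
          (fun z => cx (g1 _) (Kset S BL FL) (Wx n b cB cF s η lam c x)
            (Fa b cB cF s η lam c j) z ^ 2))) / S.card +
      4 * L0 * (1 + η) / √n *
      (√((∑ j ∈ S, (ex (g1 (Co n LB LF)) (Wx n b cB cF s η lam c x)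
          (fun z => cx (g1 _) (Kset (insert i0 S) BL FL) (Wx n b cB cF s η lam c x)
            (Fa b cB cF s η lam c j) z ^ 2) -
        ex (g1 (Co n LB LF)) (Wx n b cB cF s η lam c x)
          (fun z => cx (g1 _) (Kset S BL FL) (Wx n b cB cF s η lam c x)
            (Fa b cB cF s η lam c j) z ^ 2))) +
          ex (g1 (Co n LB LF)) (Wx n b cB cF s η lam c x)
            (fun z => cx (g1 _) (Kset (insert i0 S) BL FL) (Wx n b cB cF s η lam c x)
              (Fa b cB cF s η lam c i0) z ^ 2)) *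
        √(ex (g1 (Co n LB LF)) (Wx n b cB cF s η lam c x)
            (fun z => cx (g1 _) (Kset (insert i0 S) BL FL) (Wx n b cB cF s η lam c x)
              (Fa b cB cF s η lam c i0) z ^ 4))) := by
  set w := Wx (LB := LB) (LF := LF) n b cB cF s η lam c x with hwd
  set F : Fin n → (Co n LB LF → ℝ) → ℝ := Fa b cB cF s η lam c with hF
  set K : Finset (Co n LB LF) := Kset S BL FL with hK
  set K' : Finset (Co n LB LF) := Kset (insert i0 S) BL FL with hK'
  have hw : Wt (g1 (Co n LB LF)) w := wtA b cB cF s hl hη c x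
  have hFb : ∀ j, BM (F j) := bm_Fa b cB cF s η hl hη c
  have hKK : K ⊆ K' :=
    Kset_mono (Finset.subset_insert i0 S) (Finset.Subset.refl _) (Finset.Subset.refl _)
  have hn' : (0 : ℝ) < n := Nat.cast_pos.2 hn
  have hsn : 0 < √(n : ℝ) := Real.sqrt_pos.2 hn'
  have hSc : (0 : ℝ) < S.card := by exact_mod_cast hS.card_pos
  have hScn : (S.card : ℝ) ≤ n := by
    have := Finset.card_le_univ S
    rw [Fintype.card_fin] at this
    exact_mod_cast this
  set R : ℝ := √n * (1 + η) with hR
  have hR0 : 0 ≤ R := by positivity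
  -- the clipped test function of the norm
  set cl : ℝ → ℝ := fun r => min (max r 0) R with hcl
  have cl0 : ∀ r, 0 ≤ cl r := fun r => le_min (le_max_right _ _) hR0
  have clR : ∀ r, cl r ≤ R := fun r => min_le_right _ _
  have cl1 : ∀ r r', |cl r - cl r'| ≤ |r - r'| := fun r r' => by
    refine (abs_min_sub_min_le_max _ _ _ _).trans ?_
    rw [sub_self, abs_zero]
    refine max_le ((abs_max_sub_max_le_max _ _ _ _).trans ?_) (abs_nonneg _)
    rw [sub_self, abs_zero]
    exact max_le le_rfl (abs_nonneg _)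
  set G' : (Unit → ℝ) → ℝ := fun v => G (cl (v ()) ^ 2 / n) with hG'
  have mcl : Measurable cl := (measurable_id.max measurable_const).min measurable_const
  have mG' : Measurable G' :=
    hG.comp (((mcl.comp (measurable_pi_apply ())).pow_const 2).div_const _)
  have hlip : ∀ v v' : Unit → ℝ, |G' v - G' v'| ≤ ∑ a, (2 * L0 * (1 + η) / √n) * |v a - v' a| := by
    intro v v'
    rw [Finset.univ_unique, Finset.sum_singleton]
    refine (hL _ _).trans ?_
    have e1 : cl (v ()) ^ 2 / n - cl (v' ()) ^ 2 / n =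
        (cl (v ()) + cl (v' ())) / n * (cl (v ()) - cl (v' ())) := by ring
    rw [e1, abs_mul, abs_of_nonneg (div_nonneg (add_nonneg (cl0 _) (cl0 _)) hn'.le)]
    have e2 : (cl (v ()) + cl (v' ())) / n ≤ 2 * (1 + η) / √n := by
      have h1 : cl (v ()) + cl (v' ()) ≤ 2 * R := by linarith [clR (v ()), clR (v' ())]
      have h2 : 2 * R / n = 2 * (1 + η) / √n := by
        rw [hR]
        have : (n : ℝ) = √n * √n := (Real.mul_self_sqrt hn'.le).symm
        rw [this]
        field_simp
        simp [Real.sqrt_mul_self]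
      rw [← h2]
      exact div_le_div_of_nonneg_right h1 hn'.le
    have e3 := mul_le_mul e2 (cl1 (v ()) (v' ())) (abs_nonneg _)
      (div_nonneg (by positivity) hsn.le)
    have e4 := mul_le_mul_of_nonneg_left e3 hL0
    refine e4.trans (le_of_eq ?_)
    show L0 * (2 * (1 + η) / √n * |v () - v' ()|) = 2 * L0 * (1 + η) / √n * |v () - v' ()|
    ring
  -- the norm never exceeds `R`
  have hnrm : ∀ z, nrm (g1 _) K w S F z ≤ R := by
    intro z
    unfold nrm
    rw [Real.sqrt_le_left hR0, hR, mul_pow, Real.sq_sqrt hn'.le]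
    have h1 : ∀ j ∈ S, cx (g1 _) K w (F j) z ^ 2 ≤ (1 + η) ^ 2 := fun j _ => by
      rw [← sq_abs]
      exact pow_le_pow_left₀ (abs_nonneg _)
        (hw.abs_cx_le K (hFb j) (abs_Fa b cB cF s η hl hη c j) z) 2
    refine (Finset.sum_le_card_nsmul _ _ _ h1).trans ?_
    rw [nsmul_eq_mul]
    exact mul_le_mul_of_nonneg_right hScn (sq_nonneg _)
  have hGn : ∀ z, G' (fun _ => nrm (g1 _) K w S F z) =
      G (H615.m2 S (fun j => cx (g1 _) K w (F j)) z / n) := by
    intro z
    have h0 : 0 ≤ nrm (g1 _) K w S F z := Real.sqrt_nonneg _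
    show G (cl (nrm (g1 _) K w S F z) ^ 2 / n) = _
    have h1 : cl (nrm (g1 _) K w S F z) = nrm (g1 _) K w S F z := by
      rw [hcl]
      simp only
      rw [max_eq_left h0, min_eq_left (hnrm z)]
    rw [h1, nrm_sq]
    rfl
  have main := regk_lip (A := Unit) hw hKK hS (F := F) (fun j _ => hFb j) (hFb i0)
    (X := fun _ => nrm (g1 _) K w S F) (X' := fun _ => nrm (g1 _) K' w (insert i0 S) F)
    (fun _ => bm_nrm hw K fun j _ => hFb j) (fun _ => bm_nrm hw K' fun j _ => hFb j)
    (fun _ => dep_nrm S F) (G := G') mG' (C := P0) (fun v => hP _)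
    (L := fun _ => 2 * L0 * (1 + η) / √n) (fun _ => by positivity) hlip
    (fun j hj => ⟨acP (Equiv.swap i0 j),
      sy_P b cB cF s η hl hη c x (Equiv.swap i0 j) BL FL
        (swap_mem (iff_of_true (Finset.mem_insert_self _ _) (Finset.mem_insert_of_mem hj))),
      fun z => by
        have h1 := eq1_sp b cB cF s η hl c 1 (al η) (Equiv.swap i0 j) i0 z
        rw [Equiv.swap_apply_left] at h1
        exact h1,
      fun _ z => by
        refine nrm_sy hw (sy_P b cB cF s η hl hη c x (Equiv.swap i0 j) BL FL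
          (swap_mem (iff_of_true (Finset.mem_insert_self _ _) (Finset.mem_insert_of_mem hj))))
          (fun j _ => hFb j) (σ := Equiv.swap i0 j)
          (swap_mem (iff_of_true (Finset.mem_insert_self _ _) (Finset.mem_insert_of_mem hj)))
          (fun i _ z => ?_) z
        exact eq1_sp b cB cF s η hl c 1 (al η) (Equiv.swap i0 j) i z⟩)
  simp only [hGn] at main
  -- the average over `S`
  have eS : (∑ j ∈ S, ex (g1 _) w (fun z => G (H615.m2 S (fun j => cx (g1 _) K w (F j)) z / n) *
      cx (g1 _) K w (F j) z ^ 2)) / S.card =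
      n / S.card * ex (g1 _) w (fun z => G (H615.m2 S (fun j => cx (g1 _) K w (F j)) z / n) *
        (H615.m2 S (fun j => cx (g1 _) K w (F j)) z / n)) := by
    have bG : BM (fun z => G (H615.m2 S (fun j => cx (g1 _) K w (F j)) z / n)) := by
      refine ⟨hG.comp ?_, P0, fun z => hP _⟩
      refine Measurable.div_const ?_ _
      exact Finset.measurable_fun_sum _ fun j _ => (hw.bm_cx K (hFb j)).meas.pow_const 2
    have bq : ∀ j ∈ S, BM (fun z => G (H615.m2 S (fun j => cx (g1 _) K w (F j)) z / n) *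
        cx (g1 _) K w (F j) z ^ 2) := fun j _ => bG.mul (BM.sq' (hw.bm_cx K (hFb j)))
    rw [← ex_sum hw S bq, ← ex_const_mul (μ := g1 _) (w := w) ((n : ℝ) / S.card),
      div_eq_inv_mul, ← ex_const_mul (μ := g1 _) (w := w)]
    congr 1
    funext z
    rw [← Finset.mul_sum]
    unfold H615.m2
    field_simp
  rw [eS] at main
  refine main.trans ?_
  have hst := nrm_step (ι := Fin n) hw hKK hi (F := F) (fun j _ => hFb j)
  have hA : 0 ≤ 2 * L0 * (1 + η) / √n := by positivity
  simp only [Finset.univ_unique, Finset.sum_singleton]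
  have h5 := Real.sqrt_le_sqrt hst
  have h6 := mul_le_mul_of_nonneg_left h5 hA
  have h7 := mul_le_mul_of_nonneg_right h6
    (Real.sqrt_nonneg (ex (g1 _) w fun z => cx (g1 _) K' w (F i0) z ^ 4))
  refine add_le_add le_rfl ?_
  refine (mul_le_mul_of_nonneg_left h7 (by norm_num : (0 : ℝ) ≤ 2)).trans (le_of_eq ?_)
  ring

end

end Vale.Agent.P146.H205
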