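import Vale.Agent.P146.H487.N4cx
import Vale.Agent.P146.H161.RowCx
import Vale.Agent.P146.H205.E2

/-!
# P146: the fourth moment of the hidden row magnetisation (piece N4-M of the assembly)

`n4`: for `N = cx K' w ⟨h⟩` with conditional mean zero given `K ⊆ K'`,
`ex N^4 ≤ 10368 C0^4 ex (∑_{e, f ∈ K' \ K} (cx K' w ⟨S_e S_f⟩)^2)`, and `n4M`, the same at the
modulated SK system, with the right side in terms of the two point functions of the visible sites.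
-/

open MeasureTheory ProbabilityTheory

namespace Vale.Agent.P146.H205

open Vale.Agent.P157.Lv hiding Dep
open Vale.Agent.P146.H196 Vale.Agent.P146.H646 Vale.Agent.P146.H475 Vale.Agent.P146.H347
  Vale.Agent.P146.H487 Vale.Agent.P146.H325

set_option linter.unusedSectionVars false

section pd

variable {ι : Type} [Fintype ι] [DecidableEq ι] {K : Finset ι} {w φ φ1 L : (ι → ℝ) → ℝ} {e : ι}

lemma wn_eq_J (K : Finset ι) (w : (ι → ℝ) → ℝ) :
    wn (g1 ι) K w = Vale.Agent.P157.Lv.J (H161.lvK K) 0 w := by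
  funext z
  unfold wn Vale.Agent.P157.Lv.J
  simp only [H161.mix_lvK]

lemma pd_wn (he : e ∈ K) (hd : PD e φ φ1) (eφ : EG φ) (eφ1 : EG φ1) :
    PD e (wn (g1 ι) K φ) (wn (g1 ι) K φ1) := by
  rw [wn_eq_J, wn_eq_J]
  exact PD.J hd eφ eφ1 (by simp [H161.lvK, he])

/-- the logarithm of the marginal weight -/
theorem pd_lwn (he : e ∈ K) (hw : Wt (g1 ι) w) (hd : PD e w fun z => w z * L z) (ew : EG w)
    (eL : EG L) : PD e (fun z => Real.log (wn (g1 ι) K w z)) (cx (g1 ι) K w L) :=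
  (pd_wn he hd ew (ew.mul eL)).log fun y => (hw.wn_pos K y).ne'

/-- **the derivative of a conditional mean in a revealed coordinate** -/
theorem pd_cx (he : e ∈ K) (hw : Wt (g1 ι) w) (hd : PD e w fun z => w z * L z) (ew : EG w)
    (eL : EG L) (hφ : PD e φ φ1) (eφ : EG φ) (eφ1 : EG φ1) :
    PD e (cx (g1 ι) K w φ) (fun z => cx (g1 ι) K w (fun y => φ1 y + φ y * L y) z -
      cx (g1 ι) K w φ z * cx (g1 ι) K w L z) := by
  have h1 : PD e (fun z => w z * φ z) (fun z => w z * (φ1 z + φ z * L z)) :=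
    (hd.mul hφ).congr fun y => by ring
  have h2 := pd_wn (K := K) he h1 (ew.mul eφ) (ew.mul (eφ1.add (eφ.mul eL)))
  have h3 := pd_wn (K := K) he hd ew (ew.mul eL)
  refine (h2.div h3 fun y => (hw.wn_pos K y).ne').congr fun y => ?_
  have h4 := (hw.wn_pos K y).ne'
  unfold cx
  simp only [← show wn (g1 ι) K (fun z => w z * (φ1 z + φ z * L z)) y =
      ∫ z', w (glue K y z') * (φ1 (glue K y z') + φ (glue K y z') * L (glue K y z'))
        ∂(Measure.pi (g1 ι)) from rfl,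
    ← show wn (g1 ι) K (fun z => w z * φ z) y =
      ∫ z', w (glue K y z') * φ (glue K y z') ∂(Measure.pi (g1 ι)) from rfl,
    ← show wn (g1 ι) K (fun z => w z * L z) y =
      ∫ z', w (glue K y z') * L (glue K y z') ∂(Measure.pi (g1 ι)) from rfl]
  field_simp

end pd

/-- the duality behind the bounds of the gradients -/
lemma dual_num {E : Type*} (R : Finset E) (a : E → ℝ) (c : E → E → ℝ) {C0 : ℝ}
    (h : (∑ e ∈ R, a e ^ 2) ^ 2 ≤ C0 ^ 2 * ∑ e ∈ R, ∑ f ∈ R, a e * a f * c e f) :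
    ∑ e ∈ R, a e ^ 2 ≤ C0 ^ 2 * √(∑ e ∈ R, ∑ f ∈ R, c e f ^ 2) := by
  set A := ∑ e ∈ R, a e ^ 2 with hA
  set r := ∑ e ∈ R, ∑ f ∈ R, c e f ^ 2 with hr
  have hA0 : 0 ≤ A := Finset.sum_nonneg fun e _ => sq_nonneg _
  have hr0 : 0 ≤ r := Finset.sum_nonneg fun e _ => Finset.sum_nonneg fun f _ => sq_nonneg _
  have h1 : (∑ e ∈ R, ∑ f ∈ R, a e * a f * c e f) ^ 2 ≤ A ^ 2 * r := by
    have h2 := Finset.sum_mul_sq_le_sq_mul_sq (R ×ˢ R) (fun p => a p.1 * a p.2)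
      (fun p => c p.1 p.2)
    rw [Finset.sum_product, Finset.sum_product, Finset.sum_product] at h2
    simp only [mul_pow] at h2
    have h3 : ∑ e ∈ R, ∑ f ∈ R, a e ^ 2 * a f ^ 2 = A ^ 2 := by
      rw [hA, sq, Finset.sum_mul_sum]
    rw [h3] at h2
    exact h2
  have h2 : ∑ e ∈ R, ∑ f ∈ R, a e * a f * c e f ≤ A * √r := by
    refine (le_abs_self _).trans ?_
    rw [← Real.sqrt_sq_eq_abs]
    refine (Real.sqrt_le_sqrt h1).trans (le_of_eq ?_)
    rw [Real.sqrt_mul (sq_nonneg _), Real.sqrt_sq hA0]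
  have h3 : A ^ 2 ≤ C0 ^ 2 * (A * √r) := h.trans (mul_le_mul_of_nonneg_left h2 (sq_nonneg _))
  rcases hA0.eq_or_lt with h4 | h4
  · rw [← h4]
    positivity
  · nlinarith

section gibbs

variable {ι : Type} [Fintype ι] [DecidableEq ι] {Ω : Type} [MeasurableSpace Ω] {m : Measure Ω}
  {k : ℝ} {S : ι → Ω → ℝ} {M0 : ℝ} {K K' R : Finset ι} {w : (ι → ℝ) → ℝ} {h : Ω → ℝ} {C0 : ℝ}

/-- the two point functions of the row -/
noncomputable def r2 (m : Measure Ω) (k : ℝ) (S : ι → Ω → ℝ) (K R : Finset ι)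
    (w : (ι → ℝ) → ℝ) (z : ι → ℝ) : ℝ :=
  ∑ e ∈ R, ∑ f ∈ R, cx (g1 ι) K w (avm m k S (fun ω => S e ω * S f ω)) z ^ 2

lemma r2_nonneg (m : Measure Ω) (k : ℝ) (S : ι → Ω → ℝ) (K R : Finset ι)
    (w : (ι → ℝ) → ℝ) (z : ι → ℝ) : 0 ≤ r2 m k S K R w z :=
  Finset.sum_nonneg fun _ _ => Finset.sum_nonneg fun _ _ => sq_nonneg _

variable (hG : GM m S M0) (hw : Wt (g1 ι) w)
include hG hw

lemma bm_r2 (k : ℝ) (K R : Finset ι) : BM (r2 m k S K R w) :=
  BM.sum _ fun e _ => BM.sum _ fun f _ =>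
    BM.sq' (hw.bm_cx K (H347.bm hG k ((hG.bS e).mul (hG.bS f))))

lemma cx_avm_sum (k : ℝ) (K R : Finset ι) (a : ι → ℝ) (z : ι → ℝ) :
    cx (g1 ι) K w (avm m k S (fun ω => (∑ e ∈ R, a e * S e ω) ^ 2)) z =
      ∑ e ∈ R, ∑ f ∈ R, a e * a f * cx (g1 ι) K w (avm m k S (fun ω => S e ω * S f ω)) z := by
  have e1 : (fun ω => (∑ e ∈ R, a e * S e ω) ^ 2) =
      fun ω => ∑ e ∈ R, ∑ f ∈ R, (a e * a f) * (S e ω * S f ω) := by
    funext ω
    rw [sq, Finset.sum_mul_sum]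
    exact Finset.sum_congr rfl fun e _ => Finset.sum_congr rfl fun f _ => by ring
  have e2 : avm m k S (fun ω => (∑ e ∈ R, a e * S e ω) ^ 2) =
      fun y => ∑ e ∈ R, ∑ f ∈ R, (a e * a f) * avm m k S (fun ω => S e ω * S f ω) y := by
    funext y
    rw [e1, hG.av_sum k R fun e _ => Bm.sum R fun f _ =>
      (((hG.bS e).mul (hG.bS f)).const_mul (a e * a f))]
    refine Finset.sum_congr rfl fun e _ => ?_
    rw [hG.av_sum k R fun f _ => (((hG.bS e).mul (hG.bS f)).const_mul (a e * a f))]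
    exact Finset.sum_congr rfl fun f _ => H196.av_mul m k S (a e * a f) (fun ω => S e ω * S f ω) y
  have b2 : ∀ e f, BM (fun y => (a e * a f) * avm m k S (fun ω => S e ω * S f ω) y) := fun e f =>
    (BM.const _).mul (H347.bm hG k ((hG.bS e).mul (hG.bS f)))
  rw [e2, cx_sum hw R (fun e _ => BM.sum R fun f _ => b2 e f) z]
  refine Finset.sum_congr rfl fun e _ => ?_
  rw [cx_sum hw R (fun f _ => b2 e f) z]
  exact Finset.sum_congr rfl fun f _ => cx_const_mul hw _ z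

/-- the squares of the conditional means of `⟨h S_e⟩` -/
theorem sum_hS (k : ℝ) (hh : Bm h) (hC : ∀ ω, |h ω| ≤ C0) (K R : Finset ι) (z : ι → ℝ) :
    ∑ e ∈ R, cx (g1 ι) K w (avm m k S (fun ω => h ω * S e ω)) z ^ 2 ≤
      C0 ^ 2 * √(r2 m k S K R w z) := by
  set a : ι → ℝ := fun e => cx (g1 ι) K w (avm m k S (fun ω => h ω * S e ω)) z with ha
  refine dual_num R a (fun e f => cx (g1 ι) K w (avm m k S (fun ω => S e ω * S f ω)) z) ?_
  rw [← cx_avm_sum hG hw]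
  have bY : Bm fun ω => ∑ e ∈ R, a e * S e ω := Bm.sum R fun e _ => (hG.bS e).const_mul _
  have e1 : ∑ e ∈ R, a e ^ 2 = cx (g1 ι) K w (avm m k S
      (fun ω => h ω * ∑ e ∈ R, a e * S e ω)) z := by
    have e2 : (fun ω => h ω * ∑ e ∈ R, a e * S e ω) = fun ω => ∑ e ∈ R, a e * (h ω * S e ω) := by
      funext ω
      rw [Finset.mul_sum]
      exact Finset.sum_congr rfl fun e _ => by ring
    have e3 : avm m k S (fun ω => ∑ e ∈ R, a e * (h ω * S e ω)) =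
        fun y => ∑ e ∈ R, a e * avm m k S (fun ω => h ω * S e ω) y := by
      funext y
      rw [hG.av_sum k R fun e _ => ((hh.mul (hG.bS e)).const_mul (a e))]
      exact Finset.sum_congr rfl fun e _ => H196.av_mul m k S (a e) (fun ω => h ω * S e ω) y
    rw [e2, e3, cx_sum hw R (fun e _ => (BM.const _).mul (H347.bm hG k (hh.mul (hG.bS e)))) z]
    refine Finset.sum_congr rfl fun e _ => ?_
    rw [cx_const_mul hw, sq]
  rw [e1]
  refine (cx_sq_le hw (H347.bm hG k (hh.mul bY)) z).trans ?_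
  rw [← cx_const_mul hw]
  refine cx_mono hw (BM.sq' (H347.bm hG k (hh.mul bY)))
    ((BM.const _).mul (H347.bm hG k (bY.pow 2))) (fun y => ?_) z
  refine (hG.av_sq_le k (hh.mul bY) y).trans ?_
  rw [← H196.av_mul]
  refine hG.av_mono k ((hh.mul bY).pow 2) ((bY.pow 2).const_mul _) (fun ω => ?_) y
  rw [mul_pow]
  refine mul_le_mul_of_nonneg_right ?_ (sq_nonneg _)
  rw [← sq_abs]
  exact pow_le_pow_left₀ (abs_nonneg _) (hC ω) 2

/-- the squares of the conditional means of `⟨h⟩ ⟨S_e⟩` -/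
theorem sum_hmS (k : ℝ) (hh : Bm h) (hC : ∀ ω, |h ω| ≤ C0) (K R : Finset ι) (z : ι → ℝ) :
    ∑ e ∈ R, cx (g1 ι) K w (fun y => avm m k S h y * avm m k S (S e) y) z ^ 2 ≤
      C0 ^ 2 * √(r2 m k S K R w z) := by
  set a : ι → ℝ := fun e => cx (g1 ι) K w (fun y => avm m k S h y * avm m k S (S e) y) z with ha
  refine dual_num R a (fun e f => cx (g1 ι) K w (avm m k S (fun ω => S e ω * S f ω)) z) ?_
  rw [← cx_avm_sum hG hw]
  have bY : Bm fun ω => ∑ e ∈ R, a e * S e ω := Bm.sum R fun e _ => (hG.bS e).const_mul _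
  have bh := H347.bm hG k hh
  have e1 : ∑ e ∈ R, a e ^ 2 = cx (g1 ι) K w (fun y => avm m k S h y *
      avm m k S (fun ω => ∑ e ∈ R, a e * S e ω) y) z := by
    have e3 : (fun y => avm m k S h y * avm m k S (fun ω => ∑ e ∈ R, a e * S e ω) y) =
        fun y => ∑ e ∈ R, a e * (avm m k S h y * avm m k S (S e) y) := by
      funext y
      rw [hG.av_sum k R fun e _ => ((hG.bS e).const_mul (a e)), Finset.mul_sum]
      refine Finset.sum_congr rfl fun e _ => ?_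
      rw [H196.av_mul m k S (a e) (S e) y]
      ring
    rw [e3, cx_sum hw R (fun e _ => (BM.const _).mul (bh.mul (H347.bm hG k (hG.bS e)))) z]
    refine Finset.sum_congr rfl fun e _ => ?_
    rw [cx_const_mul hw, sq]
  rw [e1]
  refine (cx_sq_le hw (bh.mul (H347.bm hG k bY)) z).trans ?_
  rw [← cx_const_mul hw]
  refine cx_mono hw (BM.sq' (bh.mul (H347.bm hG k bY)))
    ((BM.const _).mul (H347.bm hG k (bY.pow 2))) (fun y => ?_) z
  show (avm m k S h y * avm m k S (fun ω => ∑ e ∈ R, a e * S e ω) y) ^ 2 ≤ _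
  rw [mul_pow]
  refine mul_le_mul ?_ (hG.av_sq_le k bY y) (sq_nonneg _) (sq_nonneg _)
  rw [← sq_abs]
  exact pow_le_pow_left₀ (abs_nonneg _) (hG.abs_av_le k hh.1 hC y) 2

/-- the squares of the conditional means of `⟨S_e⟩` -/
theorem sum_mS (k : ℝ) (K R : Finset ι) (z : ι → ℝ) :
    ∑ e ∈ R, cx (g1 ι) K w (avm m k S (S e)) z ^ 2 ≤ √(r2 m k S K R w z) := by
  have h1 := sum_hS (h := fun _ => 1) (C0 := 1) hG hw k (Bm.const 1) (fun _ => by simp) K R z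
  simpa only [one_mul, one_pow] using h1

end gibbs

section n4

variable {ι : Type} [Fintype ι] [DecidableEq ι] {Ω : Type} [MeasurableSpace Ω] {m : Measure Ω}
  {S : ι → Ω → ℝ} {M0 : ℝ} {K K' : Finset ι} {h : Ω → ℝ} {C0 x L : ℝ}

/-- **the conditional fourth moment of `N = cx K' w ⟨h⟩`** -/
theorem n4 (hG : GM m S M0) (hK : K ⊆ K') (hh : Bm h) (hC : ∀ ω, |h ω| ≤ C0)
    (hx0 : 0 ≤ x) (hx1 : x ≤ 1)
    (h0 : ∀ z, cx (g1 ι) K (Zxm m 1 S x) (avm m 1 S h) z = 0)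
    (hL0 : 0 ≤ L) (hL : ∀ ω, ∑ e ∈ K' \ K, S e ω ^ 2 ≤ L ^ 2) (hL1 : x * L ≤ 1 / 2) :
    ex (g1 ι) (Zxm m 1 S x) (fun z => cx (g1 ι) K' (Zxm m 1 S x) (avm m 1 S h) z ^ 4) ≤
      10368 * C0 ^ 4 * ex (g1 ι) (Zxm m 1 S x) (r2 m 1 S K' (K' \ K) (Zxm m 1 S x)) := by
  set w := Zxm m 1 S x with hwd
  have hw : Wt (g1 ι) w := H347.wt hG 1 x
  have ew : EG w := hG.eg_Zx 1 x
  have bh : BM (avm m 1 S h) := H347.bm hG 1 hh
  have bS : ∀ e, BM (avm m 1 S (S e)) := fun e => H347.bm hG 1 (hG.bS e)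
  have bhS : ∀ e, BM (avm m 1 S (fun ω => h ω * S e ω)) := fun e =>
    H347.bm hG 1 (hh.mul (hG.bS e))
  set N : (ι → ℝ) → ℝ := cx (g1 ι) K' w (avm m 1 S h) with hN
  have hCN : ∀ z, N z ^ 2 ≤ C0 ^ 2 := fun z => by
    rw [← sq_abs]
    exact pow_le_pow_left₀ (abs_nonneg _) (hw.abs_cx_le K' bh (hG.abs_av_le 1 hh.1 hC) z) 2
  set L1 : ι → (ι → ℝ) → ℝ := fun e y => x * (1 * avm m 1 S (S e) y) with hL1d
  set N' : ι → (ι → ℝ) → ℝ := fun e z => cx (g1 ι) K' w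
      (fun y => 1 * (avm m 1 S (fun ω => h ω * S e ω) y - avm m 1 S h y * avm m 1 S (S e) y) +
        avm m 1 S h y * L1 e y) z - N z * cx (g1 ι) K' w (L1 e) z with hN'
  have bL1 : ∀ e, BM (L1 e) := fun e => (BM.const _).mul ((BM.const _).mul (bS e))
  have bnum : ∀ e, BM (fun y => 1 * (avm m 1 S (fun ω => h ω * S e ω) y -
      avm m 1 S h y * avm m 1 S (S e) y) + avm m 1 S h y * L1 e y) := fun e =>
    ((BM.const _).mul ((bhS e).sub (bh.mul (bS e)))).add (bh.mul (bL1 e))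
  have hNd : ∀ e ∈ K' \ K, PD e N (N' e) := by
    intro e he
    have he' : e ∈ K' := (Finset.mem_sdiff.1 he).1
    exact pd_cx he' hw (H161.pd_Zx hG 1 x e) ew
      (((hG.eg_av 1 (hG.bS e)).const_mul 1).const_mul x) (hG.pd_av 1 e hh) (hG.eg_av 1 hh)
      (((hG.eg_av 1 (hh.mul (hG.bS e))).sub
        ((hG.eg_av 1 hh).mul (hG.eg_av 1 (hG.bS e)))).const_mul 1)
  have hV : ∀ e ∈ K' \ K, PD e (fun z => Real.log (wn (gs ι) K' w z))
      (cx (g1 ι) K' w (L1 e)) := by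
    intro e he
    have he' : e ∈ K' := (Finset.mem_sdiff.1 he).1
    exact pd_lwn he' hw (H161.pd_Zx hG 1 x e) ew
      (((hG.eg_av 1 (hG.bS e)).const_mul 1).const_mul x)
  have cL1 : ∀ e z, cx (g1 ι) K' w (L1 e) z = x * cx (g1 ι) K' w (avm m 1 S (S e)) z := by
    intro e z
    rw [hL1d]
    simp only [one_mul]
    exact cx_const_mul hw x z
  -- the row density has a bounded logarithmic gradient
  have hLs : ∀ z, ∑ e ∈ K' \ K, cx (g1 ι) K' w (L1 e) z ^ 2 ≤ (x * L) ^ 2 := by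
    intro z
    simp only [cL1, mul_pow]
    rw [← Finset.mul_sum]
    refine mul_le_mul_of_nonneg_left ?_ (sq_nonneg _)
    have b2 : ∀ e, BM (fun y => avm m 1 S (S e) y ^ 2) := fun e => BM.sq' (bS e)
    refine (Finset.sum_le_sum fun e _ => cx_sq_le hw (bS e) z).trans ?_
    rw [← cx_sum hw (K' \ K) (fun e _ => b2 e) z]
    have h1 : ∀ y, ∑ e ∈ K' \ K, avm m 1 S (S e) y ^ 2 ≤ L ^ 2 := by
      intro y
      refine (Finset.sum_le_sum fun e _ => hG.av_sq_le 1 (hG.bS e) y).trans ?_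
      rw [← hG.av_sum 1 (K' \ K) fun e _ => (hG.bS e).pow 2]
      have h2 := hG.av_mono 1 (Bm.sum (K' \ K) fun e _ => (hG.bS e).pow 2)
        (Bm.const (L ^ 2)) hL y
      rwa [hG.av_const] at h2
    have h2 := cx_mono hw (K := K') (BM.sum (K' \ K) fun e _ => b2 e) (BM.const (L ^ 2)) h1 z
    refine h2.trans (le_of_eq ?_)
    exact cx_dep hw (K := K') (Q := fun _ => L ^ 2) (fun _ _ => rfl) z
  have main := fourth_ex (K := K) (K' := K') (w := w) (N := N) (N' := N')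
    (V' := fun e => cx (g1 ι) K' w (L1 e)) (L := x * L) hw hK (hw.bm_cx K' bh)
    (dep_cx K') hNd
    (fun e _ => (hw.bm_cx K' (bnum e)).sub ((hw.bm_cx K' bh).mul (hw.bm_cx K' (bL1 e))))
    (fun e _ y y' => by
      show N' e (glue K' y y') = N' e y
      rw [hN']
      simp only
      rw [dep_cx K' y y', dep_cx (Ψ := L1 e) K' y y', hN, dep_cx K' y y'])
    hV (fun e _ => by
      obtain ⟨C, hC'⟩ := (hw.bm_cx K' (bL1 e)).bd
      exact EG.of_bdd (hw.bm_cx K' (bL1 e)).meas hC')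
    (by
      have := ew.J (H161.lvK K') 0
      rw [← wn_eq_J] at this
      exact this)
    hLs (mul_nonneg hx0 hL0) hL1
    (fun z => by
      rw [hN, cx_cx hw hK bh]
      exact h0 z)
  refine main.trans ?_
  -- the gradient
  have hgrad : ∀ z, (∑ e ∈ K' \ K, N' e z ^ 2) ^ 2 ≤
      36 * C0 ^ 4 * r2 m 1 S K' (K' \ K) w z := by
    intro z
    have e1 : ∀ e, N' e z = cx (g1 ι) K' w (avm m 1 S (fun ω => h ω * S e ω)) z -
        (1 - x) * cx (g1 ι) K' w (fun y => avm m 1 S h y * avm m 1 S (S e) y) z -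
        x * (N z * cx (g1 ι) K' w (avm m 1 S (S e)) z) := by
      intro e
      rw [hN']
      simp only
      rw [cL1]
      have e2 : (fun y => 1 * (avm m 1 S (fun ω => h ω * S e ω) y -
          avm m 1 S h y * avm m 1 S (S e) y) + avm m 1 S h y * L1 e y) =
          fun y => avm m 1 S (fun ω => h ω * S e ω) y -
            (1 - x) * (avm m 1 S h y * avm m 1 S (S e) y) := by
        funext y
        rw [hL1d]
        simp only
        ring
      rw [e2, cx_sub hw (bhS e) ((BM.const _).mul (bh.mul (bS e))), cx_const_mul hw]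
      ring
    have s1 := sum_hS hG hw 1 hh hC K' (K' \ K) z
    have s2 := sum_hmS hG hw 1 hh hC K' (K' \ K) z
    have s3 := sum_mS hG hw 1 K' (K' \ K) z
    set a1 := fun e => cx (g1 ι) K' w (avm m 1 S (fun ω => h ω * S e ω)) z with ha1
    set a2 := fun e => cx (g1 ι) K' w (fun y => avm m 1 S h y * avm m 1 S (S e) y) z with ha2
    set a3 := fun e => cx (g1 ι) K' w (avm m 1 S (S e)) z with ha3
    set r := r2 m 1 S K' (K' \ K) w z with hr
    have hr0 : 0 ≤ r := r2_nonneg _ _ _ _ _ _ _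
    have e3 : ∀ e, N' e z ^ 2 ≤ 3 * (a1 e ^ 2 + (1 - x) ^ 2 * a2 e ^ 2 +
        x ^ 2 * (C0 ^ 2 * a3 e ^ 2)) := by
      intro e
      rw [e1]
      have h1 : N z ^ 2 * a3 e ^ 2 ≤ C0 ^ 2 * a3 e ^ 2 :=
        mul_le_mul_of_nonneg_right (hCN z) (sq_nonneg _)
      have h2 : x ^ 2 * (N z ^ 2 * a3 e ^ 2) ≤ x ^ 2 * (C0 ^ 2 * a3 e ^ 2) :=
        mul_le_mul_of_nonneg_left h1 (sq_nonneg _)
      have h3 : (a1 e - (1 - x) * a2 e - x * (N z * a3 e)) ^ 2 ≤
          3 * (a1 e ^ 2 + (1 - x) ^ 2 * a2 e ^ 2 + x ^ 2 * (N z ^ 2 * a3 e ^ 2)) := by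
        nlinarith [sq_nonneg (a1 e + (1 - x) * a2 e), sq_nonneg (a1 e + x * (N z * a3 e)),
          sq_nonneg ((1 - x) * a2 e - x * (N z * a3 e))]
      linarith
    have e4 : ∑ e ∈ K' \ K, N' e z ^ 2 ≤ 6 * C0 ^ 2 * √r := by
      refine (Finset.sum_le_sum fun e _ => e3 e).trans ?_
      rw [← Finset.mul_sum, Finset.sum_add_distrib, Finset.sum_add_distrib, ← Finset.mul_sum,
        ← Finset.mul_sum, ← Finset.mul_sum]
      have h1 : (1 - x) ^ 2 * ∑ e ∈ K' \ K, a2 e ^ 2 ≤ (1 - x) ^ 2 * (C0 ^ 2 * √r) :=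
        mul_le_mul_of_nonneg_left s2 (sq_nonneg _)
      have h2 : x ^ 2 * (C0 ^ 2 * ∑ e ∈ K' \ K, a3 e ^ 2) ≤ x ^ 2 * (C0 ^ 2 * √r) :=
        mul_le_mul_of_nonneg_left (mul_le_mul_of_nonneg_left s3 (sq_nonneg _)) (sq_nonneg _)
      have h3 : (1 - x) ^ 2 + x ^ 2 ≤ 1 := by nlinarith
      have h4 : 0 ≤ C0 ^ 2 * √r := by positivity
      have h5 := mul_le_mul_of_nonneg_right h3 h4
      nlinarith
    have e5 : 0 ≤ ∑ e ∈ K' \ K, N' e z ^ 2 := Finset.sum_nonneg fun e _ => sq_nonneg _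
    refine (pow_le_pow_left₀ e5 e4 2).trans (le_of_eq ?_)
    rw [mul_pow, Real.sq_sqrt hr0]
    ring
  have bN' : ∀ e, BM (N' e) := fun e =>
    (hw.bm_cx K' (bnum e)).sub ((hw.bm_cx K' bh).mul (hw.bm_cx K' (bL1 e)))
  have h1 := H487.ex_mono hw (BM.sq' (BM.sum (K' \ K) fun e _ => BM.sq' (bN' e)))
    ((BM.const (36 * C0 ^ 4)).mul (bm_r2 hG hw 1 K' (K' \ K))) hgrad
  rw [H487.ex_const_mul] at h1
  have h2 : 288 * (36 * C0 ^ 4 * ex (g1 ι) w (r2 m 1 S K' (K' \ K) w)) =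
      10368 * C0 ^ 4 * ex (g1 ι) w (r2 m 1 S K' (K' \ K) w) := by ring
  rw [← h2]
  exact mul_le_mul_of_nonneg_left h1 (by norm_num)

end n4

/-! ### the modulated SK system -/

section model

variable {n : ℕ} {LB LF : Type} [Fintype LB] [DecidableEq LB] [Fintype LF] [DecidableEq LF]
variable (b : ℝ) (cB : LB → ℝ) (cF : LF → ℝ) (s η : ℝ) {lam : ℝ} (c : ℝ)

/-- the squares of the magnetisations of the visible sites -/
noncomputable def q1 (n : ℕ) (b : ℝ) (cB : LB → ℝ) (cF : LF → ℝ) (s η lam c : ℝ)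
    (S : Finset (Fin n)) (K : Finset (Co n LB LF)) (w : (Co n LB LF → ℝ) → ℝ)
    (z : Co n LB LF → ℝ) : ℝ :=
  ∑ j ∈ S, cx (g1 _) K w (avm (muA (Xs n) lam η c) 1 (Sm b cB cF s η) (fun ω => sp ω.2 j)) z ^ 2

/-- the squares of the two point functions of the visible sites -/
noncomputable def q2 (n : ℕ) (b : ℝ) (cB : LB → ℝ) (cF : LF → ℝ) (s η lam c : ℝ)
    (S : Finset (Fin n)) (K : Finset (Co n LB LF)) (w : (Co n LB LF → ℝ) → ℝ)
    (z : Co n LB LF → ℝ) : ℝ :=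
  ∑ j ∈ S, ∑ l ∈ S, cx (g1 _) K w
    (avm (muA (Xs n) lam η c) 1 (Sm b cB cF s η) (fun ω => sp ω.2 j * sp ω.2 l)) z ^ 2

lemma cx_av_cmul {Ω : Type} [MeasurableSpace Ω] {ι : Type} [Fintype ι] [DecidableEq ι]
    (m : Measure Ω) (S : ι → Ω → ℝ) (K : Finset ι) (w : (ι → ℝ) → ℝ) (a : ℝ) (g : Ω → ℝ)
    (z : ι → ℝ) :
    cx (g1 ι) K w (avm m 1 S (fun ω => a * g ω)) z = a * cx (g1 ι) K w (avm m 1 S g) z := by
  have e : avm m 1 S (fun ω => a * g ω) = fun y => a * avm m 1 S g y :=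
    funext fun y => H196.av_mul m 1 S a g y
  rw [e]
  exact H347.cx_cmul K w _ a z

/-- **the two point functions of the row of a hidden site** -/
theorem r2_kset {S : Finset (Fin n)} {i0 : Fin n} (hi : i0 ∉ S) (BL : Finset LB)
    (FL : Finset LF) (K : Finset (Co n LB LF)) {w : (Co n LB LF → ℝ) → ℝ}
    (hl : 0 < lam) (hη : 0 ≤ η) (hw : Wt (g1 _) w) (z : Co n LB LF → ℝ) :
    r2 (muA (Xs n) lam η c) 1 (Sm b cB cF s η) K (Rw i0 S BL FL) w z =
      (b ^ 2 / n * ∑ l ∈ BL, cB l ^ 2) ^ 2 * q2 n b cB cF s η lam c S K w z +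
        2 * (b ^ 2 / n * ∑ l ∈ BL, cB l ^ 2) * (∑ l ∈ FL, cF l ^ 2) *
          q1 n b cB cF s η lam c S K w z + (∑ l ∈ FL, cF l ^ 2) ^ 2 := by
  set C : (ℝ × Xs n → ℝ) → ℝ := fun g =>
    cx (g1 _) K w (avm (muA (Xs n) lam η c) 1 (Sm b cB cF s η) g) z with hC
  have Cmul : ∀ (a : ℝ) (g : ℝ × Xs n → ℝ), C (fun ω => a * g ω) = a * C g := fun a g =>
    cx_av_cmul _ _ K w a g z
  have C1 : C (fun _ => 1) = 1 := by
    have h1 : avm (muA (Xs n) lam η c) 1 (Sm (LB := LB) (LF := LF) b cB cF s η)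
        (fun _ => (1 : ℝ)) = fun _ => 1 := funext fun y => (gmA b cB cF s hl hη c).av_one 1 y
    show cx (g1 _) K w (avm (muA (Xs n) lam η c) 1 (Sm b cB cF s η) (fun _ => (1 : ℝ))) z = 1
    rw [h1]
    exact cx_one hw z
  have hs : ∀ ω : ℝ × Xs n, sp ω.2 i0 * sp ω.2 i0 = 1 := fun ω => sp_mul_self ω.2 i0
  set τ := b ^ 2 / n * ∑ l ∈ BL, cB l ^ 2 with hτ
  set v := ∑ l ∈ FL, cF l ^ 2 with hv
  have hbn := div_sqrt_sq b n
  -- pairs of energies
  have hbb : ∀ p ∈ row i0, ∀ q ∈ row i0, ∀ l l', C (fun ω => Sm b cB cF s η (bd LF p l) ω *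
      Sm b cB cF s η (bd LF q l') ω) ^ 2 =
      (b ^ 2 / n * cB l ^ 2) * (b ^ 2 / n * cB l' ^ 2) *
        C (fun ω => sp ω.2 (oth i0 p) * sp ω.2 (oth i0 q)) ^ 2 := by
    intro p hp q hq l l'
    have e : (fun ω : ℝ × Xs n => Sm b cB cF s η (bd LF p l) ω *
        Sm b cB cF s η (bd LF q l') ω) =
        fun ω => (b ^ 2 / n * (cB l * cB l')) * (sp ω.2 (oth i0 p) * sp ω.2 (oth i0 q)) := by
      funext ω
      rw [Sm_bd b cB cF s η hp, Sm_bd b cB cF s η hq, ← hbn]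
      linear_combination (b / √n * (b / √n)) * (cB l * cB l') *
        (sp ω.2 (oth i0 p) * sp ω.2 (oth i0 q)) * hs ω
    rw [e, Cmul]
    ring
  have hbf : ∀ p ∈ row i0, ∀ l l', C (fun ω => Sm b cB cF s η (bd LF p l) ω *
      Sm b cB cF s η (fd LB i0 l') ω) ^ 2 =
      (b ^ 2 / n * cB l ^ 2) * cF l' ^ 2 * C (fun ω => sp ω.2 (oth i0 p)) ^ 2 := by
    intro p hp l l'
    have e : (fun ω : ℝ × Xs n => Sm b cB cF s η (bd LF p l) ω *
        Sm b cB cF s η (fd LB i0 l') ω) =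
        fun ω => (b / √n * (cB l * cF l')) * sp ω.2 (oth i0 p) := by
      funext ω
      rw [Sm_bd b cB cF s η hp, Sm_fd]
      linear_combination (b / √n) * (cB l * cF l') * sp ω.2 (oth i0 p) * hs ω
    rw [e, Cmul, ← hbn]
    ring
  have hfb : ∀ q ∈ row i0, ∀ l l', C (fun ω => Sm b cB cF s η (fd LB i0 l) ω *
      Sm b cB cF s η (bd LF q l') ω) ^ 2 =
      cF l ^ 2 * (b ^ 2 / n * cB l' ^ 2) * C (fun ω => sp ω.2 (oth i0 q)) ^ 2 := by
    intro q hq l l'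
    have e : (fun ω : ℝ × Xs n => Sm b cB cF s η (fd LB i0 l) ω *
        Sm b cB cF s η (bd LF q l') ω) =
        fun ω => Sm b cB cF s η (bd LF q l') ω * Sm b cB cF s η (fd LB i0 l) ω :=
      funext fun ω => mul_comm _ _
    rw [e, hbf q hq]
    ring
  have hff : ∀ l l', C (fun ω => Sm b cB cF s η (fd LB i0 l) ω *
      Sm b cB cF s η (fd LB i0 l') ω) ^ 2 = cF l ^ 2 * cF l' ^ 2 := by
    intro l l'
    have e : (fun ω : ℝ × Xs n => Sm b cB cF s η (fd LB i0 l) ω *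
        Sm b cB cF s η (fd LB i0 l') ω) =
        fun ω => (cF l * cF l') * (fun _ : ℝ × Xs n => (1 : ℝ)) ω := by
      funext ω
      rw [Sm_fd, Sm_fd]
      linear_combination (cF l * cF l') * hs ω
    rw [e, Cmul, C1]
    ring
  -- inner sums
  have ib : ∀ p ∈ row i0, ∀ l, ∑ f ∈ Rw i0 S BL FL, C (fun ω => Sm b cB cF s η (bd LF p l) ω *
      Sm b cB cF s η f ω) ^ 2 = (b ^ 2 / n * cB l ^ 2) *
      (τ * ∑ j ∈ S, C (fun ω => sp ω.2 (oth i0 p) * sp ω.2 j) ^ 2 +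
        v * C (fun ω => sp ω.2 (oth i0 p)) ^ 2) := by
    intro p hp l
    rw [sum_Rw' hi _ (fun j l' => (b ^ 2 / n * cB l ^ 2) * (b ^ 2 / n * cB l' ^ 2) *
      C (fun ω => sp ω.2 (oth i0 p) * sp ω.2 j) ^ 2) (fun q hq _ l' _ => hbb p hp q hq l l')]
    simp only [hbf p hp]
    rw [mul_add]
    congr 1
    · rw [hτ, Finset.mul_sum, Finset.mul_sum]
      refine Finset.sum_congr rfl fun j _ => ?_
      rw [Finset.mul_sum, Finset.sum_mul, Finset.mul_sum]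
      exact Finset.sum_congr rfl fun l' _ => by ring
    · rw [hv, Finset.sum_mul, Finset.mul_sum]
      exact Finset.sum_congr rfl fun l' _ => by ring
  have ifl : ∀ l, ∑ f ∈ Rw i0 S BL FL, C (fun ω => Sm b cB cF s η (fd LB i0 l) ω *
      Sm b cB cF s η f ω) ^ 2 = cF l ^ 2 *
      (τ * ∑ j ∈ S, C (fun ω => sp ω.2 j) ^ 2 + v) := by
    intro l
    rw [sum_Rw' hi _ (fun j l' => cF l ^ 2 * (b ^ 2 / n * cB l' ^ 2) *
      C (fun ω => sp ω.2 j) ^ 2) (fun q hq _ l' _ => hfb q hq l l')]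
    simp only [hff]
    rw [mul_add]
    congr 1
    · rw [hτ, Finset.mul_sum, Finset.mul_sum]
      refine Finset.sum_congr rfl fun j _ => ?_
      rw [Finset.mul_sum, Finset.sum_mul, Finset.mul_sum]
      exact Finset.sum_congr rfl fun l' _ => by ring
    · rw [hv, Finset.mul_sum]
  have e0 : r2 (muA (Xs n) lam η c) 1 (Sm b cB cF s η) K (Rw i0 S BL FL) w z =
      ∑ e ∈ Rw i0 S BL FL, ∑ f ∈ Rw i0 S BL FL,
        C (fun ω => Sm b cB cF s η e ω * Sm b cB cF s η f ω) ^ 2 := rfl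
  have e1 : q2 n b cB cF s η lam c S K w z =
      ∑ j ∈ S, ∑ l ∈ S, C (fun ω => sp ω.2 j * sp ω.2 l) ^ 2 := rfl
  have e2 : q1 n b cB cF s η lam c S K w z = ∑ j ∈ S, C (fun ω => sp ω.2 j) ^ 2 := rfl
  rw [e0, e1, e2]
  clear_value C
  rw [sum_Rw' hi _ (fun j l => (b ^ 2 / n * cB l ^ 2) *
      (τ * ∑ j' ∈ S, C (fun ω => sp ω.2 j * sp ω.2 j') ^ 2 + v * C (fun ω => sp ω.2 j) ^ 2))
    (fun p hp _ l _ => ib p hp l)]
  simp only [ifl]
  have f1 : ∑ j ∈ S, ∑ l ∈ BL, (b ^ 2 / n * cB l ^ 2) *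
      (τ * ∑ j' ∈ S, C (fun ω => sp ω.2 j * sp ω.2 j') ^ 2 + v * C (fun ω => sp ω.2 j) ^ 2) =
      τ * ∑ j ∈ S, (τ * ∑ j' ∈ S, C (fun ω => sp ω.2 j * sp ω.2 j') ^ 2 +
        v * C (fun ω => sp ω.2 j) ^ 2) := by
    rw [Finset.mul_sum]
    refine Finset.sum_congr rfl fun j _ => ?_
    rw [← Finset.sum_mul]
    congr 1
    rw [hτ, Finset.mul_sum]
  rw [f1, ← Finset.sum_mul, Finset.sum_add_distrib, ← Finset.mul_sum, ← Finset.mul_sum]
  ring

variable {x : ℝ}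

/-- **N4-M**: the fourth moment of the magnetisation of the next site. -/
theorem n4M (hl : 0 < lam) (hη : 0 ≤ η) {S : Finset (Fin n)} {i0 : Fin n}
    (hi : i0 ∉ S) (BL : Finset LB) (FL : Finset LF) (hx0 : 0 ≤ x) (hx1 : x ≤ 1)
    (hx : x ^ 2 * (b ^ 2 * ∑ l ∈ BL, cB l ^ 2 + ∑ l ∈ FL, cF l ^ 2) ≤ 1 / 4) :
    ex (g1 (Co n LB LF)) (Wx n b cB cF s η lam c x)
        (fun z => cx (g1 _) (Kset (insert i0 S) BL FL) (Wx n b cB cF s η lam c x)
          (Fa b cB cF s η lam c i0) z ^ 4) ≤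
      10368 * (1 + η) ^ 4 *
        ((b ^ 2 / n * ∑ l ∈ BL, cB l ^ 2) ^ 2 * ex (g1 _) (Wx n b cB cF s η lam c x)
            (q2 n b cB cF s η lam c S (Kset (insert i0 S) BL FL) (Wx n b cB cF s η lam c x)) +
          2 * (b ^ 2 / n * ∑ l ∈ BL, cB l ^ 2) * (∑ l ∈ FL, cF l ^ 2) *
            ex (g1 _) (Wx n b cB cF s η lam c x)
            (q1 n b cB cF s η lam c S (Kset (insert i0 S) BL FL) (Wx n b cB cF s η lam c x)) +
          (∑ l ∈ FL, cF l ^ 2) ^ 2) := by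
  have hG := gmA (n := n) b cB cF s hl hη c
  have hw : Wt (g1 (Co n LB LF)) (Wx n b cB cF s η lam c x) := wtA b cB cF s hl hη c x
  have hKK : Kset S BL FL ⊆ Kset (LB := LB) (LF := LF) (insert i0 S) BL FL :=
    Kset_mono (Finset.subset_insert i0 S) (Finset.Subset.refl _) (Finset.Subset.refl _)
  have hR : Kset (LB := LB) (LF := LF) (insert i0 S) BL FL \ Kset S BL FL = Rw i0 S BL FL :=
    (Rw_eq hi).symm
  set v := ∑ l ∈ FL, cF l ^ 2 with hv
  set T := ∑ l ∈ BL, cB l ^ 2 with hT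
  have hv0 : 0 ≤ v := Finset.sum_nonneg fun _ _ => sq_nonneg _
  have hT0 : 0 ≤ T := Finset.sum_nonneg fun _ _ => sq_nonneg _
  have hn0 : (0 : ℝ) < n := by
    have : 0 < n := Fin.pos i0
    exact_mod_cast this
  set L : ℝ := √(b ^ 2 * T + v) with hL
  have hL2 : L ^ 2 = b ^ 2 * T + v := Real.sq_sqrt (by positivity)
  have hLs : ∀ ω : ℝ × Xs n, ∑ e ∈ Kset (LB := LB) (LF := LF) (insert i0 S) BL FL \
      Kset S BL FL, Sm b cB cF s η e ω ^ 2 ≤ L ^ 2 := by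
    intro ω
    rw [hR, sum_Rw_sq b cB cF s η hi BL FL ω, hL2]
    have h1 : (S.card : ℝ) ≤ n := by
      have := Finset.card_le_univ S
      rw [Fintype.card_fin] at this
      exact_mod_cast this
    have h2 : b ^ 2 / n * T * S.card ≤ b ^ 2 / n * T * n :=
      mul_le_mul_of_nonneg_left h1 (by positivity)
    have h3 : b ^ 2 / n * T * n = b ^ 2 * T := by field_simp
    linarith
  have hxL : x * L ≤ 1 / 2 := by
    have h1 : (x * L) ^ 2 ≤ (1 / 2) ^ 2 := by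
      rw [mul_pow, hL2]
      linarith
    exact le_of_sq_le_sq h1 (by norm_num)
  have main := n4 (K := Kset S BL FL) (K' := Kset (insert i0 S) BL FL) (h := fun w : ℝ × Xs n =>
      al η w.1 * sp w.2 i0) (C0 := 1 + η) (x := x) (L := L) hG hKK
    ((bm_of_al (n := n) hη).mul (bm_sp i0))
    (fun w => by
      have h1 := al_mem hη w.1
      rw [abs_mul, abs_sp, mul_one, abs_le]
      constructor <;> linarith [h1.1, h1.2]) hx0 hx1
    (fun z => by
      have hIG : InvG (Zxm (muA (Xs n) lam η c) 1 (Sm (LB := LB) (LF := LF) b cB cF s η) x) :=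
        invG_Z b cB cF s η hl c 1 x
      refine Sg.cx_hid hIG hi BL FL ?_ z
      have h1 := sg_sp (LB := LB) (LF := LF) b cB cF s η hl c 1 (fl i0) (al η) i0
      rwa [sp_fl_self] at h1)
    (Real.sqrt_nonneg _) hLs hxL
  rw [hR] at main
  refine main.trans ?_
  have e1 : r2 (muA (Xs n) lam η c) 1 (Sm b cB cF s η) (Kset (insert i0 S) BL FL)
      (Rw i0 S BL FL) (Wx n b cB cF s η lam c x) = fun z =>
      (b ^ 2 / n * T) ^ 2 * q2 n b cB cF s η lam c S (Kset (insert i0 S) BL FL)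
          (Wx n b cB cF s η lam c x) z +
        2 * (b ^ 2 / n * T) * v * q1 n b cB cF s η lam c S (Kset (insert i0 S) BL FL)
          (Wx n b cB cF s η lam c x) z + v ^ 2 := by
    funext z
    exact r2_kset b cB cF s η c hi BL FL _ hl hη hw z
  have b1 : BM (q1 n b cB cF s η lam c S (Kset (insert i0 S) BL FL)
      (Wx n b cB cF s η lam c x)) :=
    BM.sum _ fun j _ => BM.sq' (hw.bm_cx _ (H347.bm hG 1 (bm_sp j)))
  have b2 : BM (q2 n b cB cF s η lam c S (Kset (insert i0 S) BL FL)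
      (Wx n b cB cF s η lam c x)) :=
    BM.sum _ fun j _ => BM.sum _ fun l _ =>
      BM.sq' (hw.bm_cx _ (H347.bm hG 1 ((bm_sp j).mul (bm_sp l))))
  have e2 : ex (g1 (Co n LB LF)) (Wx n b cB cF s η lam c x)
      (r2 (muA (Xs n) lam η c) 1 (Sm b cB cF s η) (Kset (insert i0 S) BL FL)
      (Rw i0 S BL FL) (Wx n b cB cF s η lam c x)) =
      (b ^ 2 / n * T) ^ 2 * ex (g1 _) (Wx n b cB cF s η lam c x)
            (q2 n b cB cF s η lam c S (Kset (insert i0 S) BL FL) (Wx n b cB cF s η lam c x)) +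
          2 * (b ^ 2 / n * T) * v * ex (g1 _) (Wx n b cB cF s η lam c x)
            (q1 n b cB cF s η lam c S (Kset (insert i0 S) BL FL) (Wx n b cB cF s η lam c x)) +
          v ^ 2 := by
    rw [e1, H487.ex_add hw (((BM.const _).mul b2).add ((BM.const _).mul b1)) (BM.const _),
      H487.ex_add hw ((BM.const _).mul b2) ((BM.const _).mul b1), H487.ex_const_mul,
      H487.ex_const_mul, H487.ex_const hw]
  refine le_of_eq ?_
  rw [← e2]

end model

end Vale.Agent.P146.H205
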