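import Vale.Agent.P146.H122.RowUp1K
import Vale.Agent.P146.H122.UpB
import Vale.Agent.P146.H272.NeS1
import Vale.Agent.P146.H463.UpB2
import Vale.Agent.P146.H615.RowUp2

/-!
# P146: `KampUp` for all small `q`, from the literal inputs

* `up_S1`: first choice of the modulated field (exponent `1 / 7`), from `BRnE` and `RowUp2E`;
* `up_A`: the same from `BRnE` alone;
* `up_S2`: second choice (exponent `1 / 6`), from `BRnE`, `RowUp2F` and `NeFinE`.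
-/

open MeasureTheory ProbabilityTheory Filter Set

namespace Vale.Agent.P146.H205.UpF

open Vale.Agent.P146.H418 Vale.Agent.P146.H529 Vale.Agent.P146.H178 Vale.Agent.P146.H122
open Vale.Agent.P146.H463 (RowUp2F NeFinE kampUp_B)

/-- **The near end at the first stage.** -/
theorem n7E_s1 {a0 b₁ q A b : ℝ} (hq : 0 < q) (hb : 0 < b) (ha0 : a0 ≤ 1 / 7)
    (hb₁ : 100 * q < b₁) (hA : 1 ≤ A) : N7E a0 b₁ q A b := by
  filter_upwards [H272.n7_s1 hq hb ha0 hb₁ hA] with n k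
  intro y V al s lam η a hK _ hs T hT
  exact k y V al s lam η hK hs T hT.1 hT.2

/-- **The input `hU` of the first hand-in.** -/
theorem up_S1 {β b₁ : ℝ} (hβ : 1 < β) (hb₁ : 0 < b₁)
    (hBR : ∃ q0 : ℝ, 0 < q0 ∧ ∀ q : ℝ, 0 < q → q ≤ q0 → ∀ A : ℝ, 1 ≤ A → BRnE (1 / 7) b₁ q A β)
    (hR : ∃ q0 : ℝ, 0 < q0 ∧ ∀ q : ℝ, 0 < q → q ≤ q0 → ∀ A : ℝ, 1 ≤ A →
      RowUp2E (1 / 7) b₁ q A β) :
    ∃ q0 : ℝ, 0 < q0 ∧ ∀ q : ℝ, 0 < q → q ≤ q0 → KampUp β b₁ (1 / 6 - 1 / 7 + 1000 * q) (q / 2)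
      (10 * q) (11 * q) (24 * q) q (Kam β (sA q) (lA q) (hA q)) := by
  have hβ0 : 0 < β := by linarith
  obtain ⟨q1, hq1, g1⟩ := hBR
  obtain ⟨q2, hq2, g2⟩ := hR
  refine ⟨min (min q1 q2) (b₁ / 200), by positivity, fun q hq hqq => ?_⟩
  have h1 : q ≤ q1 := hqq.trans ((min_le_left _ _).trans (min_le_left _ _))
  have h2 : q ≤ q2 := hqq.trans ((min_le_left _ _).trans (min_le_right _ _))
  have h3 : q ≤ b₁ / 200 := hqq.trans (min_le_right _ _)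
  have h4 : 100 * q < b₁ := by linarith
  exact kampUp_one hβ0 hq (by norm_num : (1 / 7 : ℝ) ≤ 1 / 7) h4 le_rfl
    (fun A hA => rowUp1E_of hq hβ0 hA (by norm_num) h4 (g1 q hq h1 A hA))
    (fun A hA => g2 q hq h2 A hA)
    (fun A hA => n7E_s1 hq hβ0 (by norm_num) h4 hA)

/-- **The input `hU` of the first hand-in**, from the number of the big overlaps alone. -/
theorem up_A {β b₁ : ℝ} (hβ : 1 < β) (hb₁ : 0 < b₁)
    (hBR : ∃ q0 : ℝ, 0 < q0 ∧ ∀ q : ℝ, 0 < q → q ≤ q0 → ∀ A : ℝ, 1 ≤ A →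
      BRnE (1 / 7) b₁ q A β) :
    ∃ q0 : ℝ, 0 < q0 ∧ ∀ q : ℝ, 0 < q → q ≤ q0 → KampUp β b₁ (1 / 6 - 1 / 7 + 1000 * q) (q / 2)
      (10 * q) (11 * q) (24 * q) q (Kam β (sA q) (lA q) (hA q)) :=
  up_S1 hβ hb₁ hBR ⟨b₁ / 200, by positivity, fun q hq hqq A hA =>
    H615.rowUp2 hq (by linarith) hA le_rfl (by linarith)⟩

/-- **The input `hU` of the final hand-in.** -/
theorem up_S2 {β b₁ : ℝ} (hβ : 1 < β) (hb₁ : 0 < b₁)
    (hBR : ∃ q0 : ℝ, 0 < q0 ∧ ∀ q : ℝ, 0 < q → q ≤ q0 → ∀ A : ℝ, 1 ≤ A → BRnE (1 / 6) b₁ q A β)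
    (hR : ∃ q0 : ℝ, 0 < q0 ∧ ∀ q : ℝ, 0 < q → q ≤ q0 → ∀ A : ℝ, 1 ≤ A →
      RowUp2F (1 / 6) b₁ q A β)
    (hN : ∃ q0 : ℝ, 0 < q0 ∧ ∀ q : ℝ, 0 < q → q ≤ q0 → ∀ A : ℝ, 1 ≤ A →
      NeFinE (1 / 6) b₁ q A β) :
    ∃ q0 : ℝ, 0 < q0 ∧ ∀ q : ℝ, 0 < q → q ≤ q0 → KampUp β b₁ (1 / 6 - 1 / 6 + 1000 * q) (q / 2)
      (10 * q) (11 * q) (24 * q) q (Kam β (sB q) (lA q) (hA q)) := by
  have hβ0 : 0 < β := by linarith
  obtain ⟨q1, hq1, g1⟩ := hBR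
  obtain ⟨q2, hq2, g2⟩ := hR
  obtain ⟨q3, hq3, g3⟩ := hN
  refine ⟨min (min q1 q2) (min q3 (b₁ / 200)), by positivity, fun q hq hqq => ?_⟩
  have h1 : q ≤ q1 := hqq.trans ((min_le_left _ _).trans (min_le_left _ _))
  have h2 : q ≤ q2 := hqq.trans ((min_le_left _ _).trans (min_le_right _ _))
  have h3 : q ≤ q3 := hqq.trans ((min_le_right _ _).trans (min_le_left _ _))
  have h3' : q ≤ b₁ / 200 := hqq.trans ((min_le_right _ _).trans (min_le_right _ _))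
  have h4 : 100 * q < b₁ := by linarith
  exact kampUp_B hβ0 hq (by norm_num : (1 / 6 : ℝ) ≤ 1 / 6) h4 le_rfl
    (fun A hA => rowUp1E_of hq hβ0 hA (by norm_num) h4 (g1 q hq h1 A hA))
    (fun A hA => g2 q hq h2 A hA)
    (fun A hA => g3 q hq h3 A hA)

end Vale.Agent.P146.H205.UpF
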