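import Vale.Agent.P146.H197.E2r
import Vale.Agent.P146.H205.N4M

/-!
# P146: the error of the left side of the tested row equation in numbers

`e2num`: the error of `H197.e2r` with the second and the fourth moment of the magnetisation of the
next site replaced by `ex Q`, the step `inc` and the two point functions.
-/

open MeasureTheory ProbabilityTheory

namespace Vale.Agent.P146.H205

open Vale.Agent.P157.Lv hiding Dep
open Vale.Agent.P146.H196 Vale.Agent.P146.H646 Vale.Agent.P146.H475 Vale.Agent.P146.H347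
  Vale.Agent.P146.H487 Vale.Agent.P146.H325 Vale.Agent.P146.H197

set_option linter.unusedSectionVars false

variable {n : ℕ} {LB LF : Type} [Fintype LB] [DecidableEq LB] [Fintype LF] [DecidableEq LF]

/-- the step of `ex |M|^2` when one more site is revealed -/
noncomputable def inc2 (b : ℝ) (cB : LB → ℝ) (cF : LF → ℝ) (s η lam c x : ℝ)
    (S : Finset (Fin n)) (i0 : Fin n) (BL : Finset LB) (FL : Finset LF) : ℝ :=
  ∑ j ∈ S, (ex (g1 (Co n LB LF)) (Wx n b cB cF s η lam c x)
      (fun z => cx (g1 _) (Kset (insert i0 S) BL FL) (Wx n b cB cF s η lam c x)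
        (Fa b cB cF s η lam c j) z ^ 2) -
    ex (g1 (Co n LB LF)) (Wx n b cB cF s η lam c x)
      (fun z => cx (g1 _) (Kset S BL FL) (Wx n b cB cF s η lam c x)
        (Fa b cB cF s η lam c j) z ^ 2))

/-- the mean of `Q = |M|^2 / n` -/
noncomputable def exQ (b : ℝ) (cB : LB → ℝ) (cF : LF → ℝ) (s η lam c x : ℝ)
    (S : Finset (Fin n)) (BL : Finset LB) (FL : Finset LF) : ℝ :=
  ex (g1 (Co n LB LF)) (Wx n b cB cF s η lam c x)
    (fun z => H615.m2 S (fun j => cx (g1 _) (Kset S BL FL) (Wx n b cB cF s η lam c x)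
      (Fa b cB cF s η lam c j)) z / n)

variable (b : ℝ) (cB : LB → ℝ) (cF : LF → ℝ) (s η : ℝ)
variable {lam : ℝ} (hl : 0 < lam) (hη : 0 ≤ η) (c x : ℝ)
include hl hη

lemma inc2_nonneg (S : Finset (Fin n)) (i0 : Fin n) (BL : Finset LB) (FL : Finset LF) :
    0 ≤ inc2 b cB cF s η lam c x S i0 BL FL := by
  have hw : Wt (g1 (Co n LB LF)) (Wx n b cB cF s η lam c x) := wtA b cB cF s hl hη c x
  refine Finset.sum_nonneg fun j _ => sub_nonneg.2 ?_
  exact ex_cx_sq_mono hw
    (Kset_mono (Finset.subset_insert i0 S) (Finset.Subset.refl _) (Finset.Subset.refl _))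
    (bm_Fa b cB cF s η hl hη c j)

/-- **the second moment of the magnetisation of the next site** -/
theorem exN2 (hn : 0 < n) {S : Finset (Fin n)} (hS : S.Nonempty) {i0 : Fin n} (hi : i0 ∉ S)
    (BL : Finset LB) (FL : Finset LF) :
    |ex (g1 (Co n LB LF)) (Wx n b cB cF s η lam c x)
        (fun z => cx (g1 _) (Kset (insert i0 S) BL FL) (Wx n b cB cF s η lam c x)
          (Fa b cB cF s η lam c i0) z ^ 2) -
      n / S.card * exQ b cB cF s η lam c x S BL FL| ≤
      inc2 b cB cF s η lam c x S i0 BL FL / S.card := by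
  have h := e2r (G := fun _ => 1) (P0 := 1) (Lr := 0) b cB cF s η hl hη c x hn hS hi BL FL
    measurable_const (fun _ _ => by simp) le_rfl (fun _ _ _ _ => by simp)
  simp only [one_mul, mul_zero, zero_div, zero_mul, add_zero] at h
  exact h

variable {P0 Lr : ℝ} {G : ℝ → ℝ}

/-- **the left side of the tested row equation, error in numbers** -/
theorem e2num (hn : 0 < n) {S : Finset (Fin n)} (hS : S.Nonempty) {i0 : Fin n} (hi : i0 ∉ S)
    (BL : Finset LB) (FL : Finset LF) (hx0 : 0 ≤ x) (hx1 : x ≤ 1)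
    (hx : x ^ 2 * (b ^ 2 * ∑ l ∈ BL, cB l ^ 2 + ∑ l ∈ FL, cF l ^ 2) ≤ 1 / 4)
    (hG : Measurable G) (hP : ∀ r, 0 ≤ r → |G r| ≤ P0)
    (hL0 : 0 ≤ Lr) (hL : ∀ r r', 0 ≤ r → 0 ≤ r' → |G r - G r'| ≤ Lr * |r - r'|) :
    |ex (g1 (Co n LB LF)) (Wx n b cB cF s η lam c x)
        (fun z => G (√(H615.m2 S (fun j => cx (g1 _) (Kset S BL FL) (Wx n b cB cF s η lam c x)
          (Fa b cB cF s η lam c j)) z / n)) *
          cx (g1 _) (Kset (insert i0 S) BL FL) (Wx n b cB cF s η lam c x)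
            (Fa b cB cF s η lam c i0) z ^ 2) -
      n / S.card * ex (g1 (Co n LB LF)) (Wx n b cB cF s η lam c x)
        (fun z => G (√(H615.m2 S (fun j => cx (g1 _) (Kset S BL FL) (Wx n b cB cF s η lam c x)
          (Fa b cB cF s η lam c j)) z / n)) *
          (H615.m2 S (fun j => cx (g1 _) (Kset S BL FL) (Wx n b cB cF s η lam c x)
          (Fa b cB cF s η lam c j)) z / n))| ≤
    P0 * inc2 b cB cF s η lam c x S i0 BL FL / S.card +
      204 * (1 + η) ^ 2 * Lr / √n *
      (√(2 * inc2 b cB cF s η lam c x S i0 BL FL +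
          n / S.card * exQ b cB cF s η lam c x S BL FL) *
        √((b ^ 2 / n * ∑ l ∈ BL, cB l ^ 2) ^ 2 * ex (g1 _) (Wx n b cB cF s η lam c x)
            (q2 n b cB cF s η lam c S (Kset (insert i0 S) BL FL) (Wx n b cB cF s η lam c x)) +
          2 * (b ^ 2 / n * ∑ l ∈ BL, cB l ^ 2) * (∑ l ∈ FL, cF l ^ 2) *
            ex (g1 _) (Wx n b cB cF s η lam c x)
            (q1 n b cB cF s η lam c S (Kset (insert i0 S) BL FL) (Wx n b cB cF s η lam c x)) +
          (∑ l ∈ FL, cF l ^ 2) ^ 2)) := by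
  have h := e2r b cB cF s η hl hη c x hn hS hi BL FL hG hP hL0 hL
  have h2 := (abs_le.1 (exN2 b cB cF s η hl hη c x hn hS hi BL FL)).2
  have h4 := n4M b cB cF s η c hl hη hi BL FL hx0 hx1 hx
  have hi0 := inc2_nonneg b cB cF s η hl hη c x S i0 BL FL
  have hc1 : (1 : ℝ) ≤ S.card := by exact_mod_cast hS.card_pos
  refine h.trans ?_
  change P0 * inc2 b cB cF s η lam c x S i0 BL FL / S.card + 2 * Lr / √n *
    (√(inc2 b cB cF s η lam c x S i0 BL FL + _) * √_) ≤ _
  refine add_le_add le_rfl ?_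
  set I := inc2 b cB cF s η lam c x S i0 BL FL with hI
  set N2 := ex (g1 (Co n LB LF)) (Wx n b cB cF s η lam c x)
        (fun z => cx (g1 _) (Kset (insert i0 S) BL FL) (Wx n b cB cF s η lam c x)
          (Fa b cB cF s η lam c i0) z ^ 2) with hN2
  set N4 := ex (g1 (Co n LB LF)) (Wx n b cB cF s η lam c x)
        (fun z => cx (g1 _) (Kset (insert i0 S) BL FL) (Wx n b cB cF s η lam c x)
          (Fa b cB cF s η lam c i0) z ^ 4) with hN4
  set R := (b ^ 2 / n * ∑ l ∈ BL, cB l ^ 2) ^ 2 * ex (g1 _) (Wx n b cB cF s η lam c x)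
            (q2 n b cB cF s η lam c S (Kset (insert i0 S) BL FL) (Wx n b cB cF s η lam c x)) +
          2 * (b ^ 2 / n * ∑ l ∈ BL, cB l ^ 2) * (∑ l ∈ FL, cF l ^ 2) *
            ex (g1 _) (Wx n b cB cF s η lam c x)
            (q1 n b cB cF s η lam c S (Kset (insert i0 S) BL FL) (Wx n b cB cF s η lam c x)) +
          (∑ l ∈ FL, cF l ^ 2) ^ 2 with hR
  have e1 : I / S.card ≤ I := div_le_self hi0 hc1
  have e2 : √(I + N2) ≤ √(2 * I + n / S.card * exQ b cB cF s η lam c x S BL FL) :=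
    Real.sqrt_le_sqrt (by linarith)
  have e3 : √N4 ≤ 102 * (1 + η) ^ 2 * √R := by
    have h5 : N4 ≤ (102 * (1 + η) ^ 2) ^ 2 * R := by
      have h6 : 0 ≤ R ∨ R < 0 := le_or_gt 0 R
      rcases h6 with h6 | h6
      · have : (0 : ℝ) ≤ (1 + η) ^ 4 * R := by positivity
        nlinarith
      · have h7 : (0 : ℝ) < (1 + η) ^ 4 := by positivity
        have h8 : 0 ≤ N4 := by
          refine H615.ex_nonneg (wtA b cB cF s hl hη c x) fun z => ?_
          positivity
        nlinarith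
    refine (Real.sqrt_le_sqrt h5).trans (le_of_eq ?_)
    rw [Real.sqrt_mul (sq_nonneg _), Real.sqrt_sq (by positivity)]
  have e4 : √(I + N2) * √N4 ≤ √(2 * I + n / S.card * exQ b cB cF s η lam c x S BL FL) *
      (102 * (1 + η) ^ 2 * √R) := mul_le_mul e2 e3 (Real.sqrt_nonneg _) (Real.sqrt_nonneg _)
  refine (mul_le_mul_of_nonneg_left e4 (by positivity)).trans (le_of_eq ?_)
  ring

end Vale.Agent.P146.H205
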