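import Vale.Agent.P146.H425.R1Def
import Vale.Agent.P146.H946.Odd
import Vale.Agent.P146.H9.KLd
import Mathlib.Probability.Distributions.Gaussian.Fernique

/-!
Even functions under a Gaussian measure tilted by the exponential of an even function with a small
gradient: the Poincaré constant is `1/2` and the constant of the entropy inequality is `1/4`, up
to the factor `1 + C L`, where `L` bounds the gradient. The proofs are static: the rotation of a
pair of independent copies by the angle `π/4` makes `f z - f z'` odd in each of the two new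
variables separately.
-/

open MeasureTheory ProbabilityTheory Filter Topology

namespace Vale.Agent.P146.H205

open Vale.Agent.P157.Lv Vale.Agent.P146.H425 Vale.Agent.P146.H946

set_option linter.unusedSectionVars false

variable {κ : Type} [Fintype κ]

/-! ### the rotation -/

/-- `cos (π/4)` -/
noncomputable def rc : ℝ := √2 / 2

lemma rc_sq : rc ^ 2 = 1 / 2 := by
  unfold rc
  rw [div_pow, Real.sq_sqrt (by norm_num)]
  norm_num

lemma rc_pos : 0 < rc := by unfold rc; positivity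

lemma rc_le : rc ≤ 1 := by nlinarith [rc_sq, rc_pos]

lemma mp_rot_one : MeasurePreserving (fun p : ℝ × ℝ => (rc * (p.1 + p.2), rc * (p.2 - p.1)))
    ((gaussianReal 0 1).prod (gaussianReal 0 1)) ((gaussianReal 0 1).prod (gaussianReal 0 1)) := by
  refine ⟨by fun_prop, ?_⟩
  have h := IsGaussian.map_rotation_eq_self (μ := gaussianReal 0 1) (by simp) (Real.pi / 4)
  have e : (fun p : ℝ × ℝ => (rc * (p.1 + p.2), rc * (p.2 - p.1))) =
      ContinuousLinearMap.rotation (Real.pi / 4) := by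
    funext p
    rw [ContinuousLinearMap.rotation_apply, Real.cos_pi_div_four, Real.sin_pi_div_four]
    unfold rc
    ext
    · simp only [smul_eq_mul]; ring
    · simp only [smul_eq_mul]; ring
  rw [e]
  exact h

lemma mp_rot : MeasurePreserving
    (fun p : (κ → ℝ) × (κ → ℝ) => (rc • (p.1 + p.2), rc • (p.2 - p.1)))
    ((gI κ).prod (gI κ)) ((gI κ).prod (gI κ)) := by
  have h1 := measurePreserving_arrowProdEquivProdArrow ℝ ℝ κ
    (fun _ => gaussianReal 0 1) (fun _ => gaussianReal 0 1)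
  have h2 : MeasurePreserving
      (fun (a : κ → ℝ × ℝ) e => (fun p : ℝ × ℝ => (rc * (p.1 + p.2), rc * (p.2 - p.1))) (a e))
      (Measure.pi fun _ : κ => (gaussianReal 0 1).prod (gaussianReal 0 1))
      (Measure.pi fun _ : κ => (gaussianReal 0 1).prod (gaussianReal 0 1)) :=
    measurePreserving_pi _ _ fun _ => mp_rot_one
  have h3 := (h1.comp h2).comp (h1.symm)
  convert h3 using 1
  funext p
  refine Prod.ext ?_ ?_
  · funext e
    simp [MeasurableEquiv.arrowProdEquivProdArrow, Equiv.arrowProdEquivProdArrow]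
  · funext e
    simp [MeasurableEquiv.arrowProdEquivProdArrow, Equiv.arrowProdEquivProdArrow]

/-- The first new variable. -/
noncomputable def zp (w : κ ⊕ κ → ℝ) : κ → ℝ := fun e => rc * (w (Sum.inl e) + w (Sum.inr e))
/-- The second new variable. -/
noncomputable def zm (w : κ ⊕ κ → ℝ) : κ → ℝ := fun e => rc * (w (Sum.inr e) - w (Sum.inl e))

lemma meas_zp : Measurable (zp (κ := κ)) := by unfold zp; fun_prop
lemma meas_zm : Measurable (zm (κ := κ)) := by unfold zm; fun_prop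

lemma norm_zp (w : κ ⊕ κ → ℝ) : ‖zp w‖ ≤ 2 * ‖w‖ := by
  refine (pi_norm_le_iff_of_nonneg (by positivity)).2 fun e => ?_
  unfold zp
  rw [norm_mul, Real.norm_of_nonneg rc_pos.le]
  have h1 := norm_le_pi_norm w (Sum.inl e)
  have h2 := norm_le_pi_norm w (Sum.inr e)
  have h3 := norm_add_le (w (Sum.inl e)) (w (Sum.inr e))
  calc rc * ‖w (Sum.inl e) + w (Sum.inr e)‖ ≤ 1 * (‖w‖ + ‖w‖) :=
        mul_le_mul rc_le (by linarith) (norm_nonneg _) zero_le_one
    _ = 2 * ‖w‖ := by ring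

lemma norm_zm (w : κ ⊕ κ → ℝ) : ‖zm w‖ ≤ 2 * ‖w‖ := by
  refine (pi_norm_le_iff_of_nonneg (by positivity)).2 fun e => ?_
  unfold zm
  rw [norm_mul, Real.norm_of_nonneg rc_pos.le]
  have h1 := norm_le_pi_norm w (Sum.inl e)
  have h2 := norm_le_pi_norm w (Sum.inr e)
  have h3 := norm_sub_le (w (Sum.inr e)) (w (Sum.inl e))
  calc rc * ‖w (Sum.inr e) - w (Sum.inl e)‖ ≤ 1 * (‖w‖ + ‖w‖) :=
        mul_le_mul rc_le (by linarith) (norm_nonneg _) zero_le_one
    _ = 2 * ‖w‖ := by ring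

lemma eg_zp {f : (κ → ℝ) → ℝ} (hf : EG f) : EG fun w : κ ⊕ κ → ℝ => f (zp w) :=
  R1.eg_comp hf meas_zp (by norm_num) norm_zp

lemma eg_zm {f : (κ → ℝ) → ℝ} (hf : EG f) : EG fun w : κ ⊕ κ → ℝ => f (zm w) :=
  R1.eg_comp hf meas_zm (by norm_num) norm_zm

/-- The two new variables are independent standard Gaussian vectors. -/
lemma integral_pair {f g : (κ → ℝ) → ℝ} (hf : EG f) (hg : EG g) :
    ∫ w, f (zp w) * g (zm w) ∂(gI (κ ⊕ κ)) = (∫ z, f z ∂(gI κ)) * ∫ z, g z ∂(gI κ) := by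
  rw [R1.int_sum ((eg_zp hf).mul (eg_zm hg))]
  have e1 : ∀ a b : κ → ℝ, f (zp (Sum.elim a b)) * g (zm (Sum.elim a b)) =
      f (rc • (a + b)) * g (rc • (b - a)) := fun a b => rfl
  simp only [e1]
  have hi : Integrable (fun p : (κ → ℝ) × (κ → ℝ) => f p.1 * g p.2) ((gI κ).prod (gI κ)) :=
    hf.integrable.mul_prod hg.integrable
  have hm := mp_rot (κ := κ)
  have hi2 : Integrable (fun p : (κ → ℝ) × (κ → ℝ) => f (rc • (p.1 + p.2)) * g (rc • (p.2 - p.1)))
      ((gI κ).prod (gI κ)) :=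
    MeasurePreserving.integrable_comp_of_integrable
      (g := fun p : (κ → ℝ) × (κ → ℝ) => f p.1 * g p.2) hm hi
  rw [← integral_prod _ hi2, ← integral_prod_mul]
  have h4 : ∫ p : (κ → ℝ) × (κ → ℝ), f p.1 * g p.2 ∂((gI κ).prod (gI κ)) =
      ∫ p : (κ → ℝ) × (κ → ℝ), f (rc • (p.1 + p.2)) * g (rc • (p.2 - p.1))
        ∂((gI κ).prod (gI κ)) := by
    conv_lhs => rw [← hm.map_eq]
    rw [integral_map hm.measurable.aemeasurable]
    rw [hm.map_eq]
    exact hi.aestronglyMeasurable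
  exact h4.symm

variable [DecidableEq κ]

lemma zp_upd_l (w : κ ⊕ κ → ℝ) (e : κ) (s : ℝ) : zp (Function.update w (Sum.inl e) s) =
    Function.update (zp w) e (rc * (s + w (Sum.inr e))) := by
  funext i
  unfold zp
  by_cases hi : i = e
  · subst hi; simp
  · have h1 : (Sum.inl i : κ ⊕ κ) ≠ Sum.inl e := fun h => hi (Sum.inl.inj h)
    simp [hi, h1]

lemma zp_upd_r (w : κ ⊕ κ → ℝ) (e : κ) (s : ℝ) : zp (Function.update w (Sum.inr e) s) =
    Function.update (zp w) e (rc * (w (Sum.inl e) + s)) := by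
  funext i
  unfold zp
  by_cases hi : i = e
  · subst hi; simp
  · have h1 : (Sum.inr i : κ ⊕ κ) ≠ Sum.inr e := fun h => hi (Sum.inr.inj h)
    simp [hi, h1]

lemma zm_upd_l (w : κ ⊕ κ → ℝ) (e : κ) (s : ℝ) : zm (Function.update w (Sum.inl e) s) =
    Function.update (zm w) e (rc * (w (Sum.inr e) - s)) := by
  funext i
  unfold zm
  by_cases hi : i = e
  · subst hi; simp
  · have h1 : (Sum.inl i : κ ⊕ κ) ≠ Sum.inl e := fun h => hi (Sum.inl.inj h)
    simp [hi, h1]

lemma zm_upd_r (w : κ ⊕ κ → ℝ) (e : κ) (s : ℝ) : zm (Function.update w (Sum.inr e) s) =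
    Function.update (zm w) e (rc * (s - w (Sum.inl e))) := by
  funext i
  unfold zm
  by_cases hi : i = e
  · subst hi; simp
  · have h1 : (Sum.inr i : κ ⊕ κ) ≠ Sum.inr e := fun h => hi (Sum.inr.inj h)
    simp [hi, h1]

lemma pd_zp_l {f f1 : (κ → ℝ) → ℝ} {e : κ} (hf : PD e f f1) :
    PD (Sum.inl e) (fun w : κ ⊕ κ → ℝ => f (zp w)) fun w => rc * f1 (zp w) := by
  intro w s
  simp only [zp_upd_l]
  have h1 := hf (zp w) (rc * (s + w (Sum.inr e)))
  have h2 : HasDerivAt (fun s : ℝ => rc * (s + w (Sum.inr e))) rc s := by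
    have := ((hasDerivAt_id s).add_const (w (Sum.inr e))).const_mul rc
    simpa using this
  refine (h1.comp s h2).congr_deriv ?_
  ring

lemma pd_zp_r {f f1 : (κ → ℝ) → ℝ} {e : κ} (hf : PD e f f1) :
    PD (Sum.inr e) (fun w : κ ⊕ κ → ℝ => f (zp w)) fun w => rc * f1 (zp w) := by
  intro w s
  simp only [zp_upd_r]
  have h1 := hf (zp w) (rc * (w (Sum.inl e) + s))
  have h2 : HasDerivAt (fun s : ℝ => rc * (w (Sum.inl e) + s)) rc s := by
    have := ((hasDerivAt_id s).const_add (w (Sum.inl e))).const_mul rc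
    simpa using this
  refine (h1.comp s h2).congr_deriv ?_
  ring

lemma pd_zm_l {f f1 : (κ → ℝ) → ℝ} {e : κ} (hf : PD e f f1) :
    PD (Sum.inl e) (fun w : κ ⊕ κ → ℝ => f (zm w)) fun w => -(rc * f1 (zm w)) := by
  intro w s
  simp only [zm_upd_l]
  have h1 := hf (zm w) (rc * (w (Sum.inr e) - s))
  have h2 : HasDerivAt (fun s : ℝ => rc * (w (Sum.inr e) - s)) (-rc) s := by
    have := ((hasDerivAt_id s).const_sub (w (Sum.inr e))).const_mul rc
    simpa using this
  refine (h1.comp s h2).congr_deriv ?_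
  ring

lemma pd_zm_r {f f1 : (κ → ℝ) → ℝ} {e : κ} (hf : PD e f f1) :
    PD (Sum.inr e) (fun w : κ ⊕ κ → ℝ => f (zm w)) fun w => rc * f1 (zm w) := by
  intro w s
  simp only [zm_upd_r]
  have h1 := hf (zm w) (rc * (s - w (Sum.inl e)))
  have h2 : HasDerivAt (fun s : ℝ => rc * (s - w (Sum.inl e))) rc s := by
    have := ((hasDerivAt_id s).sub_const (w (Sum.inl e))).const_mul rc
    simpa using this
  refine (h1.comp s h2).congr_deriv ?_
  ring

/-! ### the variance of an even function -/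

/-- first block -/
def A1 (κ : Type) [Fintype κ] : Finset (κ ⊕ κ) := (Finset.univ : Finset κ).disjSum ∅
/-- second block -/
def A2 (κ : Type) [Fintype κ] : Finset (κ ⊕ κ) := (∅ : Finset κ).disjSum Finset.univ

lemma sum_A1 (g : κ ⊕ κ → ℝ) : ∑ e ∈ A1 κ, g e = ∑ e, g (Sum.inl e) := by
  unfold A1
  rw [Finset.sum_disjSum]
  simp

lemma sum_A2 (g : κ ⊕ κ → ℝ) : ∑ e ∈ A2 κ, g e = ∑ e, g (Sum.inr e) := by
  unfold A2
  rw [Finset.sum_disjSum]
  simp

lemma mem_A1 {j : κ ⊕ κ} : j ∈ A1 κ ↔ ∃ e, j = Sum.inl e := by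
  unfold A1
  rw [Finset.mem_disjSum]
  constructor
  · rintro (⟨a, _, rfl⟩ | ⟨b, hb, _⟩)
    · exact ⟨a, rfl⟩
    · simp at hb
  · rintro ⟨e, rfl⟩
    exact Or.inl ⟨e, Finset.mem_univ _, rfl⟩

lemma mem_A2 {j : κ ⊕ κ} : j ∈ A2 κ ↔ ∃ e, j = Sum.inr e := by
  unfold A2
  rw [Finset.mem_disjSum]
  constructor
  · rintro (⟨a, ha, _⟩ | ⟨b, _, rfl⟩)
    · simp at ha
    · exact ⟨b, rfl⟩
  · rintro ⟨e, rfl⟩
    exact Or.inr ⟨e, Finset.mem_univ _, rfl⟩

lemma zp_fl1 (w : κ ⊕ κ → ℝ) : zp (flA (A1 κ) w) = zm w := by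
  funext e
  unfold zp zm flA
  have h1 : (Sum.inl e : κ ⊕ κ) ∈ A1 κ := mem_A1.2 ⟨e, rfl⟩
  have h2 : (Sum.inr e : κ ⊕ κ) ∉ A1 κ := fun h => by
    obtain ⟨i, hi⟩ := mem_A1.1 h
    simp at hi
  simp only [h1, h2, if_true, if_false]
  ring

lemma zm_fl1 (w : κ ⊕ κ → ℝ) : zm (flA (A1 κ) w) = zp w := by
  funext e
  unfold zp zm flA
  have h1 : (Sum.inl e : κ ⊕ κ) ∈ A1 κ := mem_A1.2 ⟨e, rfl⟩
  have h2 : (Sum.inr e : κ ⊕ κ) ∉ A1 κ := fun h => by
    obtain ⟨i, hi⟩ := mem_A1.1 h
    simp at hi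
  simp only [h1, h2, if_true, if_false]
  ring

lemma zp_fl2 (w : κ ⊕ κ → ℝ) : zp (flA (A2 κ) w) = -zm w := by
  funext e
  simp only [Pi.neg_apply]
  unfold zp zm flA
  have h1 : (Sum.inr e : κ ⊕ κ) ∈ A2 κ := mem_A2.2 ⟨e, rfl⟩
  have h2 : (Sum.inl e : κ ⊕ κ) ∉ A2 κ := fun h => by
    obtain ⟨i, hi⟩ := mem_A2.1 h
    simp at hi
  simp only [h1, h2, if_true, if_false]
  ring

lemma zm_fl2 (w : κ ⊕ κ → ℝ) : zm (flA (A2 κ) w) = -zp w := by
  funext e
  simp only [Pi.neg_apply]
  unfold zp zm flA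
  have h1 : (Sum.inr e : κ ⊕ κ) ∈ A2 κ := mem_A2.2 ⟨e, rfl⟩
  have h2 : (Sum.inl e : κ ⊕ κ) ∉ A2 κ := fun h => by
    obtain ⟨i, hi⟩ := mem_A2.1 h
    simp at hi
  simp only [h1, h2, if_true, if_false]
  ring

/-- **The variance of an even function under an even tilt with a small gradient.** -/
theorem even_var {f V : (κ → ℝ) → ℝ} {f' V' : κ → (κ → ℝ) → ℝ} {L : ℝ}
    (hf : EG f) (hfd : ∀ e, PD e f (f' e)) (hf' : ∀ e, EG (f' e))
    (hd : ∀ e, PD e V (V' e)) (hV' : ∀ e, EG (V' e))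
    (hex : EG fun z => Real.exp (V z / 2)) (hexp : EG fun z => Real.exp (V z))
    (hfe : ∀ z, f (-z) = f z) (hVe : ∀ z, V (-z) = V z)
    (hL : ∀ z, ∑ e, V' e z ^ 2 ≤ L ^ 2) (hL0 : 0 < L) (hL1 : L ≤ 1 / 3) :
    2 * ((∫ z, Real.exp (V z) * f z ^ 2 ∂(gI κ)) * (∫ z, Real.exp (V z) ∂(gI κ)) -
      (∫ z, Real.exp (V z) * f z ∂(gI κ)) ^ 2) ≤
    (1 + 6 * L) * ((∫ z, Real.exp (V z) * ∑ e, f' e z ^ 2 ∂(gI κ)) *
      (∫ z, Real.exp (V z) ∂(gI κ))) := by
  -- the functions on the pair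
  set Fn : (κ ⊕ κ → ℝ) → ℝ := fun w => f (zp w) - f (zm w) with hFn
  set U : (κ ⊕ κ → ℝ) → ℝ := fun w => V (zp w) + V (zm w) with hU
  have egF : EG Fn := (eg_zp hf).sub (eg_zm hf)
  have egU2 : EG fun w => Real.exp (U w / 2) := by
    have := (eg_zp hex).mul (eg_zm hex)
    simp only [← Real.exp_add] at this
    have e : (fun w : κ ⊕ κ → ℝ => Real.exp (U w / 2)) =
        fun w => Real.exp (V (zp w) / 2 + V (zm w) / 2) := by
      funext w; rw [hU]; ring_nf
    rw [e]; exact this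
  have expU : ∀ w, Real.exp (U w) = Real.exp (V (zp w)) * Real.exp (V (zm w)) := fun w => by
    rw [hU, ← Real.exp_add]
  -- derivatives
  set F1 : κ ⊕ κ → (κ ⊕ κ → ℝ) → ℝ := fun j w => Sum.elim
    (fun e => rc * (f' e (zp w) + f' e (zm w))) (fun e => rc * (f' e (zp w) - f' e (zm w))) j
    with hF1
  set U1 : κ ⊕ κ → (κ ⊕ κ → ℝ) → ℝ := fun j w => Sum.elim
    (fun e => rc * (V' e (zp w) - V' e (zm w))) (fun e => rc * (V' e (zp w) + V' e (zm w))) j
    with hU1
  have pdF : ∀ j, PD j Fn (F1 j) := by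
    intro j
    rcases j with e | e
    · have h1 := (pd_zp_l (hfd e)).sub (pd_zm_l (hfd e))
      intro w s
      refine (h1 w s).congr_deriv ?_
      simp only [hF1, Sum.elim_inl]
      ring
    · have h1 := (pd_zp_r (hfd e)).sub (pd_zm_r (hfd e))
      intro w s
      refine (h1 w s).congr_deriv ?_
      simp only [hF1, Sum.elim_inr]
      ring
  have pdU : ∀ j, PD j U (U1 j) := by
    intro j
    rcases j with e | e
    · have h1 := (pd_zp_l (hd e)).add (pd_zm_l (hd e))
      intro w s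
      refine (h1 w s).congr_deriv ?_
      simp only [hU1, Sum.elim_inl]
      ring
    · have h1 := (pd_zp_r (hd e)).add (pd_zm_r (hd e))
      intro w s
      refine (h1 w s).congr_deriv ?_
      simp only [hU1, Sum.elim_inr]
      ring
  have egF1 : ∀ j, EG (F1 j) := by
    intro j
    rcases j with e | e
    · exact ((eg_zp (hf' e)).add (eg_zm (hf' e))).const_mul rc
    · exact ((eg_zp (hf' e)).sub (eg_zm (hf' e))).const_mul rc
  have egU1 : ∀ j, EG (U1 j) := by
    intro j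
    rcases j with e | e
    · exact ((eg_zp (hV' e)).sub (eg_zm (hV' e))).const_mul rc
    · exact ((eg_zp (hV' e)).add (eg_zm (hV' e))).const_mul rc
  have hsqp : ∀ (g : κ → (κ → ℝ) → ℝ) (w : κ ⊕ κ → ℝ),
      ∑ e, (rc * (g e (zp w) + g e (zm w))) ^ 2 + ∑ e, (rc * (g e (zp w) - g e (zm w))) ^ 2 =
        ∑ e, g e (zp w) ^ 2 + ∑ e, g e (zm w) ^ 2 := by
    intro g w
    rw [← Finset.sum_add_distrib, ← Finset.sum_add_distrib]
    refine Finset.sum_congr rfl fun e _ => ?_
    rw [mul_pow, mul_pow, rc_sq]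
    ring
  have hLU : ∀ w, ∑ e, (rc * (V' e (zp w) + V' e (zm w))) ^ 2 ≤ (3 / 2 * L) ^ 2 ∧
      ∑ e, (rc * (V' e (zp w) - V' e (zm w))) ^ 2 ≤ (3 / 2 * L) ^ 2 := by
    intro w
    have h1 := hsqp V' w
    have h2 := hL (zp w)
    have h3 := hL (zm w)
    have h4 : 0 ≤ ∑ e, (rc * (V' e (zp w) + V' e (zm w))) ^ 2 :=
      Finset.sum_nonneg fun _ _ => sq_nonneg _
    have h5 : 0 ≤ ∑ e, (rc * (V' e (zp w) - V' e (zm w))) ^ 2 :=
      Finset.sum_nonneg fun _ _ => sq_nonneg _
    constructor <;> nlinarith [sq_nonneg L]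
  -- the two inequalities
  have I1 := odd_poincare' (A1 κ) (f := Fn) (f' := F1) (V := U) (V' := U1) (L := 3 / 2 * L)
    egF (fun j _ => pdF j) (fun j _ => egF1 j) (fun j _ => pdU j) (fun j _ => egU1 j) egU2
    (fun w => by simp only [hFn, zp_fl1, zm_fl1]; ring)
    (fun w => by simp only [hU, zp_fl1, zm_fl1]; ring)
    (fun w => by rw [sum_A1]; exact (hLU w).2) (by linarith) (by linarith)
  have I2 := odd_poincare' (A2 κ) (f := Fn) (f' := F1) (V := U) (V' := U1) (L := 3 / 2 * L)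
    egF (fun j _ => pdF j) (fun j _ => egF1 j) (fun j _ => pdU j) (fun j _ => egU1 j) egU2
    (fun w => by simp only [hFn, zp_fl2, zm_fl2, hfe]; ring)
    (fun w => by simp only [hU, zp_fl2, zm_fl2, hVe]; ring)
    (fun w => by rw [sum_A2]; exact (hLU w).1) (by linarith) (by linarith)
  simp only [sum_A1] at I1
  simp only [sum_A2] at I2
  -- the left side
  have egp1 := (eg_zp (hexp.mul (hf.pow 2))).mul (eg_zm hexp)
  have egp2 := (eg_zp (hexp.mul hf)).mul (eg_zm (hexp.mul hf))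
  have egp3 := (eg_zp hexp).mul (eg_zm (hexp.mul (hf.pow 2)))
  have eL : ∫ w, Real.exp (U w) * Fn w ^ 2 ∂(gI (κ ⊕ κ)) =
      2 * ((∫ z, Real.exp (V z) * f z ^ 2 ∂(gI κ)) * (∫ z, Real.exp (V z) ∂(gI κ)) -
      (∫ z, Real.exp (V z) * f z ∂(gI κ)) ^ 2) := by
    have e1 : ∀ w, Real.exp (U w) * Fn w ^ 2 =
        (Real.exp (V (zp w)) * f (zp w) ^ 2) * Real.exp (V (zm w)) +
        (-2) * ((Real.exp (V (zp w)) * f (zp w)) * (Real.exp (V (zm w)) * f (zm w))) +
        Real.exp (V (zp w)) * (Real.exp (V (zm w)) * f (zm w) ^ 2) := fun w => by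
      rw [expU, hFn]; ring
    simp only [e1]
    rw [integral_add (egp1.add (egp2.const_mul (-2))).integrable egp3.integrable,
      integral_add egp1.integrable (egp2.integrable.const_mul _), integral_const_mul,
      integral_pair (f := fun z => Real.exp (V z) * f z ^ 2) (g := fun z => Real.exp (V z))
        (hexp.mul (hf.pow 2)) hexp,
      integral_pair (f := fun z => Real.exp (V z) * f z) (g := fun z => Real.exp (V z) * f z)
        (hexp.mul hf) (hexp.mul hf),
      integral_pair (f := fun z => Real.exp (V z)) (g := fun z => Real.exp (V z) * f z ^ 2)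
        hexp (hexp.mul (hf.pow 2))]
    ring
  -- the right sides
  set G : (κ → ℝ) → ℝ := fun z => ∑ e, f' e z ^ 2 with hG
  have egG : EG G := EG.sum _ fun e _ => (hf' e).pow 2
  have egA : EG fun w : κ ⊕ κ → ℝ => Real.exp (U w) := by
    have := (eg_zp hexp).mul (eg_zm hexp)
    simp only [← expU] at this
    exact this
  have eR : (∫ w, Real.exp (U w) * ∑ e, F1 (Sum.inl e) w ^ 2 ∂(gI (κ ⊕ κ))) +
      ∫ w, Real.exp (U w) * ∑ e, F1 (Sum.inr e) w ^ 2 ∂(gI (κ ⊕ κ)) =
      2 * ((∫ z, Real.exp (V z) * ∑ e, f' e z ^ 2 ∂(gI κ)) * (∫ z, Real.exp (V z) ∂(gI κ))) := by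
    rw [← integral_add
      (egA.mul (EG.sum _ fun e _ => (egF1 (Sum.inl e)).pow 2)).integrable
      (egA.mul (EG.sum _ fun e _ => (egF1 (Sum.inr e)).pow 2)).integrable]
    have e1 : ∀ w, Real.exp (U w) * ∑ e, F1 (Sum.inl e) w ^ 2 +
        Real.exp (U w) * ∑ e, F1 (Sum.inr e) w ^ 2 =
        (Real.exp (V (zp w)) * G (zp w)) * Real.exp (V (zm w)) +
          Real.exp (V (zp w)) * (Real.exp (V (zm w)) * G (zm w)) := fun w => by
      have h1 := hsqp f' w
      simp only [hF1, Sum.elim_inl, Sum.elim_inr]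
      rw [← mul_add, h1, expU, hG]
      ring
    simp only [e1]
    rw [integral_add ((eg_zp (hexp.mul egG)).mul (eg_zm hexp)).integrable
      ((eg_zp hexp).mul (eg_zm (hexp.mul egG))).integrable,
      integral_pair (f := fun z => Real.exp (V z) * G z) (g := fun z => Real.exp (V z))
        (hexp.mul egG) hexp,
      integral_pair (f := fun z => Real.exp (V z)) (g := fun z => Real.exp (V z) * G z)
        hexp (hexp.mul egG)]
    ring
  rw [eL] at I1 I2
  nlinarith [I1, I2, eR]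

/-! ### the entropy -/

/-- differentiation of tilted integrals -/
lemma hasDerivAt_tilt {V φ : (κ → ℝ) → ℝ} (hV : EG V) (hexp : ∀ s, EG fun z => Real.exp (s * V z))
    (hφ : EG φ) (s : ℝ) :
    HasDerivAt (fun s => ∫ z, Real.exp (s * V z) * φ z ∂(gI κ))
      (∫ z, Real.exp (s * V z) * (V z * φ z) ∂(gI κ)) s := by
  have egb : EG fun z => (Real.exp ((s + 1) * V z) + Real.exp ((s - 1) * V z)) * |V z * φ z| :=
    ((hexp (s + 1)).add (hexp (s - 1))).mul (hV.mul hφ).abs
  refine (hasDerivAt_integral_of_dominated_loc_of_deriv_le (𝕜 := ℝ) (μ := gI κ)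
    (F := fun s z => Real.exp (s * V z) * φ z)
    (F' := fun s z => Real.exp (s * V z) * (V z * φ z)) (x₀ := s)
    (s := Metric.ball s 1)
    (bound := fun z => (Real.exp ((s + 1) * V z) + Real.exp ((s - 1) * V z)) * |V z * φ z|)
    (Metric.ball_mem_nhds s one_pos) ?_ ?_ ?_ ?_ ?_ ?_).2
  · exact Eventually.of_forall fun r => ((hexp r).mul hφ).meas.aestronglyMeasurable
  · exact ((hexp s).mul hφ).integrable
  · exact ((hexp s).mul (hV.mul hφ)).meas.aestronglyMeasurable
  · refine Eventually.of_forall fun z r hr => ?_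
    rw [Real.norm_eq_abs, abs_mul, abs_of_pos (Real.exp_pos _)]
    refine mul_le_mul_of_nonneg_right ?_ (abs_nonneg _)
    rw [Metric.mem_ball, Real.dist_eq, abs_lt] at hr
    rcases le_total 0 (V z) with h | h
    · have : Real.exp (r * V z) ≤ Real.exp ((s + 1) * V z) :=
        Real.exp_le_exp.2 (mul_le_mul_of_nonneg_right (by linarith [hr.2]) h)
      linarith [Real.exp_pos ((s - 1) * V z)]
    · have : Real.exp (r * V z) ≤ Real.exp ((s - 1) * V z) :=
        Real.exp_le_exp.2 (mul_le_mul_of_nonpos_right (by linarith [hr.1]) h)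
      linarith [Real.exp_pos ((s + 1) * V z)]
  · exact egb.integrable
  · refine Eventually.of_forall fun z r _ => ?_
    have h1 : HasDerivAt (fun r : ℝ => r * V z) (V z) r := by
      simpa using (hasDerivAt_id r).mul_const (V z)
    exact (h1.exp.mul_const (φ z)).congr_deriv (by ring)

/-- **The entropy of an even tilt with a small gradient**: the constant `1/2` of the log-Sobolev
inequality becomes `1/4`. -/
theorem even_kl {V : (κ → ℝ) → ℝ} {V' : κ → (κ → ℝ) → ℝ} {L : ℝ} (hV : EG V)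
    (hexp : ∀ s, EG fun z => Real.exp (s * V z)) (hd : ∀ e, PD e V (V' e)) (hV' : ∀ e, EG (V' e))
    (hVe : ∀ z, V (-z) = V z) (hL : ∀ z, ∑ e, V' e z ^ 2 ≤ L ^ 2) (hL0 : 0 < L)
    (hL1 : L ≤ 1 / 6) :
    (∫ z, Real.exp (V z) * V z ∂(gI κ)) / (∫ z, Real.exp (V z) ∂(gI κ)) -
        Real.log (∫ z, Real.exp (V z) ∂(gI κ)) ≤
      1 / 4 * (1 + 10 * L) * ((∫ z, Real.exp (V z) * ∑ e, V' e z ^ 2 ∂(gI κ)) /
        ∫ z, Real.exp (V z) ∂(gI κ)) := by
  set g : (κ → ℝ) → ℝ := fun z => ∑ e, V' e z ^ 2 with hg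
  have egg : EG g := EG.sum _ fun e _ => (hV' e).pow 2
  have g0 : ∀ z, 0 ≤ g z := fun z => Finset.sum_nonneg fun _ _ => sq_nonneg _
  set Z : ℝ → ℝ := fun s => ∫ z, Real.exp (s * V z) ∂(gI κ) with hZ
  set N : ℝ → ℝ := fun s => ∫ z, Real.exp (s * V z) * V z ∂(gI κ) with hN
  set M : ℝ → ℝ := fun s => ∫ z, Real.exp (s * V z) * (V z * V z) ∂(gI κ) with hM
  set P : ℝ → ℝ := fun s => ∫ z, Real.exp (s * V z) * g z ∂(gI κ) with hP
  set R : ℝ → ℝ := fun s => ∫ z, Real.exp (s * V z) * (V z * g z) ∂(gI κ) with hR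
  have Zpos : ∀ s, 0 < Z s := fun s => integral_exp_pos (hexp s).integrable
  have dZ : ∀ s, HasDerivAt Z (N s) s := fun s => by
    have h := hasDerivAt_tilt hV hexp (EG.const 1) s
    simp only [mul_one] at h
    exact h
  have dN : ∀ s, HasDerivAt N (M s) s := fun s => hasDerivAt_tilt hV hexp hV s
  have dP : ∀ s, HasDerivAt P (R s) s := fun s => hasDerivAt_tilt hV hexp egg s
  -- the variance
  have hvar : ∀ s ∈ Set.Icc (0 : ℝ) 1, M s / Z s - (N s / Z s) ^ 2 ≤
      1 / 2 * (1 + 6 * L) * (P s / Z s) := by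
    intro s hs
    have h1 := even_var (f := V) (f' := V') (V := fun z => s * V z)
      (V' := fun e z => s * V' e z) (L := L) hV hd hV'
      (fun e => by
        intro y t
        exact (hd e y t).const_mul s) (fun e => (hV' e).const_mul s)
      (by
        have := hexp (s / 2)
        have e : (fun z => Real.exp (s * V z / 2)) = fun z => Real.exp (s / 2 * V z) := by
          funext z; ring_nf
        rw [e]; exact this) (hexp s) hVe (fun z => by rw [hVe])
      (fun z => by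
        have e1 : ∑ e, (s * V' e z) ^ 2 = s ^ 2 * ∑ e, V' e z ^ 2 := by
          rw [Finset.mul_sum]
          exact Finset.sum_congr rfl fun e _ => by ring
        rw [e1]
        have h2 : s ^ 2 ≤ 1 := by nlinarith [hs.1, hs.2]
        have h3 : 0 ≤ ∑ e, V' e z ^ 2 := g0 z
        nlinarith [hL z]) hL0 (by linarith)
    have e2 : ∫ z, Real.exp (s * V z) * V z ^ 2 ∂(gI κ) = M s := by
      rw [hM]
      simp only [sq]
    rw [e2] at h1
    have hZ0 := Zpos s
    have h3 : 2 * (M s * Z s - N s ^ 2) ≤ (1 + 6 * L) * (P s * Z s) := h1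
    have e3 : M s / Z s - (N s / Z s) ^ 2 = (M s * Z s - N s ^ 2) / Z s ^ 2 := by
      field_simp
    have e4 : 1 / 2 * (1 + 6 * L) * (P s / Z s) =
        (1 / 2 * (1 + 6 * L) * (P s * Z s)) / Z s ^ 2 := by
      field_simp
    rw [e3, e4]
    exact div_le_div_of_nonneg_right (by linarith) (by positivity)
  -- the covariance
  have hcov : ∀ s ∈ Set.Icc (0 : ℝ) 1, -(L * (P s / Z s)) ≤
      (R s * Z s - P s * N s) / Z s ^ 2 := by
    intro s hs
    have hZ0 := Zpos s
    set m := N s / Z s with hm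
    -- the pointwise inequality
    have hpt : ∀ z, -(L / 2 * (V z - m) ^ 2 + 1 / (2 * L) * (L ^ 2 * g z)) ≤ (V z - m) * g z := by
      intro z
      have h1 : 0 ≤ (L * (V z - m) + g z) ^ 2 := sq_nonneg _
      have h2 : g z ^ 2 ≤ L ^ 2 * g z := by nlinarith [hL z, g0 z]
      have h3 : L / 2 * (V z - m) ^ 2 + 1 / (2 * L) * (L ^ 2 * g z) + (V z - m) * g z =
          1 / (2 * L) * ((L * (V z - m) + g z) ^ 2 + (L ^ 2 * g z - g z ^ 2)) := by
        field_simp
        ring
      have h4 : 0 ≤ 1 / (2 * L) * ((L * (V z - m) + g z) ^ 2 + (L ^ 2 * g z - g z ^ 2)) := by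
        apply mul_nonneg (by positivity)
        linarith
      linarith
    have hint := integral_mono
      ((hexp s).mul ((((hV.sub (EG.const m)).pow 2).const_mul (L / 2)).add
        ((egg.const_mul (L ^ 2)).const_mul (1 / (2 * L)))).neg).integrable
      ((hexp s).mul ((hV.sub (EG.const m)).mul egg)).integrable
      (fun z => mul_le_mul_of_nonneg_left (hpt z) (Real.exp_pos (s * V z)).le)
    have e1 : ∫ z, Real.exp (s * V z) * ((V z - m) * g z) ∂(gI κ) = R s - m * P s := by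
      have : ∀ z, Real.exp (s * V z) * ((V z - m) * g z) =
          Real.exp (s * V z) * (V z * g z) - m * (Real.exp (s * V z) * g z) := fun z => by ring
      simp only [this]
      rw [integral_sub ((hexp s).mul (hV.mul egg)).integrable
        (((hexp s).mul egg).const_mul m).integrable, integral_const_mul]
    have e2 : ∫ z, Real.exp (s * V z) *
        -(L / 2 * (V z - m) ^ 2 + 1 / (2 * L) * (L ^ 2 * g z)) ∂(gI κ) =
        -(L / 2 * (M s - 2 * m * N s + m ^ 2 * Z s) + L / 2 * P s) := by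
      have : ∀ z, Real.exp (s * V z) *
          -(L / 2 * (V z - m) ^ 2 + 1 / (2 * L) * (L ^ 2 * g z)) =
          (-(L / 2)) * (Real.exp (s * V z) * (V z * V z)) + (L * m) *
            (Real.exp (s * V z) * V z) + (-(L / 2 * m ^ 2)) * Real.exp (s * V z) +
            (-(L / 2)) * (Real.exp (s * V z) * g z) := fun z => by
        field_simp
        ring
      simp only [this]
      have g1 := ((hexp s).mul (hV.mul hV)).const_mul (-(L / 2))
      have g2 := ((hexp s).mul hV).const_mul (L * m)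
      have g3 := (hexp s).const_mul (-(L / 2 * m ^ 2))
      have g4 := ((hexp s).mul egg).const_mul (-(L / 2))
      rw [integral_add ((g1.add g2).add g3).integrable g4.integrable,
        integral_add (g1.add g2).integrable g3.integrable,
        integral_add g1.integrable g2.integrable]
      simp only [integral_const_mul]
      ring
    rw [e1, e2] at hint
    have hN' : N s = m * Z s := by rw [hm]; field_simp
    have hv := hvar s hs
    have hP0 : 0 ≤ P s := integral_nonneg fun z => mul_nonneg (Real.exp_pos _).le (g0 z)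
    have hM' : M s / Z s - m ^ 2 ≤ 1 / 2 * (1 + 6 * L) * (P s / Z s) := hv
    have hM2 : M s - m ^ 2 * Z s ≤ 1 / 2 * (1 + 6 * L) * P s := by
      have h5 := mul_le_mul_of_nonneg_right hM' hZ0.le
      have e5 : (M s / Z s - m ^ 2) * Z s = M s - m ^ 2 * Z s := by field_simp
      have e6 : 1 / 2 * (1 + 6 * L) * (P s / Z s) * Z s = 1 / 2 * (1 + 6 * L) * P s := by
        field_simp
      rw [e5, e6] at h5
      exact h5
    have h6 : -(L * P s) ≤ R s - m * P s := by
      have h7 : L / 2 * (M s - 2 * m * N s + m ^ 2 * Z s) ≤ L / 2 * P s := by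
        refine mul_le_mul_of_nonneg_left ?_ (by positivity)
        rw [hN']
        nlinarith
      linarith
    have e7 : (R s * Z s - P s * N s) / Z s ^ 2 = (R s - m * P s) / Z s := by
      rw [hN']
      field_simp
    rw [e7]
    have e8 : -(L * (P s / Z s)) = (-(L * P s)) / Z s := by ring
    rw [e8]
    exact div_le_div_of_nonneg_right h6 hZ0.le
  -- the mean of the squared gradient
  have dh : ∀ s, HasDerivAt (fun s => P s / Z s) ((R s * Z s - P s * N s) / Z s ^ 2) s :=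
    fun s => (dP s).div (dZ s) (Zpos s).ne'
  have hmono : MonotoneOn (fun s => Real.exp (L * s) * (P s / Z s)) (Set.Icc 0 1) := by
    have dd1 : ∀ s, HasDerivAt (fun s => Real.exp (L * s) * (P s / Z s))
        (Real.exp (L * s) * L * (P s / Z s) +
          Real.exp (L * s) * ((R s * Z s - P s * N s) / Z s ^ 2)) s := by
      intro s
      have h1 : HasDerivAt (fun s : ℝ => L * s) L s := by
        simpa using (hasDerivAt_id s).const_mul L
      exact h1.exp.mul (dh s)
    refine monotoneOn_of_deriv_nonneg (convex_Icc 0 1)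
      (fun s _ => (dd1 s).continuousAt.continuousWithinAt)
      (fun s _ => (dd1 s).differentiableAt.differentiableWithinAt) fun s hs => ?_
    rw [interior_Icc] at hs
    rw [(dd1 s).deriv]
    have h2 := hcov s ⟨hs.1.le, hs.2.le⟩
    have h3 := mul_le_mul_of_nonneg_left h2 (Real.exp_pos (L * s)).le
    nlinarith [h3]
  have hP0 : ∀ s, 0 ≤ P s / Z s := fun s =>
    div_nonneg (integral_nonneg fun z => mul_nonneg (Real.exp_pos _).le (g0 z)) (Zpos s).le
  have hle1 : ∀ s ∈ Set.Icc (0 : ℝ) 1, P s / Z s ≤ Real.exp L * (P 1 / Z 1) := by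
    intro s hs
    have h1 := hmono hs ⟨zero_le_one, le_rfl⟩ hs.2
    simp only [mul_one] at h1
    have h2 : P s / Z s ≤ Real.exp (L * s) * (P s / Z s) := by
      have : 1 ≤ Real.exp (L * s) := Real.one_le_exp (mul_nonneg hL0.le hs.1)
      nlinarith [hP0 s]
    exact h2.trans h1
  -- the entropy
  set c := 1 / 2 * (1 + 6 * L) * (Real.exp L * (P 1 / Z 1)) with hc
  have dK : ∀ s, HasDerivAt (fun s => c / 2 * s ^ 2 - (s * (N s / Z s) - Real.log (Z s)))
      (c * s - s * (M s / Z s - (N s / Z s) ^ 2)) s := by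
    intro s
    have hZ0 := (Zpos s).ne'
    have h1 : HasDerivAt (fun s : ℝ => c / 2 * s ^ 2) (c * s) s := by
      have := (hasDerivAt_pow 2 s).const_mul (c / 2)
      refine this.congr_deriv ?_
      push_cast
      ring
    have h2 := (hasDerivAt_id s).mul ((dN s).div (dZ s) hZ0)
    have h3 := (dZ s).log hZ0
    refine (h1.sub (h2.sub h3)).congr_deriv ?_
    simp only [id, Pi.div_apply]
    field_simp
    ring
  have hmK : MonotoneOn (fun s => c / 2 * s ^ 2 - (s * (N s / Z s) - Real.log (Z s)))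
      (Set.Icc 0 1) := by
    refine monotoneOn_of_deriv_nonneg (convex_Icc 0 1)
      (fun s _ => (dK s).continuousAt.continuousWithinAt)
      (fun s _ => (dK s).differentiableAt.differentiableWithinAt) fun s hs => ?_
    rw [interior_Icc] at hs
    rw [(dK s).deriv]
    have h1 := hvar s ⟨hs.1.le, hs.2.le⟩
    have h2 := hle1 s ⟨hs.1.le, hs.2.le⟩
    have h3 : M s / Z s - (N s / Z s) ^ 2 ≤ c := by
      refine h1.trans ?_
      rw [hc]
      exact mul_le_mul_of_nonneg_left h2 (by positivity)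
    nlinarith [hs.1]
  have hfin := hmK ⟨le_rfl, zero_le_one⟩ ⟨zero_le_one, le_rfl⟩ zero_le_one
  simp only at hfin
  have eZ0 : Z 0 = 1 := by
    rw [hZ]
    simp
  have eZ1 : Z 1 = ∫ z, Real.exp (V z) ∂(gI κ) := by rw [hZ]; simp
  have eN1 : N 1 = ∫ z, Real.exp (V z) * V z ∂(gI κ) := by rw [hN]; simp
  have eP1 : P 1 = ∫ z, Real.exp (V z) * g z ∂(gI κ) := by rw [hP]; simp
  rw [eZ0, Real.log_one] at hfin
  rw [← eZ1, ← eN1, ← eP1]
  have hfin2 : N 1 / Z 1 - Real.log (Z 1) ≤ c / 2 := by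
    have := hfin
    norm_num at this
    linarith
  refine hfin2.trans ?_
  rw [hc]
  have hexpL : Real.exp L ≤ 1 + L + L ^ 2 := by
    have := Real.abs_exp_sub_one_sub_id_le (x := L) (by rw [abs_of_pos hL0]; linarith)
    rw [abs_le] at this
    linarith [this.2]
  have h9 : (1 + 6 * L) * Real.exp L ≤ 1 + 10 * L := by
    have h10 : (1 + 6 * L) * Real.exp L ≤ (1 + 6 * L) * (1 + L + L ^ 2) :=
      mul_le_mul_of_nonneg_left hexpL (by positivity)
    have h11 : L ^ 2 ≤ 1 / 6 * L := by nlinarith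
    have h12 : L ^ 3 ≤ 1 / 36 * L := by nlinarith [sq_nonneg L]
    nlinarith
  have h13 := mul_le_mul_of_nonneg_right h9 (hP0 1)
  nlinarith [h13]

end Vale.Agent.P146.H205
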