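import Vale.Agent.P146.Bd4.B5

/-!
# P146: near optimal paths with a large exponent above the first block

`path_L`: for every `ε > 0` and every small `y` there is a path `q` with exponents `m`,
`y ≤ m 1 ≤ 1.01 y`, of value at most `P0 + (A + ε) y ^ 5`, and a level `L` with
`q l ≤ C y` for `l < L` and `1.4 y ≤ m L ≤ 2.02 y`.  Here `A = lim (Vx x - P0) / x ^ 5`.
-/

open MeasureTheory ProbabilityTheory Filter Topology Set

namespace Vale.Agent.P146.H205.PL

open Vale.Agent.P157.Par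
open Vale.Agent.P146.Gap
open Vale.Agent.P146.Pw2
open Vale.Agent.P146.Lb
open Vale.Agent.P367.Cl
open Vale.Agent.P146.Sh

/-- a path on the grid which vanishes below the level `d`, as a path of fewer levels -/
theorem conv {b : ℝ} (hb : 0 < b) {n d : ℕ} (hd : 1 ≤ d) (hdn : d ≤ n) {r : ℕ → ℝ}
    (hr : BPath b n r) (h0 : ∀ l < d, r l = 0) :
    ∃ (K : ℕ) (m q : ℕ → ℝ), K + d = n + 1 ∧ Exponents K m ∧ Path K q ∧ q 0 = 0 ∧ q K ≤ 1 ∧
      (∀ j, 1 ≤ j → m j = gm n (d - 1 + j)) ∧ (∀ j, q j = r (d - 1 + j) / b ^ 2) ∧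
      SKpar b K m q = SKr b n (gm n) r := by
  obtain ⟨e, rfl⟩ : ∃ e, d = e + 1 := ⟨d - 1, by omega⟩
  obtain ⟨K, rfl⟩ : ∃ K, n = e + K := ⟨n - e, by omega⟩
  set m' : ℕ → ℝ := fun j => if j = 0 then 0 else gm (e + K) (e + j) with hm'
  set r' : ℕ → ℝ := fun j => r (e + j) with hr'
  have hexp : Exponents K m' := by
    refine ⟨by simp [hm'], ?_, fun l hl => ?_⟩
    · have h1 : m' (K + 1) = gm (e + K) (e + (K + 1)) := by simp [hm']
      rw [h1]
      exact grid_gm_top (e + K)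
    · have h1 : m' (l + 1) = gm (e + K) (e + (l + 1)) := by simp [hm']
      rw [h1]
      by_cases hl0 : l = 0
      · subst hl0
        have h2 : m' 0 = 0 := by simp [hm']
        rw [h2]
        exact grid_gm_pos (by omega)
      · have h2 : m' l = gm (e + K) (e + l) := by simp [hm', hl0]
        rw [h2]
        exact (gm_exponents (e + K)).2.2 (e + l) (by omega)
  have hr0 : r' 0 = 0 := h0 e (by omega)
  have hpath : Path K r' := ⟨hr0.symm.le, fun l hl => hr.2.1.2 (e + l) (by omega)⟩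
  have hend : r' K ≤ b ^ 2 := hr.2.2
  have hcas : cascade (gm (e + K)) r (e + K) lc = cascade m' r' K lc := by
    rw [minb_split, minb_flat (fun l h1 h2 => (grid_gm_pos h1).ne')
      (fun l hl => by rw [h0 l (by omega), h0 0 (by omega)])]
    refine minb_congr (fun l h1 h2 => ?_) (fun l hl => rfl) lc
    have : l ≠ 0 := by omega
    simp [hm', this]
  have hspin : spinPart K m' r' = spinPart (e + K) (gm (e + K)) r := by
    unfold spinPart
    have h1 : cascade m' r' K (fun x => Real.log (Real.cosh x)) =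
        cascade (gm (e + K)) r (e + K) (fun x => Real.log (Real.cosh x)) := hcas.symm
    rw [h1, hr0, h0 0 (by omega)]
  have hsum : ∑ l ∈ Finset.range (K + 1), (m' (l + 1) - m' l) * r' l ^ 2 =
      ∑ l ∈ Finset.range (e + K + 1), (gm (e + K) (l + 1) - gm (e + K) l) * r l ^ 2 := by
    have h1 : e + K + 1 = e + (K + 1) := by ring
    rw [h1, Finset.sum_range_add _ e (K + 1)]
    have h2 : ∑ l ∈ Finset.range e, (gm (e + K) (l + 1) - gm (e + K) l) * r l ^ 2 = 0 := by
      refine Finset.sum_eq_zero fun l hl => ?_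
      have := Finset.mem_range.1 hl
      rw [h0 l (by omega)]
      ring
    rw [h2, zero_add]
    refine Finset.sum_congr rfl fun l hl => ?_
    by_cases hl0 : l = 0
    · subst hl0
      have h3 : r (e + 0) = 0 := h0 e (by omega)
      rw [hr0, h3]
      ring
    · have h3 : m' l = gm (e + K) (e + l) := by simp [hm', hl0]
      have h4 : m' (l + 1) = gm (e + K) (e + (l + 1)) := by simp [hm']
      rw [h3, h4]
      rfl
  have hSK : SKr b K m' r' = SKr b (e + K) (gm (e + K)) r := by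
    unfold SKr
    rw [hspin, hsum]
  refine ⟨K, m', fun l => r' l / b ^ 2, by omega, hexp, ⟨?_, fun l hl => ?_⟩, ?_, ?_,
    fun j hj => ?_, fun j => ?_, ?_⟩
  · exact div_nonneg hpath.1 (by positivity)
  · exact div_le_div_of_nonneg_right (hpath.2 l hl) (by positivity)
  · simp only [hr0, zero_div]
  · simp only []
    rw [div_le_one (by positivity)]
    exact hend
  · have : j ≠ 0 := by omega
    simp [hm', this]
  · simp [hr']
  · rw [gap2_SKr_eq hb, hSK]

/-- **Near optimal paths with a large exponent above the first block.** -/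
theorem path_L {b A : ℝ} (hb : 1 < b)
    (hlim : Tendsto (fun x => (Vx b x - P0 b) / x ^ 5) (𝓝[>] 0) (𝓝 A)) {ε : ℝ} (hε : 0 < ε) :
    ∃ c C : ℝ, 0 < c ∧ 1 ≤ C ∧ ∀ y : ℝ, 0 < y → y ≤ c →
      ∃ (K : ℕ) (m q : ℕ → ℝ) (L : ℕ), Exponents K m ∧ Path K q ∧ q 0 = 0 ∧ q K ≤ 1 ∧
        y ≤ m 1 ∧ m 1 ≤ 101 / 100 * y ∧ 2 ≤ L ∧ L ≤ K ∧ 7 / 5 * y ≤ m L ∧
        m L ≤ 202 / 100 * y ∧
        (∀ l < L, q l ≤ C * y) ∧ SKpar b K m q ≤ P0 b + (A + ε) * y ^ 5 := by
  have hb0 : 0 < b := by linarith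
  have hb2 : (1 : ℝ) ≤ b ^ 2 := by nlinarith
  -- the value
  have h1 : ∀ᶠ x in 𝓝[>] (0 : ℝ), |(Vx b x - P0 b) / x ^ 5 - A| < ε / 2 := by
    have := hlim.eventually (Metric.ball_mem_nhds A (by positivity : 0 < ε / 2))
    simpa [Real.dist_eq] using this
  obtain ⟨u, hu, h2⟩ := mem_nhdsGT_iff_exists_Ioo_subset.1 h1
  have hu0 : 0 < u := hu
  have hV : ∀ x, 0 < x → x < u → Vx b x ≤ P0 b + (A + ε / 2) * x ^ 5 := by
    intro x hx hxu
    have h3 : |(Vx b x - P0 b) / x ^ 5 - A| < ε / 2 := h2 ⟨hx, hxu⟩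
    have hx5 : 0 < x ^ 5 := by positivity
    have h4 := (abs_lt.1 h3).2
    have h5 : (Vx b x - P0 b) / x ^ 5 < A + ε / 2 := by linarith
    rw [div_lt_iff₀ hx5] at h5
    linarith
  obtain ⟨c₁, C₁, hc₁, hC₁, hA⟩ := lawA hb
  obtain ⟨c₂, C₂, hc₂, hC₂, hL⟩ := lawC hb
  set c : ℝ := min (min (u / 2) (1 / 2)) (min (min (c₁ / 2) (c₂ / 2)) (1 / (200 * C₂ ^ 2))) with hc
  have hc0 : 0 < c := by positivity
  refine ⟨c, 2 * C₁ + 2, hc0, by linarith, fun y hy hyc => ?_⟩
  have hyu : y < u := by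
    have := (hyc.trans (min_le_left _ _)).trans (min_le_left _ _)
    linarith
  have hy2 : y ≤ 1 / 2 := (hyc.trans (min_le_left _ _)).trans (min_le_right _ _)
  have hyc1 : y ≤ c₁ / 2 := ((hyc.trans (min_le_right _ _)).trans (min_le_left _ _)).trans
    (min_le_left _ _)
  have hyc2 : y ≤ c₂ / 2 := ((hyc.trans (min_le_right _ _)).trans (min_le_left _ _)).trans
    (min_le_right _ _)
  have hyC : y ≤ 1 / (200 * C₂ ^ 2) := (hyc.trans (min_le_right _ _)).trans (min_le_right _ _)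
  have hy5 : 0 < y ^ 5 := by positivity
  -- the grid
  have e1 := shlim_le (x := y) (by linarith)
  have e2 := shlim_big hy C₁ 40
  have e3 := shlim_big hy C₂ 40
  have e4 : ∀ᶠ n : ℕ in atTop, gm n (shlimd y n) < 101 / 100 * y :=
    (shlim_td hy).eventually (gt_mem_nhds (by linarith))
  have e5 : ∀ᶠ n : ℕ in atTop, 2 * b ^ 2 / (ε / 2 * y ^ 5) ≤ (n : ℝ) + 1 :=
    shlim_n1.eventually_ge_atTop _
  obtain ⟨n, g1, g2, g3, g4, g5⟩ := (e1.and (e2.and (e3.and (e4.and e5)))).exists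
  set d := shlimd y n with hd
  have hd1 : 1 ≤ d := shlim_one hy n
  have hgy : y ≤ gm n d := shlim_ge y n
  have hgd : gm n (d - 1) < y := shlim_lt hy n
  obtain ⟨r, hr⟩ := exists_minD (b := b) (n := n) (d := d) hb0 g1
  have hg0 : 0 < gm n d := by linarith
  have hg2 : gm n d ≤ 2 * y := by linarith
  obtain ⟨-, hrd, -, -⟩ := hA n d r hd1 g1 hr (by linarith) g2
  obtain ⟨L, hdL, hL2, hLn, hrL, hgL⟩ := hL n d r hd1 g1 hr (by linarith) g3
  obtain ⟨K, m, q, hK, hexp, hpath, hq0, hq1, hm, hq, hSK⟩ := conv hb0 hd1 g1 hr.1 hr.2.1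
  have hm1 : m 1 = gm n d := by
    rw [hm 1 le_rfl]
    congr 1
    omega
  have hsq : C₂ * √(gm n d) ≤ 1 / 10 := by
    have h3 : √(gm n d) ≤ 1 / (10 * C₂) := by
      rw [Real.sqrt_le_left (by positivity)]
      refine hg2.trans ?_
      have e : (1 / (10 * C₂)) ^ 2 = 2 * (1 / (200 * C₂ ^ 2)) := by
        field_simp
        norm_num
      rw [e]
      linarith
    have h4 := mul_le_mul_of_nonneg_left h3 (by linarith : 0 ≤ C₂)
    have e : C₂ * (1 / (10 * C₂)) = 1 / 10 := by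
      field_simp
    linarith
  refine ⟨K, m, q, L - (d - 1), hexp, hpath, hq0, hq1, ?_, ?_, by omega, by omega, ?_, ?_, ?_, ?_⟩
  · rw [hm1]
    exact hgy
  · rw [hm1]
    exact g4.le
  · rw [hm _ (by omega)]
    have e : d - 1 + (L - (d - 1)) = L := by omega
    rw [e]
    refine le_trans ?_ hgL
    have h5 : C₂ * (gm n d * √(gm n d)) = C₂ * √(gm n d) * gm n d := by ring
    rw [h5]
    have h6 := mul_le_mul_of_nonneg_right hsq hg0.le
    linarith
  · rw [hm _ (by omega)]
    have e : d - 1 + (L - (d - 1)) = L := by omega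
    rw [e]
    have h5 : gm n L ≤ 2 * gm n d := by
      unfold gm
      rw [← mul_div_assoc]
      refine div_le_div_of_nonneg_right ?_ (by positivity)
      exact_mod_cast hL2
    linarith
  · intro l hl
    rw [hq l]
    have h7 : r (d - 1 + l) ≤ r (L - 1) := by
      have h8 : ∀ k, d - 1 + l + k ≤ n → r (d - 1 + l) ≤ r (d - 1 + l + k) := by
        intro k
        induction k with
        | zero => intro _; exact le_rfl
        | succ k ih =>
          intro hk
          exact (ih (by omega)).trans (hr.1.2.1.2 (d - 1 + l + k) (by omega))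
      have h9 := h8 (L - 1 - (d - 1 + l)) (by omega)
      have e : d - 1 + l + (L - 1 - (d - 1 + l)) = L - 1 := by omega
      rwa [e] at h9
    have h10 : gm n d ^ 4 ≤ gm n d := by
      have h11 : gm n d ≤ 1 := by linarith
      calc gm n d ^ 4 ≤ gm n d ^ 1 := pow_le_pow_of_le_one hg0.le h11 (by norm_num)
        _ = gm n d := pow_one _
    have h12 : r (d - 1 + l) ≤ (C₁ + 1) * (2 * y) := by
      have h13 : r (L - 1) ≤ C₁ * gm n d + gm n d := by linarith
      have h14 : C₁ * gm n d + gm n d = (C₁ + 1) * gm n d := by ring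
      rw [h14] at h13
      exact (h7.trans h13).trans (mul_le_mul_of_nonneg_left hg2 (by linarith))
    rw [div_le_iff₀ (by positivity)]
    have h15 : (C₁ + 1) * (2 * y) ≤ (2 * C₁ + 2) * y * b ^ 2 := by
      have h16 : 0 ≤ (2 * C₁ + 2) * y := by positivity
      nlinarith
    linarith
  · rw [hSK]
    have h17 := vx_ge hb hd1 g1 hy (by linarith) hgd hr
    have h18 := hV y hy hyu
    have h19 : 2 * b ^ 2 / ((n : ℝ) + 1) ≤ ε / 2 * y ^ 5 := by
      rw [div_le_iff₀ (by positivity)] at g5 ⊢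
      linarith
    have h20 : (A + ε) * y ^ 5 = (A + ε / 2) * y ^ 5 + ε / 2 * y ^ 5 := by ring
    linarith

end Vale.Agent.P146.H205.PL
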