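import Vale.Agent.P146.H119.KrowC
import Vale.Agent.P146.H205.EvenKL
import Vale.Agent.P146.H713.Lay

/-!
# P146: the entropy production of one revealed row, upper bound with the factor `1/4`

`ent_upper_even`: if `K ⊆ K'` and `F` is invariant under the change of sign of the coordinates of a
set `A` which contains `K' \ K` and is disjoint from `K`, then
`ent K' - ent K ≤ (x^2/4) (1 + 10 x b) E_x sum_(K' \ K) (cx K' D_e)^2`.
-/

open MeasureTheory ProbabilityTheory
open scoped ENNReal

namespace Vale.Agent.P146.H205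

open Vale.Agent.P157.Lv hiding Dep
open Vale.Agent.P146.H425 Vale.Agent.P146.H646 Vale.Agent.P146.H119 Vale.Agent.P146.H946

set_option linter.unusedSectionVars false

variable {κ : Type} [Fintype κ] [DecidableEq κ] {F : (κ → ℝ) → ℝ} {x b : ℝ} {A K K' : Finset κ}
  {D : κ → (κ → ℝ) → ℝ} {B L : ℝ}

/-- the change of sign of the coordinates of `A` preserves the Gaussian measure -/
lemma mp_flA (A : Finset κ) : MeasurePreserving (flA A) (gI κ) (gI κ) := by
  have h1 : MeasurePreserving (fun (a : κ → ℝ) e => (if e ∈ A then (fun r : ℝ => -r) else id) (a e))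
      (Measure.pi fun _ : κ => gaussianReal 0 1) (Measure.pi fun _ : κ => gaussianReal 0 1) := by
    refine measurePreserving_pi _ _ fun e => ?_
    by_cases h : e ∈ A
    · simp only [h, if_true]
      refine ⟨by fun_prop, ?_⟩
      rw [gaussianReal_map_neg]
      simp
    · simp only [h, if_false]
      exact MeasurePreserving.id _
  have e : flA A = fun (a : κ → ℝ) e => (if e ∈ A then (fun r : ℝ => -r) else id) (a e) := by
    funext a e
    unfold flA
    by_cases h : e ∈ A <;> simp [h]
  rw [e]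
  exact h1

lemma flA_glue (A K : Finset κ) (z z' : κ → ℝ) :
    flA A (glue K z z') = glue K (flA A z) (flA A z') := by
  funext e
  unfold flA
  by_cases h1 : e ∈ A <;> by_cases h2 : e ∈ K <;> simp [glue, h1, h2]

/-- the marginal weight is invariant under the change of sign -/
lemma wn_flA (hF : Lip F) (x : ℝ) (hfl : ∀ z, F (flA A z) = F z) (K : Finset κ) (z : κ → ℝ) :
    wn (gm κ) K (fun z => Real.exp (x * F z)) (flA A z) =
      wn (gm κ) K (fun z => Real.exp (x * F z)) z := by
  have hm := mp_flA (κ := κ) A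
  have hi : Integrable (fun z' => Real.exp (x * F (glue K (flA A z) z'))) (gI κ) :=
    ((lip_glue_right hF K (flA A z)).exp_eg x).integrable
  unfold wn
  have h1 : ∫ z', Real.exp (x * F (glue K (flA A z) z')) ∂(gI κ) =
      ∫ z', Real.exp (x * F (glue K (flA A z) (flA A z'))) ∂(gI κ) := by
    conv_lhs => rw [← hm.map_eq]
    rw [integral_map hm.measurable.aemeasurable]
    rw [hm.map_eq]
    exact hi.aestronglyMeasurable
  refine h1.trans (integral_congr_ae (Filter.Eventually.of_forall fun z' => ?_))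
  simp only
  rw [← flA_glue, hfl]

/-- the conditional log-weight is even in the coordinates of `K' \ K` -/
lemma lwn_even (hF : Lip F) (x : ℝ) (hfl : ∀ z, F (flA A z) = F z) (hA : K' \ K ⊆ A)
    (hAK : Disjoint A K) (z z' : κ → ℝ) :
    lwn x F K' (glue K z (-z')) = lwn x F K' (glue K z z') := by
  unfold lwn
  congr 1
  rw [← wn_flA hF x hfl K' (glue K z z')]
  unfold wn
  refine integral_congr_ae (Filter.Eventually.of_forall fun z'' => ?_)
  simp only
  have e : glue K' (glue K z (-z')) z'' = glue K' (flA A (glue K z z')) z'' := by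
    funext e
    by_cases h' : e ∈ K'
    · rw [glue_mem h', glue_mem h']
      unfold flA
      by_cases h : e ∈ K
      · have : e ∉ A := fun hA' => (Finset.disjoint_left.1 hAK hA') h
        simp [this, glue, h]
      · have : e ∈ A := hA (Finset.mem_sdiff.2 ⟨h', h⟩)
        simp [this, glue, h]
    · rw [glue_not_mem h', glue_not_mem h']
  rw [e]

section main

variable (h : C11 F D B L)
include h

/-- the squared conditional means of the gradient in the row -/
lemma sum_cx_le (x : ℝ) (K K' : Finset κ) (hb : ∀ z, ∑ e ∈ K' \ K, D e z ^ 2 ≤ b ^ 2)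
    (z : κ → ℝ) :
    ∑ e ∈ K' \ K, cx (gm κ) K' (fun z => Real.exp (x * F z)) (D e) z ^ 2 ≤ b ^ 2 := by
  have hF : Lip F := h.lip.lip h.B0
  have hw := wt_exp hF x
  have bD : ∀ e, BM (D e) := fun e => ⟨h.meas e, B, h.bd e⟩
  have bD2 : ∀ e, BM (fun z => D e z ^ 2) := fun e => by
    simpa only [sq] using (bD e).mul (bD e)
  refine (Finset.sum_le_sum fun e _ => cx_sq_le hw (bD e) z).trans ?_
  rw [← cx_sum hw (K' \ K) (fun e _ => bD2 e) z]
  have h1 := cx_mono hw (K := K') (BM.sum (K' \ K) fun e _ => bD2 e) (BM.const (b ^ 2)) hb z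
  refine h1.trans (le_of_eq ?_)
  exact cx_dep hw (K := K') (Q := fun _ => b ^ 2) (fun _ _ => rfl) z

/-- **the pointwise upper bound, with the factor `1/4`** -/
lemma ckl_le_even (hx : 0 < x) (hK : K ⊆ K') (hfl : ∀ z, F (flA A z) = F z) (hA : K' \ K ⊆ A)
    (hAK : Disjoint A K) (hb0 : 0 < b) (hb : ∀ z, ∑ e ∈ K' \ K, D e z ^ 2 ≤ b ^ 2)
    (hxb : x * b ≤ 1 / 6) (z : κ → ℝ) : ckl x F K K' z ≤ x ^ 2 / 4 * (1 + 10 * (x * b)) *
    ((∫ z', Real.exp (lwn x F K' (glue K z z')) * ∑ e ∈ K' \ K,
      cx (gm κ) K' (fun z => Real.exp (x * F z)) (D e) (glue K z z') ^ 2 ∂(gI κ)) /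
      Real.exp (lwn x F K z)) := by
  have hF : Lip F := h.lip.lip h.B0
  have hw := wt_exp hF x
  have bD : ∀ e, BM (D e) := fun e => ⟨h.meas e, B, h.bd e⟩
  have hs := c11_slice h hx K K' z
  have lipV : Lip fun z' => lwn x F K' (glue K z z') := lip_glue_right (lip_lwn hF x K') K z
  have e1 : ∀ z', x * (1 / x * lwn x F K' (glue K z z')) = lwn x F K' (glue K z z') := by
    intro z'
    rw [← mul_assoc, mul_one_div_cancel hx.ne', one_mul]
  set V' : κ → (κ → ℝ) → ℝ := fun e z' => x * (if e ∈ K then 0 else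
      if e ∈ K' then cx (gm κ) K' (fun z => Real.exp (x * F z)) (D e) (glue K z z') else 0)
    with hV'
  have e2 : ∀ z', ∑ e, V' e z' ^ 2 =
      x ^ 2 * ∑ e ∈ K' \ K, cx (gm κ) K' (fun z => Real.exp (x * F z)) (D e) (glue K z z') ^ 2 := by
    intro z'
    rw [← Finset.sum_subset (Finset.subset_univ (K' \ K)), Finset.mul_sum]
    · refine Finset.sum_congr rfl fun e he => ?_
      obtain ⟨h2, h3⟩ := Finset.mem_sdiff.1 he
      simp only [hV', h2, h3, if_true, if_false]
      ring
    · intro e _ he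
      by_cases h2 : e ∈ K
      · simp [hV', h2]
      · have h3 : e ∉ K' := fun h3 => he (Finset.mem_sdiff.2 ⟨h3, h2⟩)
        simp [hV', h2, h3]
  have hmain := even_kl (V := fun z' => lwn x F K' (glue K z z')) (V' := V') (L := x * b)
    lipV.eg (fun s => lipV.exp_eg s)
    (fun e => by
      have h1 := R1.C11.pd hs e
      intro y t
      have h2 := (h1 y t).const_mul x
      simp only [e1] at h2
      exact h2)
    (fun e => by
      refine EG.const_mul x (EG.of_bdd (hs.meas e) (hs.bd e)))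
    (fun z' => lwn_even hF x hfl hA hAK z z')
    (fun z' => by
      rw [e2, mul_pow]
      exact mul_le_mul_of_nonneg_left (sum_cx_le h x K K' hb _) (sq_nonneg x))
    (mul_pos hx hb0) hxb
  rw [ckl_eq hF hx hK]
  simp only [e2] at hmain
  rw [wn_wn hF x hK, Real.log_exp] at hmain
  refine hmain.trans (le_of_eq ?_)
  have e3 : ∀ z', Real.exp (lwn x F K' (glue K z z')) * (x ^ 2 * ∑ e ∈ K' \ K,
      cx (gm κ) K' (fun z => Real.exp (x * F z)) (D e) (glue K z z') ^ 2) =
      x ^ 2 * (Real.exp (lwn x F K' (glue K z z')) * ∑ e ∈ K' \ K,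
      cx (gm κ) K' (fun z => Real.exp (x * F z)) (D e) (glue K z z') ^ 2) := fun z' => by ring
  simp only [e3]
  rw [integral_const_mul]
  ring

/-- **The upper bound for one row, with the factor `1/4`** (part A of KROW). -/
theorem ent_upper_even (hx : 0 < x) (hK : K ⊆ K') (hfl : ∀ z, F (flA A z) = F z)
    (hA : K' \ K ⊆ A) (hAK : Disjoint A K) (hb0 : 0 < b)
    (hb : ∀ z, ∑ e ∈ K' \ K, D e z ^ 2 ≤ b ^ 2) (hxb : x * b ≤ 1 / 6) :
    ent x F K' - ent x F K ≤ x ^ 2 / 4 * (1 + 10 * (x * b)) *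
    ex (gm κ) (fun z => Real.exp (x * F z)) (fun z => ∑ e ∈ K' \ K,
      cx (gm κ) K' (fun z => Real.exp (x * F z)) (D e) z ^ 2) := by
  have hF : Lip F := h.lip.lip h.B0
  have hw := wt_exp hF x
  have bD : ∀ e, BM (D e) := fun e => ⟨h.meas e, B, h.bd e⟩
  rw [ent_sub_eq h hx hK]
  unfold ex
  rw [← mul_div_assoc]
  refine div_le_div_of_nonneg_right ?_ hw.tot_pos.le
  have b1 : ∀ e, BM (cx (gm κ) K' (fun z => Real.exp (x * F z)) (D e)) := fun e =>
    hw.bm_cx K' (bD e)
  set R : (κ → ℝ) → ℝ := fun z => ∑ e ∈ K' \ K,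
    cx (gm κ) K' (fun z => Real.exp (x * F z)) (D e) z ^ 2 with hR
  have eR : EG R := by
    refine EG.sum _ fun e _ => EG.pow ?_ 2
    obtain ⟨C, hC⟩ := (b1 e).bd
    exact EG.of_bdd (b1 e).meas hC
  have dR : H646.Dep K' R := by
    intro z z'
    simp only [hR]
    exact Finset.sum_congr rfl fun e _ => by rw [dep_cx K' z z']
  have ec : EG (ckl x F K K') := EG.of_bdd (meas_ckl hF hx hK) (ckl_bd h hx hK)
  have e0 := eg_exp_lwn hF x K
  have e0' := eg_exp_lwn hF x K'
  rw [int_dep hF x eR dR, int_dep hF x ec (dep_ckl hF hx hK),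
    ← integral_glue (gm κ) K (e0'.mul eR).integrable, ← integral_const_mul]
  have i1 : Integrable (fun z => ∫ z', Real.exp (lwn x F K' (glue K z z')) *
      R (glue K z z') ∂(gI κ)) (gI κ) :=
    (integrable_glue (μ := gm κ) K (e0'.mul eR).integrable).integral_prod_left
  refine integral_mono (e0.mul ec).integrable (i1.const_mul _) fun z => ?_
  simp only
  have h1 := mul_le_mul_of_nonneg_left (ckl_le_even h hx hK hfl hA hAK hb0 hb hxb z)
    (Real.exp_pos (lwn x F K z)).le
  refine h1.trans (le_of_eq ?_)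
  have := (Real.exp_pos (lwn x F K z)).ne'
  field_simp
  rfl

end main

end Vale.Agent.P146.H205
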