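import Vale.Agent.P146.H205.S3Ind

/-!
# P146, S3: the history of the two flows, for one `n`

* `ap_z`: the a priori package on `[y / 2, 2 y]` from the response at one exponent `z ∈ [y, 2 y]`
  and from the entropies without field above `z`.
* `kv_step`, `kv_hist`: the entropies without field from the response at the larger exponents
  and from the bound of the entropy at one field.
-/

open MeasureTheory ProbabilityTheory Filter Topology Set

namespace Vale.Agent.P146.S3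

open Vale.Agent.P146
open Vale.Agent.P146.H877 (kap At)
open Vale.Agent.P146.H9 (Phn KV)
open Vale.Agent.P146.H205.U4

variable {β : ℝ} {n : ℕ} {y z V W : ℝ}

lemma err_mono (hn : 1 ≤ n) (hβ : 0 < β) (hy : 0 < y) (hV : 0 ≤ V) (hVW : V ≤ W) :
    err β n y V ≤ err β n y W := by
  have hn0 : (0 : ℝ) < n := by exact_mod_cast hn
  unfold err
  have : V ^ 2 ≤ W ^ 2 := pow_le_pow_left₀ hV hVW 2
  gcongr

lemma err_nonneg (hn : 1 ≤ n) (hβ : 0 < β) (hy : 0 < y) : 0 ≤ err β n y V := by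
  have hn0 : (0 : ℝ) < n := by exact_mod_cast hn
  have hn1 : (1 : ℝ) ≤ n := by exact_mod_cast hn
  have hl : 0 ≤ Real.log (2 * n) := Real.log_nonneg (by linarith)
  unfold err
  positivity

/-- **The a priori package from the response at one exponent.** -/
theorem ap_z {E : ℝ} (hβ : 0 < β) (hn : 1 ≤ n) (hE : 0 ≤ E) (hy : 0 < y) (hyz : y ≤ z)
    (hz : z ≤ 2 * y) (hW : 0 < W) (hyW : 16 * (y * W) ≤ β)
    (cv : ConcaveOn ℝ (Ici 0) (Phn n β z)) (hA : 1 ≤ At β n z W)
    (hK : ∀ w, z ≤ w → w ≤ 8 * y → KV n β w 0 ≤ E * w ^ 6)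
    (he : ∀ w, y ≤ w → w ≤ 8 * y → err β n w W ≤ E * y ^ 5) {u : ℝ} (hu1 : y / 2 ≤ u)
    (hu2 : u ≤ 2 * y) {V : ℝ} (hV0 : 0 ≤ V) (hVW : V ≤ W) :
    |Phn n β u V - Phn n β u 0 - n * V / (2 * β)| ≤ 4 * 10 ^ 8 * (E * u ^ 5) ∧
    Phn n β (2 * u) V - Phn n β u V ≤ 4 * 10 ^ 8 * (E * u ^ 5) ∧
    KV n β u V ≤ 8 * 10 ^ 8 * (E * u ^ 6) := by
  have hn0 : (0 : ℝ) < n := by exact_mod_cast hn
  have hz0 : 0 < z := by linarith
  have hu0 : 0 < u := by linarith
  obtain ⟨M, hM⟩ : ∃ M, M = E * y ^ 5 := ⟨_, rfl⟩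
  have hM0 : 0 ≤ M := by rw [hM]; positivity
  -- the increments without field
  have i1 : ∀ a b : ℝ, y / 2 ≤ a → a ≤ b → z ≤ b → b ≤ 8 * y →
      Phn n β b 0 - Phn n β a 0 ≤ 524288 * M := by
    intro a b ha hab hzb hb
    have ha0 : 0 < a := by linarith
    have hb0 : 0 < b := by linarith
    have h1 := (H9.Phn_sub_bd n β 0 ha0 hab).2
    have h2 : KV n β b 0 * (1 / a - 1 / b) ≤ E * b ^ 6 * (1 / a) := by
      have h3 : 1 / a - 1 / b ≤ 1 / a := by
        have : 0 < 1 / b := by positivity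
        linarith
      have h4 : 0 ≤ 1 / a - 1 / b := by
        have := one_div_le_one_div_of_le ha0 hab
        linarith
      exact mul_le_mul (hK b hzb hb) h3 h4 (by positivity)
    have h5 : E * b ^ 6 * (1 / a) ≤ 524288 * M := by
      rw [mul_one_div, div_le_iff₀ ha0]
      have h6 : b ^ 6 ≤ (8 * y) ^ 6 := pow_le_pow_left₀ hb0.le hb 6
      calc E * b ^ 6 ≤ E * (8 * y) ^ 6 := by gcongr
        _ = 524288 * M * (y / 2) := by rw [hM]; ring
        _ ≤ 524288 * M * a := by gcongr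
    linarith
  have i2 : ∀ a b : ℝ, y / 2 ≤ a → a ≤ b → b ≤ 8 * y →
      Phn n β b 0 - Phn n β a 0 ≤ 524288 * M := by
    intro a b ha hab hb
    rcases le_total z b with h | h
    · exact i1 a b ha hab h hb
    · have h1 := i1 a z ha (hab.trans h) le_rfl (by linarith)
      have h2 := H178.Phn_mono n β 0 (by linarith : 0 < b) h
      linarith
  -- contiguity
  have dU : ∀ w : ℝ, y / 2 ≤ w → w ≤ 4 * y →
      Phn n β w V - Phn n β w 0 - n * V / (2 * β) ≤ 524288 * M + M := by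
    intro w hw1 hw2
    have hw0 : 0 < w := by linarith
    have h1 : 4 * (w * V) ≤ β := by
      have h2 : w * V ≤ 4 * y * W := mul_le_mul hw2 hVW hV0 (by positivity)
      linarith
    have h2 := resp_dbl hβ hn hw0 hV0 h1
    have h3 := i2 w (2 * w) hw1 (by linarith) (by linarith)
    have h4 := err_mono hn hβ (by positivity : 0 < 2 * w) hV0 hVW
    have h5 := he (2 * w) (by linarith) (by linarith)
    rw [← hM] at h5
    linarith
  have dz := H178.At_lin hβ hn cv hW hA hV0 hVW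
  have tz : Phn n β (2 * z) V - Phn n β z V ≤ 1048577 * M := by
    have h1 := dU (2 * z) (by linarith) (by linarith)
    have h2 := i2 z (2 * z) (by linarith) (by linarith) (by linarith)
    linarith
  have hKz : KV n β z V ≤ 4194308 * (y * M) := by
    have h1 := H178.KV_le_dbl n β V hz0
    have h2 := mul_le_mul_of_nonneg_left tz (show 0 ≤ 2 * z by positivity)
    have h3 : 2 * z * (1048577 * M) ≤ 2 * (2 * y) * (1048577 * M) := by gcongr
    linarith [show 2 * (2 * y) * (1048577 * M) = 4194308 * (y * M) by ring]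
  have dL : ∀ w : ℝ, y / 2 ≤ w → w ≤ 4 * y →
      -(8388616 * M) ≤ Phn n β w V - Phn n β w 0 - n * V / (2 * β) := by
    intro w hw1 hw2
    have hw0 : 0 < w := by linarith
    rcases le_total z w with hzw | hzw
    · have h1 := H178.Phn_mono n β V hz0 hzw
      have h2 := i2 z w (by linarith) hzw (by linarith)
      linarith
    · have h1 := H178.Phn_mono n β 0 hw0 hzw
      have h2 := (H9.Phn_sub_bd n β V hw0 hzw).2
      have h3 : KV n β z V * (1 / w - 1 / z) ≤ 4194308 * (y * M) * (1 / w) := by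
        have h4 : 1 / w - 1 / z ≤ 1 / w := by
          have : 0 < 1 / z := by positivity
          linarith
        have h5 : 0 ≤ 1 / w - 1 / z := by
          have := one_div_le_one_div_of_le hw0 hzw
          linarith
        exact mul_le_mul hKz h4 h5 (by positivity)
      have h6 : 4194308 * (y * M) * (1 / w) ≤ 8388616 * M := by
        rw [mul_one_div, div_le_iff₀ hw0]
        have h7 : y * M ≤ 2 * w * M := mul_le_mul_of_nonneg_right (by linarith) hM0
        linarith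
      linarith
  have hMu : M ≤ 32 * (E * u ^ 5) := by
    have h1 : y ^ 5 ≤ (2 * u) ^ 5 := pow_le_pow_left₀ hy.le (by linarith) 5
    rw [hM]
    calc E * y ^ 5 ≤ E * (2 * u) ^ 5 := by gcongr
      _ = 32 * (E * u ^ 5) := by ring
  have d1 := dU u hu1 (by linarith)
  have d2 := dL u hu1 (by linarith)
  have ht : Phn n β (2 * u) V - Phn n β u V ≤ 4 * 10 ^ 8 * (E * u ^ 5) := by
    have h1 := dU (2 * u) (by linarith) (by linarith)
    have h2 := i2 u (2 * u) hu1 (by linarith) (by linarith)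
    linarith
  refine ⟨?_, ht, ?_⟩
  · rw [abs_le]
    constructor <;> linarith
  · have h7 := H178.KV_le_dbl n β V hu0
    have h8 := mul_le_mul_of_nonneg_left ht (by positivity : (0 : ℝ) ≤ 2 * u)
    linarith [show 2 * u * (4 * 10 ^ 8 * (E * u ^ 5)) = 8 * 10 ^ 8 * (E * u ^ 6) by ring]

/-- The package in the form of `H178.AP`. -/
theorem ap_z' {E s0 : ℝ} (hβ : 0 < β) (hn : 1 ≤ n) (hE : 0 ≤ E)
    (hEs : 8 * 10 ^ 8 * E ≤ (n : ℝ) ^ (1 + s0)) (hy : 0 < y) (hyz : y ≤ z)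
    (hz : z ≤ 2 * y) (hW : 0 < W) (hyW : 16 * (y * W) ≤ β)
    (cv : ConcaveOn ℝ (Ici 0) (Phn n β z)) (hA : 1 ≤ At β n z W)
    (hK : ∀ w, z ≤ w → w ≤ 8 * y → KV n β w 0 ≤ E * w ^ 6)
    (he : ∀ w, y ≤ w → w ≤ 8 * y → err β n w W ≤ E * y ^ 5) :
    ∀ u : ℝ, y / 2 ≤ u → u ≤ 2 * y → H178.AP β s0 n u W := by
  intro u hu1 hu2
  have hu0 : 0 < u := by linarith
  have key : ∀ V : ℝ, 0 ≤ V → V ≤ W → _ := fun V h1 h2 =>
    ap_z hβ hn hE hy hyz hz hW hyW cv hA hK he hu1 hu2 h1 h2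
  have hEs' : 4 * 10 ^ 8 * E ≤ (n : ℝ) ^ (1 + s0) := by linarith
  refine ⟨fun V h1 h2 => (key V h1 h2).1.trans ?_, fun V h1 h2 => (key V h1 h2).2.1.trans ?_,
    fun V h1 h2 => (key V h1 h2).2.2.trans ?_⟩
  · rw [← mul_assoc]
    exact mul_le_mul_of_nonneg_right hEs' (by positivity)
  · rw [← mul_assoc]
    exact mul_le_mul_of_nonneg_right hEs' (by positivity)
  · rw [← mul_assoc]
    exact mul_le_mul_of_nonneg_right hEs (by positivity)

/-- the error of contiguity at the exponents of the size `y` -/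
lemma err_win {E : ℝ} (hβ : 1 ≤ β) (hn : 1 ≤ n) (hE : n ≤ E) (hy : 0 < y) (hy1 : y ≤ 1 / 64)
    (hW0 : 0 ≤ W) (hW : W ≤ y ^ 3) (hl : 2 * β + 8 * Real.log (2 * n) ≤ n * y ^ 6) :
    ∀ w, y ≤ w → w ≤ 8 * y → err β n w W ≤ E * y ^ 5 := by
  intro w hw1 hw2
  have hn0 : (0 : ℝ) < n := by exact_mod_cast hn
  have hn1 : (1 : ℝ) ≤ n := by exact_mod_cast hn
  have hw0 : 0 < w := by linarith
  have hl0 : 0 ≤ Real.log (2 * n) := Real.log_nonneg (by linarith)
  have h1 : W ^ 2 ≤ (y ^ 3) ^ 2 := pow_le_pow_left₀ hW0 hW 2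
  have h2 : 2 * (n * w * W ^ 2) / β ^ 2 ≤ 1 / 4 * (n * y ^ 5) := by
    have h3 : 2 * (n * w * W ^ 2) / β ^ 2 ≤ 2 * (n * w * W ^ 2) :=
      div_le_self (by positivity) (by nlinarith)
    have h4 : n * w * W ^ 2 ≤ n * (8 * y) * (y ^ 3) ^ 2 := by gcongr
    have h5 : n * (8 * y) * (y ^ 3) ^ 2 = 8 * y ^ 2 * (n * y ^ 5) := by ring
    have h6 : 8 * y ^ 2 ≤ 1 / 8 := by nlinarith
    have h7 : 8 * y ^ 2 * (n * y ^ 5) ≤ 1 / 8 * (n * y ^ 5) :=
      mul_le_mul_of_nonneg_right h6 (by positivity)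
    linarith
  have h3 : β + 2 * Real.log (2 * n) / w ≤ 1 / 2 * (n * y ^ 5) := by
    have h4 : 2 * Real.log (2 * n) / w ≤ 2 * Real.log (2 * n) / y :=
      div_le_div_of_nonneg_left (by positivity) hy hw1
    have h5 : (2 * β + 8 * Real.log (2 * n)) / (4 * y) ≤ 1 / 4 * (n * y ^ 5) := by
      rw [div_le_iff₀ (by positivity)]
      linarith [show 1 / 4 * (n * y ^ 5) * (4 * y) = n * y ^ 6 by ring]
    have e1 : (2 * β + 8 * Real.log (2 * n)) / (4 * y) = β / (2 * y) +
        2 * Real.log (2 * n) / y := by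
      field_simp
      ring
    have h6 : β ≤ β / (2 * y) := by
      rw [le_div_iff₀ (by positivity)]
      nlinarith
    have h7 : 0 ≤ n * y ^ 5 := by positivity
    linarith
  have h4 : n * y ^ 5 ≤ E * y ^ 5 := mul_le_mul_of_nonneg_right hE (by positivity)
  have h5 : 0 ≤ n * y ^ 5 := by positivity
  have e : err β n w W = 2 * (n * w * W ^ 2) / β ^ 2 + (β + 2 * Real.log (2 * n) / w) := by
    unfold err
    ring
  rw [e]
  linarith

end Vale.Agent.P146.S3
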