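import Vale.Agent.P146.H205.U4
import Vale.Agent.P146.H178.AP

/-!
# P146, S3: the a priori package with a constant

* `APc β G n y W`: the a priori sizes at the exponent `y` and the fields in `[0, W]`, with the
  constant `G` (compare `H178.AP`, where it is `n ^ s0`).
* `apc_of`: from the entropies at `2 y`, `4 y` (no field) and at `2 y` with the field `W`.
* `kv_zero`: the entropy without field from the entropies at one field.
-/

open MeasureTheory ProbabilityTheory Filter Topology Set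

namespace Vale.Agent.P146.S3

open Vale.Agent.P146
open Vale.Agent.P146.H877 (kap At)
open Vale.Agent.P146.H9 (Phn KV)
open Vale.Agent.P146.H205.U4

/-- The a priori package at `(y, V)` for all `V ≤ W`, with a constant. -/
structure APc (β G : ℝ) (n : ℕ) (y W : ℝ) : Prop where
  dd : ∀ V : ℝ, 0 ≤ V → V ≤ W →
    |Phn n β y V - Phn n β y 0 - n * V / (2 * β)| ≤ G * (n * y ^ 5)
  tc : ∀ V : ℝ, 0 ≤ V → V ≤ W → Phn n β (2 * y) V - Phn n β y V ≤ G * (n * y ^ 5)
  kk : ∀ V : ℝ, 0 ≤ V → V ≤ W → KV n β y V ≤ G * (n * y ^ 6)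

theorem APc.mono {β G G' : ℝ} {n : ℕ} {y W W' : ℝ} (h : APc β G n y W) (hG : G ≤ G')
    (hW : W' ≤ W) (hy : 0 ≤ y) : APc β G' n y W' where
  dd V h0 h1 := (h.dd V h0 (h1.trans hW)).trans
    (mul_le_mul_of_nonneg_right hG (by positivity))
  tc V h0 h1 := (h.tc V h0 (h1.trans hW)).trans
    (mul_le_mul_of_nonneg_right hG (by positivity))
  kk V h0 h1 := (h.kk V h0 (h1.trans hW)).trans
    (mul_le_mul_of_nonneg_right hG (by positivity))

variable {β : ℝ} {n : ℕ} {y V W : ℝ}

/-- **Contiguity with the increment of the exponent.** -/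
theorem resp_dbl (hβ : 0 < β) (hn : 1 ≤ n) (hy : 0 < y) (hV : 0 ≤ V) (hyV : 4 * (y * V) ≤ β) :
    Phn n β y V - Phn n β y 0 - n * V / (2 * β) ≤
      Phn n β (2 * y) 0 - Phn n β y 0 + err β n (2 * y) V := by
  have hn0 : (0 : ℝ) < n := by exact_mod_cast hn
  have hn1 : (1 : ℝ) ≤ n := by exact_mod_cast hn
  have hl : 0 ≤ Real.log (2 * n) := Real.log_nonneg (by linarith)
  rcases hV.eq_or_lt with h0 | h0
  · subst h0
    have h1 := H178.Phn_mono n β 0 hy (by linarith : y ≤ 2 * y)
    have h2 : 0 ≤ err β n (2 * y) 0 := by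
      unfold err
      positivity
    simp only [mul_zero, zero_div, sub_self]
    linarith
  have h1 := H877.contig_At hβ hn hy h0 hyV
  rw [H9.At_eq] at h1
  have h2 := H9.Phn_kap β n hy (by linarith : 0 < 2 * y)
  have h3 : kap β n (2 * y) / 2 - kap β n y = y * (Phn n β (2 * y) 0 - Phn n β y 0) := by
    rw [h2]
    field_simp
  have e1 : y * n * V / (2 * β) * (2 * β / (n * V) * (Phn n β y V - Phn n β y 0) - 1) =
      y * (Phn n β y V - Phn n β y 0 - n * V / (2 * β)) := by
    field_simp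
  rw [e1, h3] at h1
  have e3 : 4 / β ^ 2 * (n * (y * V) ^ 2) + (y * β + Real.log (2 * n)) =
      y * err β n (2 * y) V := by
    unfold err
    field_simp
    ring
  have h5 : y * (Phn n β y V - Phn n β y 0 - n * V / (2 * β)) ≤
      y * (Phn n β (2 * y) 0 - Phn n β y 0 + err β n (2 * y) V) := by
    rw [mul_add, ← e3]
    linarith
  exact le_of_mul_le_mul_left h5 hy

/-- the increment of the exponent by the entropy at the larger one -/
theorem dbl_up (n : ℕ) (β v : ℝ) (hy : 0 < y) :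
    Phn n β (2 * y) v - Phn n β y v ≤ KV n β (2 * y) v / (2 * y) := by
  have h6 := (H9.Phn_sub_bd n β v hy (by linarith : y ≤ 2 * y)).2
  have e2 : 1 / y - 1 / (2 * y) = 1 / (2 * y) := by
    field_simp
    norm_num
  rwa [e2, mul_one_div] at h6

/-- **The entropy without field.** -/
theorem kv_zero (hβ : 0 < β) (hn : 1 ≤ n) (hy : 0 < y) (hV : 0 < V) (hyV : 2 * (y * V) ≤ β)
    (hf : n * V / (2 * β) ≤ Phn n β (2 * y) V - Phn n β (2 * y) 0) :
    KV n β y 0 ≤ KV n β (2 * y) V + 2 * KV n β y V + 2 * y * err β n y V := by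
  have hr := resp_le hβ hn hy hV hyV
  have h6 := dbl_up n β V hy
  have h1 := H178.KV_le_dbl n β 0 hy
  have h3 : Phn n β (2 * y) 0 - Phn n β y 0 ≤
      KV n β (2 * y) V / (2 * y) + (KV n β y V / y + err β n y V) := by linarith
  have h4 := mul_le_mul_of_nonneg_left h3 (by positivity : (0 : ℝ) ≤ 2 * y)
  refine (h1.trans h4).trans (le_of_eq ?_)
  field_simp
  ring

/-- **The a priori package at `y` from the entropies at `2 y` and `4 y`.** -/
theorem apc_of (hβ : 0 < β) (hn : 1 ≤ n) (hy : 0 < y) (hW : 0 < W) (hyW : 8 * (y * W) ≤ β)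
    (cv : ConcaveOn ℝ (Ici 0) (Phn n β y)) (cv2 : ConcaveOn ℝ (Ici 0) (Phn n β (2 * y)))
    (hf : 1 ≤ At β n (2 * y) W) {E : ℝ} (h2 : KV n β (2 * y) 0 ≤ E * (2 * y) ^ 6)
    (h4 : KV n β (4 * y) 0 ≤ E * (4 * y) ^ 6) (hK : KV n β (2 * y) W ≤ E * (2 * y) ^ 6)
    (he : err β n (4 * y) W ≤ E * y ^ 5) (he2 : err β n (2 * y) W ≤ E * y ^ 5) :
    ∀ v : ℝ, 0 ≤ v → v ≤ W →
      |Phn n β y v - Phn n β y 0 - n * v / (2 * β)| ≤ 1200 * (E * y ^ 5) ∧
      Phn n β (2 * y) v - Phn n β y v ≤ 1200 * (E * y ^ 5) ∧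
      KV n β y v ≤ 2400 * (E * y ^ 6) := by
  intro v hv hvW
  have hn0 : (0 : ℝ) < n := by exact_mod_cast hn
  have hn1 : (1 : ℝ) ≤ n := by exact_mod_cast hn
  have hl : 0 ≤ Real.log (2 * n) := Real.log_nonneg (by linarith)
  have hyv : y * v ≤ y * W := mul_le_mul_of_nonneg_left hvW hy.le
  have hE : 0 ≤ E * y ^ 5 := by
    refine le_trans ?_ he2
    unfold err
    positivity
  -- the increments without field
  have p1 : Phn n β (2 * y) 0 - Phn n β y 0 ≤ 32 * (E * y ^ 5) := by
    refine (dbl_up n β 0 hy).trans ?_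
    rw [div_le_iff₀ (by positivity)]
    linarith [show 32 * (E * y ^ 5) * (2 * y) = E * (2 * y) ^ 6 by ring]
  have p2 : Phn n β (4 * y) 0 - Phn n β (2 * y) 0 ≤ 1024 * (E * y ^ 5) := by
    have h := dbl_up (y := 2 * y) n β 0 (by positivity)
    have e : 2 * (2 * y) = 4 * y := by ring
    rw [e] at h
    refine h.trans ?_
    rw [div_le_iff₀ (by positivity)]
    linarith [show 1024 * (E * y ^ 5) * (4 * y) = E * (4 * y) ^ 6 by ring]
  have p3 : Phn n β (2 * y) W - Phn n β y W ≤ 32 * (E * y ^ 5) := by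
    refine (dbl_up n β W hy).trans ?_
    rw [div_le_iff₀ (by positivity)]
    linarith [show 32 * (E * y ^ 5) * (2 * y) = E * (2 * y) ^ 6 by ring]
  -- contiguity
  have em : ∀ z : ℝ, 0 < z → err β n z v ≤ err β n z W := fun z hz => by
    unfold err
    have : v ^ 2 ≤ W ^ 2 := pow_le_pow_left₀ hv hvW 2
    gcongr
  have c1 := resp_dbl hβ hn hy hv (by linarith)
  have c2 := resp_dbl hβ hn (by positivity : 0 < 2 * y) hv (by linarith)
  have e : 2 * (2 * y) = 4 * y := by ring
  rw [e] at c2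
  have e1 := em (2 * y) (by positivity)
  have e2 := em (4 * y) (by positivity)
  -- the response at `2 y`
  have d2 := H178.At_lin hβ hn cv2 hW hf hv hvW
  have d3 := H178.At_lin hβ hn cv2 hW hf hW.le le_rfl
  -- the lower bound at `y`
  have hm := H178.Phn_mono n β 0 hy (by linarith : y ≤ 2 * y)
  have dW : -(32 * (E * y ^ 5)) ≤ Phn n β y W - Phn n β y 0 - n * W / (2 * β) := by linarith
  have dl : -(32 * (E * y ^ 5)) ≤ Phn n β y v - Phn n β y 0 - n * v / (2 * β) := by
    have h3 := cv.2 (show (0 : ℝ) ∈ Ici 0 from mem_Ici.2 le_rfl) (show W ∈ Ici (0 : ℝ) from hW.le)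
      (show 0 ≤ 1 - v / W by
        rw [sub_nonneg, div_le_one hW]
        exact hvW) (show 0 ≤ v / W by positivity) (by ring)
    simp only [smul_eq_mul, mul_zero, zero_add] at h3
    have e5 : v / W * W = v := by field_simp
    rw [e5] at h3
    have h5 := mul_le_mul_of_nonneg_left dW (show 0 ≤ v / W by positivity)
    have e6 : v / W * (Phn n β y W - Phn n β y 0 - n * W / (2 * β)) =
        v / W * Phn n β y W - v / W * Phn n β y 0 - n * v / (2 * β) := by
      field_simp
    rw [e6] at h5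
    have h6 : v / W * (32 * (E * y ^ 5)) ≤ 32 * (E * y ^ 5) := by
      refine mul_le_of_le_one_left (by positivity) ?_
      rw [div_le_one hW]
      exact hvW
    have e7 : v / W * -(32 * (E * y ^ 5)) = -(v / W * (32 * (E * y ^ 5))) := by ring
    rw [e7] at h5
    have e8 : (1 - v / W) * Phn n β y 0 = Phn n β y 0 - v / W * Phn n β y 0 := by ring
    rw [e8] at h3
    linarith
  have ht : Phn n β (2 * y) v - Phn n β y v ≤ 1200 * (E * y ^ 5) := by linarith
  refine ⟨?_, ht, ?_⟩
  · rw [abs_le]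
    constructor <;> linarith
  · have h7 := H178.KV_le_dbl n β v hy
    have h8 := mul_le_mul_of_nonneg_left ht (by positivity : (0 : ℝ) ≤ 2 * y)
    linarith [show 2 * y * (1200 * (E * y ^ 5)) = 2400 * (E * y ^ 6) by ring]

end Vale.Agent.P146.S3
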