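import Vale.Agent.P146.H205.S3Hist
import Vale.Agent.P146.H529.S3Up

/-!
# P146, S3: the entropy without field with a constant, for every fixed distance to `n ^ (-1/6)`

`kv_const` : `KV n β y 0 ≤ 70 (2 C + 1) n y ^ 6` for `n ^ (-1/6+e) ≤ y ≤ n ^ (-b₀)`, every `e > 0`,
from `H529.KaC` (the bound of the auxiliary law), `H178.upK` and the response.
-/

open MeasureTheory ProbabilityTheory Filter Topology Set

namespace Vale.Agent.P146.S3

open Vale.Agent.P146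
open Vale.Agent.P146.H877 (kap At)
open Vale.Agent.P146.H9 (Phn KV)
open Vale.Agent.P146.H205.U4

variable {β : ℝ}

/-- **The entropy without field with a constant.** -/
theorem kv_const {b₁ b₀ C q0 : ℝ} (hβ : 1 < β) (hb₁ : 0 < b₁) (hb₀ : b₁ < b₀) (hC : 0 ≤ C)
    (hq0 : 0 < q0)
    (hKa : ∀ q, 0 < q → q ≤ q0 → ∀ A : ℝ, 1 ≤ A → H529.KaC (1 / 6) b₁ q A β C)
    (hUp : H178.UpK β) (hR : H178.Resp b₁ (At β)) : ∀ e : ℝ, 0 < e → ∀ᶠ n : ℕ in atTop, ∀ y : ℝ,
      (n : ℝ) ^ (-(1 / 6) + e) ≤ y → y ≤ (n : ℝ) ^ (-b₀) →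
        KV n β y 0 ≤ 70 * (2 * C + 1) * (n * y ^ 6) := by
  intro e he
  have hβ0 : 0 < β := by linarith
  obtain ⟨q, hq⟩ : ∃ q, q = min q0 (e / 2000) := ⟨_, rfl⟩
  have hqp : 0 < q := by
    rw [hq]
    exact lt_min hq0 (by linarith)
  have hq1 : q ≤ q0 := by rw [hq]; exact min_le_left _ _
  have hqe : 2000 * q ≤ e := by
    have : q ≤ e / 2000 := by rw [hq]; exact min_le_right _ _
    linarith
  obtain ⟨s, d, hs, hd, hsd, hR⟩ := hR (23 * q) (by linarith)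
  have hcv : H178.Ccv β := fun n _ x hx hx1 => H320.Conc.Phn_conc n β hx (by linarith)
  filter_upwards [hR, H529.upV hβ0 hqp le_rfl hb₁ hC (hKa q hqp hq1) 8 (by norm_num),
    H178.ap_of_nm hβ hcv hUp (show 0 < q / 2 by positivity),
    H178.ev_log (show 0 < 6 * e by positivity) (2 * β + 16),
    H178.ev_pow (show 0 < b₀ - b₁ by linarith) 4,
    H178.ev_pow hb₁ 64, H178.ev_pow (show 0 < q by positivity) 2, eventually_ge_atTop 1]
    with n g1 g2 g3 g4 g5 g6 g7 hn y hy1 hy2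
  have hn1 : (1 : ℝ) ≤ n := by exact_mod_cast hn
  have hn0 : (0 : ℝ) < n := by linarith
  have hx0 : 0 < (n : ℝ) ^ (-(1 / 6) + e) := Real.rpow_pos_of_pos hn0 _
  have hy0 : 0 < y := hx0.trans_le hy1
  have hB0 := Real.rpow_pos_of_pos hn0 (-b₁)
  have hB0' := Real.rpow_pos_of_pos hn0 (-b₀)
  have hD0 := Real.rpow_pos_of_pos hn0 (-(24 * q))
  have hD1 : (n : ℝ) ^ (-(24 * q)) ≤ 1 :=
    Real.rpow_le_one_of_one_le_of_nonpos hn1 (by linarith)
  have hy4 : 4 * y ≤ (n : ℝ) ^ (-b₁) := by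
    have e1 : (n : ℝ) ^ (-b₁) = (n : ℝ) ^ (b₀ - b₁) * (n : ℝ) ^ (-b₀) := by
      rw [← Real.rpow_add hn0]
      congr 1
      ring
    rw [e1]
    exact mul_le_mul g5 hy2 hy0.le (by positivity)
  have hB64 : 64 * (n : ℝ) ^ (-b₁) ≤ 1 := by
    have e1 : (n : ℝ) ^ b₁ * (n : ℝ) ^ (-b₁) = 1 := by
      rw [← Real.rpow_add hn0]
      simp
    have := mul_le_mul_of_nonneg_right g6 hB0.le
    linarith
  have hy256 : 256 * y ≤ 1 := by linarith
  -- the response at `y` and `2 y`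
  have hAt : ∀ x : ℝ, y ≤ x → x ≤ 2 * y → 1 ≤ At β n x (2 * ((n : ℝ) ^ (-(24 * q)) * y ^ 3)) := by
    intro x hx1 hx2
    have hx : 0 < x := by linarith
    have h1 := g1 x ((Real.rpow_le_rpow_of_exponent_le hn1 (by linarith)).trans (hy1.trans hx1))
      (by linarith)
    have h2 : 0 ≤ (n : ℝ) ^ (-s) * x ^ 2 := by positivity
    refine at_anti hβ0 hn (hcv n hn x hx (by linarith)) (by positivity) ?_
      (show 1 ≤ At β n x ((n : ℝ) ^ (-d) * x ^ 3) by linarith)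
    have h3 : 2 * (n : ℝ) ^ (-(24 * q)) ≤ (n : ℝ) ^ (-d) := by
      have e1 : (n : ℝ) ^ (-(23 * q)) = (n : ℝ) ^ q * (n : ℝ) ^ (-(24 * q)) := by
        rw [← Real.rpow_add hn0]
        congr 1
        ring
      have h4 : (n : ℝ) ^ (-(23 * q)) ≤ (n : ℝ) ^ (-d) :=
        Real.rpow_le_rpow_of_exponent_le hn1 (by linarith)
      rw [e1] at h4
      exact (mul_le_mul_of_nonneg_right g7 hD0.le).trans h4
    calc 2 * ((n : ℝ) ^ (-(24 * q)) * y ^ 3) = 2 * (n : ℝ) ^ (-(24 * q)) * y ^ 3 := by ring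
      _ ≤ (n : ℝ) ^ (-d) * y ^ 3 := by gcongr
      _ ≤ (n : ℝ) ^ (-d) * x ^ 3 := by gcongr
  obtain ⟨V, hV⟩ : ∃ V, V = (n : ℝ) ^ (-(24 * q)) * y ^ 3 := ⟨_, rfl⟩
  rw [← hV] at hAt
  have hV0 : 0 < V := by rw [hV]; positivity
  have hVy : V ≤ y ^ 3 := by
    rw [hV]
    exact mul_le_of_le_one_left (by positivity) hD1
  have hV2 : ∀ u : ℝ, y ≤ u → 2 * V ≤ u ^ 2 := by
    intro u hu
    have h1 : 2 * y * y ^ 2 ≤ 1 * y ^ 2 := mul_le_mul_of_nonneg_right (by linarith) (by positivity)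
    have h2 : y ^ 2 ≤ u ^ 2 := pow_le_pow_left₀ hy0.le hu 2
    linarith [show 2 * y * y ^ 2 = 2 * y ^ 3 by ring]
  -- the a priori package
  have hap : ∀ x : ℝ, y ≤ x → x ≤ 2 * y → ∀ u : ℝ, x ≤ u → u ≤ 2 * x →
      H178.AP β (q / 2) n u (2 * V) := by
    intro x hx1 hx2 u hu1 hu2
    exact g3 x x (2 * V) ((Real.rpow_le_rpow_of_exponent_le hn1 (by linarith)).trans
      (hy1.trans hx1)) (by linarith) le_rfl (by linarith) (by linarith) (hV2 x hx1)
      (hAt x hx1 hx2) u (by linarith) hu2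
  have hlo : (n : ℝ) ^ (-(1 / 6) + 1000 * q) ≤ y :=
    (Real.rpow_le_rpow_of_exponent_le hn1 (by linarith)).trans hy1
  have k1 := g2 y (by linarith) (by linarith) V (by rw [← hV]; linarith) (by rw [← hV]; linarith)
    (hap y le_rfl (by linarith))
  have e8 : (n : ℝ) ^ (-(24 * q)) * (2 * y) ^ 3 = 8 * V := by
    rw [hV]
    ring
  have k2 := g2 (2 * y) (by linarith) (by linarith) V (by rw [e8]) (by rw [e8]; linarith)
    (hap (2 * y) (by linarith) le_rfl)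
  -- the logarithm
  have hl : 2 * β + 8 * Real.log (2 * n) ≤ n * y ^ 6 := by
    have h1 : (n : ℝ) ^ (6 * e) ≤ n * y ^ 6 := by
      have h2 : ((n : ℝ) ^ (-(1 / 6) + e)) ^ 6 ≤ y ^ 6 := pow_le_pow_left₀ hx0.le hy1 6
      have e2 : (n : ℝ) * ((n : ℝ) ^ (-(1 / 6) + e)) ^ 6 = (n : ℝ) ^ (6 * e) := by
        rw [← Real.rpow_natCast, ← Real.rpow_mul hn0.le]
        conv_lhs => rw [← Real.rpow_one (n : ℝ), ← Real.rpow_mul hn0.le, ← Real.rpow_add hn0]
        congr 1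
        push_cast
        ring
      rw [← e2]
      exact mul_le_mul_of_nonneg_left h2 hn0.le
    have h3 : Real.log (2 * n) ≤ 1 + Real.log n := by
      rw [Real.log_mul (by norm_num) hn0.ne']
      have := Real.log_two_lt_d9
      linarith
    have h4 : 0 ≤ Real.log (n : ℝ) := Real.log_nonneg hn1
    have h5 : 0 ≤ β * Real.log n := by positivity
    linarith [show (2 * β + 16) * (1 + Real.log n) =
      2 * β + 16 + 2 * (β * Real.log n) + 16 * Real.log n by ring]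
  exact kv0_core hβ.le hn (by linarith) hy0 (by linarith) hV0 hVy hl
    (hcv n hn (2 * y) (by linarith) (by linarith))
    (at_anti hβ0 hn (hcv n hn (2 * y) (by linarith) (by linarith)) hV0 (by linarith)
      (hAt (2 * y) (by linarith) le_rfl)) k1 k2

end Vale.Agent.P146.S3
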