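import Vale.Agent.P146.H205.S3Hist
import Vale.Agent.P146.H178.FlowH
import Vale.Agent.P146.H178.KSlope

/-!
# P146, S3: the two flows together, for one `n` and one unit `q`

`joint_n`: as `H178.resp_of_kdiffH`; in the step at `x` the response is known at all larger
exponents, hence (`kv_hist`) the entropies without field are bounded with a constant there, hence
(`ap_z'`) the a priori package holds at `x`, which is what the inequality for the difference of the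
entropies needs.
-/

open MeasureTheory ProbabilityTheory Filter Topology Set

namespace Vale.Agent.P146.S3.F205

open Vale.Agent.P146
open Vale.Agent.P146.H122 (Asec sec sec_anti)
open Vale.Agent.P146.H9 (Phn KV)

/-- The inequality for the difference of the entropies, for one `n` and one unit. -/
def KDiffQ (β b₁ q : ℝ) (n : ℕ) : Prop :=
  ∀ y : ℝ, (n : ℝ) ^ (-(1 / 6) + 1000 * q) ≤ y → y ≤ 4 * (n : ℝ) ^ (-b₁) →
    ∀ v : ℝ, (n : ℝ) ^ (-(24 * q)) * y ^ 3 ≤ v → v ≤ 128 * ((n : ℝ) ^ (-(24 * q)) * y ^ 3) →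
    ∀ L : ℝ, (n : ℝ) ^ (-(11 * q)) * y ^ 2 ≤ L → L ≤ (n : ℝ) ^ (-(10 * q)) * y ^ 2 →
    (∀ u : ℝ, y / 2 ≤ u → u ≤ 2 * y → H178.AP β (q / 2) n u (4 * v)) →
    1 + L / 2 ≤ Asec β (fun n => Phn n β) n y v (2 * v) →
    Asec β (fun n => Phn n β) n y v (2 * v) ≤ 1 + L →
    KV n β y (2 * v) - KV n β y v ≤ (1 + 3 * q) * (n * y * v / β) * L

/-- The bound of the entropy at one field with a constant, for one `n` and one unit. -/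
def UpVQ (β b₁ C A q : ℝ) (n : ℕ) : Prop :=
  ∀ y : ℝ, (n : ℝ) ^ (-(1 / 6) + 1000 * q) ≤ A * y → y ≤ A * (n : ℝ) ^ (-b₁) →
    ∀ V : ℝ, (n : ℝ) ^ (-(24 * q)) * y ^ 3 ≤ A * V → V ≤ A * ((n : ℝ) ^ (-(24 * q)) * y ^ 3) →
    (∀ u : ℝ, y ≤ u → u ≤ 2 * y → H178.AP β (q / 2) n u (2 * V)) →
    KV n β y V ≤ C * (n * y ^ 6)

/-- The start, for one `n`. -/
def StartQ (β b₁ q : ℝ) (n : ℕ) : Prop := ∃ y3 κ : ℝ,
  (n : ℝ) ^ (-b₁) ≤ y3 ∧ y3 ≤ 4 * (n : ℝ) ^ (-b₁) ∧ 1 ≤ κ ∧ κ ≤ 64 ∧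
  (n : ℝ) ^ (-(10 * q)) * y3 ^ 2 ≤ Asec β (fun n => Phn n β) n y3
    (κ * ((n : ℝ) ^ (-(24 * q)) * y3 ^ 3)) (2 * (κ * ((n : ℝ) ^ (-(24 * q)) * y3 ^ 3))) - 1 ∧
  ∀ z ∈ Icc y3 (2 * y3), ∀ W : ℝ, 0 < W → W ≤ (n : ℝ) ^ (-(23 * q)) * z ^ 3 →
    1 ≤ H877.At β n z W

/-- **The entropies from the response above `Y`.** -/
theorem kv_of_resp {β b₁ q C G : ℝ} {n : ℕ} (hβ : 1 < β) (hn : 1 ≤ n) (hq : 0 < q)
    (hC : 1 ≤ C) (hCG : 70 * C ≤ G) (hsm : (n : ℝ) ^ (-b₁) ≤ 1 / 1024)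
    (hD : 256 * (n : ℝ) ^ (-(24 * q)) ≤ (n : ℝ) ^ (-(23 * q)))
    (hl : 2 * β + 8 * Real.log (2 * n) ≤ n * ((n : ℝ) ^ (-(1 / 6) + 1000 * q)) ^ 6)
    (hs : 8 * 10 ^ 8 * (G * n) ≤ (n : ℝ) ^ (1 + q / 2)) (hU : UpVQ β b₁ C 128 q n)
    {y3 κ Y : ℝ} (h1 : y3 ≤ 4 * (n : ℝ) ^ (-b₁)) (h2 : 1 ≤ κ) (h3 : κ ≤ 64)
    (hz : ∀ z ∈ Icc y3 (2 * y3), ∀ W : ℝ, 0 < W → W ≤ (n : ℝ) ^ (-(23 * q)) * z ^ 3 →
      1 ≤ H877.At β n z W)
    (hY : (n : ℝ) ^ (-(1 / 6) + 1000 * q) ≤ Y)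
    (hist : ∀ z ∈ Icc Y y3, 1 ≤ H877.At β n z (2 * (κ * (n : ℝ) ^ (-(24 * q)) * z ^ 3)))
    (hB : ∀ w, y3 ≤ w → w ≤ 16 * y3 → KV n β w 0 ≤ G * (n * w ^ 6)) (hYy : Y ≤ y3) :
    ∀ w, Y ≤ w → w ≤ 16 * y3 → KV n β w 0 ≤ G * (n * w ^ 6) := by
  have hn0 : (0 : ℝ) < n := by exact_mod_cast hn
  have hn1 : (1 : ℝ) ≤ n := by exact_mod_cast hn
  have hx0 : 0 < (n : ℝ) ^ (-(1 / 6) + 1000 * q) := Real.rpow_pos_of_pos hn0 _
  have hY0 : 0 < Y := hx0.trans_le hY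
  obtain ⟨δ, hδ⟩ : ∃ δ, δ = (n : ℝ) ^ (-(24 * q)) := ⟨_, rfl⟩
  have hδ0 : 0 < δ := by rw [hδ]; exact Real.rpow_pos_of_pos hn0 _
  have hD1 : (n : ℝ) ^ (-(23 * q)) ≤ 1 :=
    Real.rpow_le_one_of_one_le_of_nonpos hn1 (by linarith)
  rw [← hδ] at hD hist
  have hκ0 : 0 < κ := by linarith
  have hκδ : κ * δ ≤ 64 * δ := mul_le_mul_of_nonneg_right h3 hδ0.le
  have hκδ1 : δ ≤ κ * δ := le_mul_of_one_le_left hδ0.le h2
  have hhi : 2 * y3 ≤ 1 / 64 := by linarith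
  have key := kv_hist (β := β) (n := n) (C := C) (G := G) (ν := κ * δ) (s0 := q / 2) (lo := Y)
    (hi := 2 * y3) hβ.le hn hC hCG (by positivity) (by linarith) hY0 hhi
    (hl.trans (mul_le_mul_of_nonneg_left (pow_le_pow_left₀ hx0.le hY 6) hn0.le)) hs
    (fun z h4 h5 => H320.Conc.Phn_conc n β h4 (by linarith)) ?_ ?_ ?_
  · intro w h4 h5
    exact key w h4 (by linarith)
  · intro z h4 h5
    have hz0 : 0 < z := by linarith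
    rcases le_total z y3 with h | h
    · exact hist z ⟨h4, h⟩
    · refine hz z ⟨h, h5⟩ _ (by positivity) ?_
      have h6 : 2 * (κ * δ) ≤ (n : ℝ) ^ (-(23 * q)) := by linarith
      calc 2 * (κ * δ * z ^ 3) = 2 * (κ * δ) * z ^ 3 := by ring
        _ ≤ (n : ℝ) ^ (-(23 * q)) * z ^ 3 := by gcongr
  · intro x V h4 h5 h6 h7 h8
    have hx : 0 < x := by linarith
    have hx3 : 0 < x ^ 3 := by positivity
    have hb0 := Real.rpow_pos_of_pos hn0 (-b₁)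
    refine hU x ?_ ?_ V ?_ ?_ h8
    · linarith
    · linarith
    · rw [← hδ]
      have h9 : δ * x ^ 3 ≤ κ * δ * x ^ 3 := mul_le_mul_of_nonneg_right hκδ1 hx3.le
      have h10 : 0 < δ * x ^ 3 := by positivity
      linarith
    · rw [← hδ]
      have h9 : κ * δ * x ^ 3 ≤ 64 * δ * x ^ 3 := mul_le_mul_of_nonneg_right hκδ hx3.le
      have h10 : 0 < δ * x ^ 3 := by positivity
      linarith
  · intro w h4 h5 h6
    exact hB w (by linarith) (by linarith)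

/-- The data of the flows, for one `n`, one unit, and one start `(y1, κ)`. -/
structure JD (β b₁ q C G : ℝ) (n : ℕ) (y1 κ : ℝ) : Prop where
  hβ : 1 < β
  hn : 1 ≤ n
  hq : 0 < q
  hC : 1 ≤ C
  hCG : 70 * C ≤ G
  hsm : (n : ℝ) ^ (-b₁) ≤ 1 / 1024
  hD : 512 * (n : ℝ) ^ (-(24 * q)) ≤ (n : ℝ) ^ (-(23 * q))
  hl : 2 * β + 8 * Real.log (2 * n) ≤ n * ((n : ℝ) ^ (-(1 / 6) + 1000 * q)) ^ 6
  hs : 8 * 10 ^ 8 * (G * n) ≤ (n : ℝ) ^ (1 + q / 2)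
  hy1 : 0 < y1
  hy1u : y1 ≤ 4 * (n : ℝ) ^ (-b₁)
  hκ1 : 1 ≤ κ
  hκ2 : κ ≤ 64
  hr : ∀ z ∈ Icc y1 (2 * y1), ∀ W : ℝ, 0 < W → W ≤ (n : ℝ) ^ (-(23 * q)) * z ^ 3 →
    1 ≤ H877.At β n z W
  hU : UpVQ β b₁ C 128 q n
  hB : ∀ w, y1 ≤ w → w ≤ 16 * y1 → KV n β w 0 ≤ G * (n * w ^ 6)

section

variable {β b₁ q C G : ℝ} {n : ℕ} {y1 κ : ℝ}

lemma JD.small (h : JD β b₁ q C G n y1 κ) : 0 < (n : ℝ) ∧ 0 < (n : ℝ) ^ (-(24 * q)) ∧
    0 < (n : ℝ) ^ (-(23 * q)) ∧ (n : ℝ) ^ (-(23 * q)) ≤ 1 ∧ y1 ≤ 1 / 256 := by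
  have hn0 : (0 : ℝ) < n := by exact_mod_cast h.hn
  have hn1 : (1 : ℝ) ≤ n := by exact_mod_cast h.hn
  have hq := h.hq
  have h1 := h.hsm
  have h2 := h.hy1u
  exact ⟨hn0, Real.rpow_pos_of_pos hn0 _, Real.rpow_pos_of_pos hn0 _,
    Real.rpow_le_one_of_one_le_of_nonpos hn1 (by linarith), by linarith⟩

lemma JD.cv (_h : JD β b₁ q C G n y1 κ) {z : ℝ} (hz : 0 < z) (hz1 : z ≤ 1 / 2) :
    ConcaveOn ℝ (Ici 0) (Phn n β z) :=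
  H320.Conc.Phn_conc n β hz (by linarith)

/-- the response from the barrier -/
lemma JD.resp (h : JD β b₁ q C G n y1 κ) {u : ℝ} (hu : 0 < u) (hu1 : u ≤ 1 / 2)
    (h1 : 1 ≤ Asec β (fun n => Phn n β) n u (κ * ((n : ℝ) ^ (-(24 * q)) * u ^ 3))
      (2 * (κ * ((n : ℝ) ^ (-(24 * q)) * u ^ 3)))) :
    1 ≤ H877.At β n u (2 * (κ * (n : ℝ) ^ (-(24 * q)) * u ^ 3)) := by
  obtain ⟨hn0, hδ0, -, -, -⟩ := h.small
  have hβ0 : 0 < β := by linarith [h.hβ]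
  have hκ0 : 0 < κ := by linarith [h.hκ1]
  obtain ⟨δ, hδ⟩ : ∃ δ, δ = (n : ℝ) ^ (-(24 * q)) := ⟨_, rfl⟩
  rw [← hδ] at h1 hδ0 ⊢
  have hw0 : 0 < κ * (δ * u ^ 3) := by positivity
  have h2 := H178.At_anti hβ0 (Φ := fun n => Phn n β) (n := n) (x := u)
    (h.cv hu hu1) (V := 2 * (κ * (δ * u ^ 3))) (w := κ * (δ * u ^ 3))
    (v := 2 * (κ * (δ * u ^ 3))) (by positivity) le_rfl hw0.le (by linarith)
  rw [H178.at_eq] at h2
  have e : κ * δ * u ^ 3 = κ * (δ * u ^ 3) := by ring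
  rw [e]
  linarith

/-- the entropies from the history of the barrier -/
lemma JD.kv (h : JD β b₁ q C G n y1 κ) {Y : ℝ} (hY : (n : ℝ) ^ (-(1 / 6) + 1000 * q) ≤ Y)
    (hY1 : Y ≤ y1) (hist : ∀ u ∈ Icc Y y1, 1 ≤ Asec β (fun n => Phn n β) n u
      (κ * ((n : ℝ) ^ (-(24 * q)) * u ^ 3)) (2 * (κ * ((n : ℝ) ^ (-(24 * q)) * u ^ 3)))) :
    ∀ w, Y ≤ w → w ≤ 16 * y1 → KV n β w 0 ≤ G * (n * w ^ 6) := by
  obtain ⟨hn0, hδ0, -, -, hy12⟩ := h.small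
  have hY0 : 0 < Y := (Real.rpow_pos_of_pos hn0 _).trans_le hY
  exact kv_of_resp h.hβ h.hn h.hq h.hC h.hCG h.hsm (by linarith [h.hD]) h.hl h.hs h.hU h.hy1u h.hκ1 h.hκ2 h.hr hY
    (fun u hu => h.resp (hY0.trans_le hu.1) (by linarith [hu.2]) (hist u hu)) h.hB hY1

/-- the a priori package from the history of the barrier -/
lemma JD.ap (h : JD β b₁ q C G n y1 κ) {z y : ℝ} (hz : (n : ℝ) ^ (-(1 / 6) + 1000 * q) ≤ z)
    (hzy : z ≤ y) (hyz : y ≤ 5 / 4 * z) (hy1 : y ≤ y1)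
    (hist : ∀ u ∈ Icc y y1, 1 ≤ Asec β (fun n => Phn n β) n u
      (κ * ((n : ℝ) ^ (-(24 * q)) * u ^ 3)) (2 * (κ * ((n : ℝ) ^ (-(24 * q)) * u ^ 3)))) :
    ∀ u : ℝ, z / 2 ≤ u → u ≤ 2 * z →
      H178.AP β (q / 2) n u (4 * (κ * ((n : ℝ) ^ (-(24 * q)) * y ^ 3))) := by
  have hn := h.hn
  have hn1 : (1 : ℝ) ≤ n := by exact_mod_cast hn
  have hβ := h.hβ
  have hβ0 : 0 < β := by linarith
  have hκ1 := h.hκ1
  have hκ2 := h.hκ2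
  have hκ0 : 0 < κ := by linarith
  have hG : 1 ≤ G := by linarith [h.hC, h.hCG]
  have hw := h.kv (hz.trans hzy) hy1 hist
  have hl := h.hl
  have hD := h.hD
  obtain ⟨hn0, hδ0, hD0, hD1, hy12⟩ := h.small
  have hx0 : 0 < (n : ℝ) ^ (-(1 / 6) + 1000 * q) := Real.rpow_pos_of_pos hn0 _
  have hz0 : 0 < z := hx0.trans_le hz
  have hy0 : 0 < y := hz0.trans_le hzy
  have hlz : 2 * β + 8 * Real.log (2 * n) ≤ n * z ^ 6 :=
    hl.trans (mul_le_mul_of_nonneg_left (pow_le_pow_left₀ hx0.le hz 6) hn0.le)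
  -- the response at `13 / 10 * y`
  have hresp1 : 1 ≤ H877.At β n (13 / 10 * y) (4 * (κ * ((n : ℝ) ^ (-(24 * q)) * y ^ 3))) := by
    rcases le_total (13 / 10 * y) y1 with hu | hu
    · have h3 := h.resp (u := 13 / 10 * y) (by positivity) (by linarith)
        (hist (13 / 10 * y) ⟨by linarith, hu⟩)
      refine at_anti hβ0 hn (h.cv (by positivity) (by linarith)) (by positivity) ?_ h3
      have e1 : 2 * (κ * (n : ℝ) ^ (-(24 * q)) * (13 / 10 * y) ^ 3) =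
          2197 / 500 * (κ * ((n : ℝ) ^ (-(24 * q)) * y ^ 3)) := by ring
      have h4 : 0 < κ * ((n : ℝ) ^ (-(24 * q)) * y ^ 3) := by positivity
      rw [e1]
      linarith
    · refine h.hr (13 / 10 * y) ⟨hu, by linarith⟩ _ (by positivity) ?_
      have h3 : κ * ((n : ℝ) ^ (-(24 * q)) * y ^ 3) ≤ 64 * ((n : ℝ) ^ (-(24 * q)) * y ^ 3) :=
        mul_le_mul_of_nonneg_right hκ2 (by positivity)
      have h4 := mul_le_mul_of_nonneg_right hD (show 0 ≤ y ^ 3 by positivity)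
      have h6 : 0 < (n : ℝ) ^ (-(24 * q)) * y ^ 3 := by positivity
      have h5 : (n : ℝ) ^ (-(23 * q)) * y ^ 3 ≤ (n : ℝ) ^ (-(23 * q)) * (13 / 10 * y) ^ 3 :=
        mul_le_mul_of_nonneg_left (pow_le_pow_left₀ hy0.le (by linarith) 3) hD0.le
      linarith
  obtain ⟨δ, hδ⟩ : ∃ δ, δ = (n : ℝ) ^ (-(24 * q)) := ⟨_, rfl⟩
  rw [← hδ] at hD hδ0 hresp1 ⊢
  obtain ⟨W, hW⟩ : ∃ W, W = 4 * (κ * (δ * y ^ 3)) := ⟨_, rfl⟩
  have hW0 : 0 < W := by rw [hW]; positivity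
  have hWz : W ≤ z ^ 3 := by
    have h1 : κ * (δ * y ^ 3) ≤ 64 * (δ * y ^ 3) :=
      mul_le_mul_of_nonneg_right hκ2 (by positivity)
    have h2 : y ^ 3 ≤ 2 * z ^ 3 := by
      have h3 : y ^ 3 ≤ (5 / 4 * z) ^ 3 := pow_le_pow_left₀ hy0.le hyz 3
      have h5 : 0 < z ^ 3 := by positivity
      linarith [show (5 / 4 * z) ^ 3 = 125 / 64 * z ^ 3 by ring]
    have h3 : 256 * δ * y ^ 3 ≤ 1 / 2 * (2 * z ^ 3) :=
      mul_le_mul (by linarith) h2 (by positivity) (by norm_num)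
    linarith
  rw [← hW] at hresp1 ⊢
  have hz3 : z ^ 3 ≤ 1 := pow_le_one₀ hz0.le (by linarith)
  refine ap_z' (z := 13 / 10 * y) hβ0 hn (by positivity : 0 ≤ G * (n : ℝ)) h.hs hz0 (by linarith)
    (by linarith) hW0 ?_ (h.cv (by positivity) (by linarith)) hresp1 (fun w h1 h2 => ?_)
    (err_win hβ.le hn ?_ hz0 (by linarith) hW0.le hWz hlz)
  · have h1 : z * W ≤ 1 / 256 * 1 :=
      mul_le_mul (by linarith) (hWz.trans hz3) hW0.le (by norm_num)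
    linarith
  · have h3 := hw w (by linarith) (by linarith)
    linarith [show G * n * w ^ 6 = G * (n * w ^ 6) by ring]
  · exact le_mul_of_one_le_left hn0.le hG

/-! ### the barrier -/

/-- the barrier as a power -/
lemma bar_x {σ y1 ι z : ℝ} (hy1 : 0 < y1) (hz : 0 < z) :
    σ * y1 ^ (-(2 * ι)) * z ^ (2 * (1 + ι)) = σ * z ^ 2 * (z / y1) ^ (2 * ι) := by
  rw [show (2 * (1 + ι) : ℝ) = (2 : ℕ) + 2 * ι by push_cast; ring, Real.rpow_add hz,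
    Real.rpow_natCast, Real.div_rpow hz.le hy1.le, Real.rpow_neg hy1.le]
  field_simp

lemma bar_up {σ y1 ι z : ℝ} (hσ : 0 < σ) (hι : 0 < ι) (hz : 0 < z) (hzy : z ≤ y1) :
    σ * y1 ^ (-(2 * ι)) * z ^ (2 * (1 + ι)) ≤ σ * z ^ 2 := by
  have hy1 : 0 < y1 := hz.trans_le hzy
  rw [bar_x hy1 hz]
  have h1 : (z / y1) ^ (2 * ι) ≤ 1 :=
    Real.rpow_le_one (by positivity) (by rw [div_le_one hy1]; exact hzy) (by linarith)
  exact mul_le_of_le_one_right (by positivity) h1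

lemma bar_lo {n : ℕ} {q y1 z : ℝ} (hn : 1 ≤ n) (hq : 0 < q) (hy1 : 0 < y1) (hy1' : y1 ≤ 1)
    (hz : (n : ℝ) ^ (-(1 / 6) + 1000 * q) ≤ z) :
    (n : ℝ) ^ (-(11 * q)) * z ^ 2 ≤
      (n : ℝ) ^ (-(10 * q)) * y1 ^ (-(2 * (3 * q))) * z ^ (2 * (1 + 3 * q)) := by
  have hn0 : (0 : ℝ) < n := by exact_mod_cast hn
  have hn1 : (1 : ℝ) ≤ n := by exact_mod_cast hn
  have hz0 : 0 < z := (Real.rpow_pos_of_pos hn0 _).trans_le hz
  rw [bar_x hy1 hz0]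
  have h1 : (n : ℝ) ^ (-(1 / 6) : ℝ) ≤ z / y1 := by
    rw [le_div_iff₀ hy1]
    refine le_trans ?_ hz
    have h0 : (n : ℝ) ^ (-(1 / 6) : ℝ) * y1 ≤ (n : ℝ) ^ (-(1 / 6) : ℝ) * 1 :=
      mul_le_mul_of_nonneg_left hy1' (Real.rpow_pos_of_pos hn0 _).le
    rw [mul_one] at h0
    refine h0.trans ?_
    exact Real.rpow_le_rpow_of_exponent_le hn1 (by linarith)
  have h2 : ((n : ℝ) ^ (-(1 / 6) : ℝ)) ^ (2 * (3 * q)) ≤ (z / y1) ^ (2 * (3 * q)) :=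
    Real.rpow_le_rpow (by positivity) h1 (by linarith)
  have h3 : (n : ℝ) ^ (-(11 * q)) ≤
      (n : ℝ) ^ (-(10 * q)) * ((n : ℝ) ^ (-(1 / 6) : ℝ)) ^ (2 * (3 * q)) := by
    rw [← Real.rpow_mul hn0.le, ← Real.rpow_add hn0]
    exact Real.rpow_le_rpow_of_exponent_le hn1 (by linarith)
  have h4 : (n : ℝ) ^ (-(11 * q)) ≤ (n : ℝ) ^ (-(10 * q)) * (z / y1) ^ (2 * (3 * q)) :=
    h3.trans (mul_le_mul_of_nonneg_left h2 (Real.rpow_pos_of_pos hn0 _).le)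
  calc (n : ℝ) ^ (-(11 * q)) * z ^ 2 ≤
        (n : ℝ) ^ (-(10 * q)) * (z / y1) ^ (2 * (3 * q)) * z ^ 2 :=
        mul_le_mul_of_nonneg_right h4 (by positivity)
    _ = _ := by ring

/-- **The barrier on the whole range.** -/
theorem JD.flow (h : JD β b₁ q C G n y1 κ) (hK : KDiffQ β b₁ q n)
    (g1 : (n : ℝ) ^ (-(10 * q)) * y1 ^ 2 ≤ Asec β (fun n => Phn n β) n y1
      (κ * ((n : ℝ) ^ (-(24 * q)) * y1 ^ 3)) (2 * (κ * ((n : ℝ) ^ (-(24 * q)) * y1 ^ 3))) - 1) :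
    ∀ x ∈ Icc ((n : ℝ) ^ (-(1 / 6) + 1000 * q)) y1,
      1 + (n : ℝ) ^ (-(10 * q)) * y1 ^ (-(2 * (3 * q))) * x ^ (2 * (1 + 3 * q)) ≤
        Asec β (fun n => Phn n β) n x (κ * ((n : ℝ) ^ (-(24 * q)) * x ^ 3))
          (2 * (κ * ((n : ℝ) ^ (-(24 * q)) * x ^ 3))) := by
  have hn := h.hn
  have hq := h.hq
  have hβ0 : 0 < β := by linarith [h.hβ]
  have hκ1 := h.hκ1
  have hκ2 := h.hκ2
  have hκ0 : 0 < κ := by linarith
  have hy10 := h.hy1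
  obtain ⟨hn0, hδ0, hD0, hD1, hy12⟩ := h.small
  have hx00 : 0 < (n : ℝ) ^ (-(1 / 6) + 1000 * q) := Real.rpow_pos_of_pos hn0 _
  have hσ0 : 0 < (n : ℝ) ^ (-(10 * q)) := Real.rpow_pos_of_pos hn0 _
  have hcb : (0 : ℝ) < 2 * β / n := by positivity
  have hLlo : ∀ z : ℝ, (n : ℝ) ^ (-(1 / 6) + 1000 * q) ≤ z → (n : ℝ) ^ (-(11 * q)) * z ^ 2 ≤
      (n : ℝ) ^ (-(10 * q)) * y1 ^ (-(2 * (3 * q))) * z ^ (2 * (1 + 3 * q)) := fun z hz =>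
    bar_lo hn hq hy10 (by linarith) hz
  have hLup : ∀ z : ℝ, 0 < z → z ≤ y1 →
      (n : ℝ) ^ (-(10 * q)) * y1 ^ (-(2 * (3 * q))) * z ^ (2 * (1 + 3 * q)) ≤
        (n : ℝ) ^ (-(10 * q)) * z ^ 2 := fun z hz hz1 => bar_up hσ0 (by linarith) hz hz1
  have hstart : 1 + (n : ℝ) ^ (-(10 * q)) * y1 ^ (-(2 * (3 * q))) * y1 ^ (2 * (1 + 3 * q)) ≤
      Asec β (fun n => Phn n β) n y1 (κ * ((n : ℝ) ^ (-(24 * q)) * y1 ^ 3))
        (2 * (κ * ((n : ℝ) ^ (-(24 * q)) * y1 ^ 3))) := by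
    have := hLup y1 hy10 le_rfl
    linarith
  obtain ⟨ℓ, hℓ⟩ : ∃ ℓ, ℓ = (n : ℝ) ^ (-(10 * q)) * y1 ^ (-(2 * (3 * q))) := ⟨_, rfl⟩
  have hℓ0 : 0 < ℓ := by rw [hℓ]; exact mul_pos hσ0 (Real.rpow_pos_of_pos hy10 _)
  rw [← hℓ] at hLlo hLup hstart ⊢
  have hap := fun {z y : ℝ} => h.ap (z := z) (y := y)
  obtain ⟨x0, hx0⟩ : ∃ x0, x0 = (n : ℝ) ^ (-(1 / 6) + 1000 * q) := ⟨_, rfl⟩
  obtain ⟨δ, hδ⟩ : ∃ δ, δ = (n : ℝ) ^ (-(24 * q)) := ⟨_, rfl⟩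
  rw [← hx0] at hLlo hx00 ⊢
  rw [← hδ] at hδ0 hstart ⊢
  have hsub : ∀ z ∈ Icc x0 y1, 0 < z ∧ z ≤ 1 / 2 := fun z hz =>
    ⟨lt_of_lt_of_le hx00 hz.1, hz.2.trans (by linarith)⟩
  have hmono : MonotoneOn (fun z : ℝ => κ * (δ * z ^ 3)) (Icc x0 y1) := by
    intro a ha b hb hab
    have h1 : 0 ≤ a := (hsub a ha).1.le
    exact mul_le_mul_of_nonneg_left
      (mul_le_mul_of_nonneg_left (pow_le_pow_left₀ h1 hab 3) hδ0.le) hκ0.le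
  have key := H178.flow_powH (Φ := Phn n β) (K := KV n β) (V := fun z => 2 * (κ * (δ * z ^ 3)))
    (w := fun z => κ * (δ * z ^ 3)) (c := 2 * β / n) (x0 := x0) (y1 := y1) (ρ := 5 / 4)
    (η := 1 / 2) (ℓ := ℓ) (C := 2 * (1 + 3 * q)) hx00 (by norm_num) (by norm_num) hcb hℓ0
    (fun z hz => h.cv (hsub z hz).1 (hsub z hz).2)
    (fun z hz v hv => H9.hasDerivAt_Phn n β v (hsub z hz).1)
    (fun a ha b hb hab => by
      have := hmono ha hb hab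
      simp only at this ⊢
      linarith) hmono
    (fun z hz => by have := (hsub z hz).1; positivity)
    (fun z hz => by
      have h1 := (hsub z hz).1
      have : 0 < κ * (δ * z ^ 3) := by positivity
      linarith) ?_ hstart
  · exact key
  · intro z hz y hy hzy hyz hist h1 h2
    have hz0 := (hsub z hz).1
    have hy0 := (hsub y hy).1
    have hyz3 : y ^ 3 ≤ 2 * z ^ 3 := by
      have h3 : y ^ 3 ≤ (5 / 4 * z) ^ 3 := pow_le_pow_left₀ hy0.le hyz 3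
      have h4 : (5 / 4 * z) ^ 3 = 125 / 64 * z ^ 3 := by ring
      have h5 : 0 < z ^ 3 := by positivity
      linarith
    have hzy3 : z ^ 3 ≤ y ^ 3 := pow_le_pow_left₀ hz0.le hzy 3
    have hz30 : 0 < z ^ 3 := by positivity
    have hy30 : 0 < y ^ 3 := by positivity
    have hκδ : δ * y ^ 3 ≤ κ * (δ * y ^ 3) := le_mul_of_one_le_left (by positivity) hκ1
    have hδz : δ * z ^ 3 ≤ δ * y ^ 3 := mul_le_mul_of_nonneg_left hzy3 hδ0.le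
    have hκδ2 : κ * (δ * y ^ 3) ≤ 64 * (δ * y ^ 3) :=
      mul_le_mul_of_nonneg_right hκ2 (by positivity)
    have hδz2 : δ * y ^ 3 ≤ δ * (2 * z ^ 3) := mul_le_mul_of_nonneg_left hyz3 hδ0.le
    have hist' : ∀ u ∈ Icc y y1, 1 ≤ Asec β (fun n => Phn n β) n u (κ * (δ * u ^ 3))
        (2 * (κ * (δ * u ^ 3))) := by
      intro u hu
      have h5 : 0 < ℓ * u ^ (2 * (1 + 3 * q)) :=
        mul_pos hℓ0 (Real.rpow_pos_of_pos (hy0.trans_le hu.1) _)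
      have h6 := hist u hu
      unfold Asec
      linarith
    have hap' : ∀ u : ℝ, z / 2 ≤ u → u ≤ 2 * z →
        H178.AP β (q / 2) n u (4 * (κ * (δ * y ^ 3))) := by
      have := hap (z := z) (y := y) (by rw [← hx0]; exact hz.1) hzy hyz hy.2
        (by rw [← hδ]; exact hist')
      rwa [← hδ] at this
    have h3 := hK z (by rw [← hx0]; exact hz.1) (hz.2.trans h.hy1u) (κ * (δ * y ^ 3))
      (by rw [← hδ]; linarith) (by rw [← hδ]; linarith)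
      (ℓ * z ^ (2 * (1 + 3 * q))) (hLlo z hz.1) (hLup z hz0 hz.2) hap'
      (by unfold Asec; linarith) (by unfold Asec; linarith)
    have h4 := mul_le_mul_of_nonneg_left h3 hcb.le
    refine h4.trans (le_of_eq ?_)
    field_simp
    ring

end

/-- **The two flows together**, for one `n` and one unit. -/
theorem joint_n {β b₁ q C G : ℝ} {n : ℕ} (hβ : 1 < β) (hn : 1 ≤ n) (hq : 0 < q)
    (hC : 1 ≤ C) (hCG : 70 * C ≤ G) (hsm : (n : ℝ) ^ (-b₁) ≤ 1 / 1024)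
    (hD : 512 * (n : ℝ) ^ (-(24 * q)) ≤ (n : ℝ) ^ (-(23 * q)))
    (hl : 2 * β + 8 * Real.log (2 * n) ≤ n * ((n : ℝ) ^ (-(1 / 6) + 1000 * q)) ^ 6)
    (hs : 8 * 10 ^ 8 * (G * n) ≤ (n : ℝ) ^ (1 + q / 2)) (hS : StartQ β b₁ q n)
    (hK : KDiffQ β b₁ q n) (hU : UpVQ β b₁ C 128 q n)
    (hB : ∀ w, (n : ℝ) ^ (-b₁) ≤ w → w ≤ 64 * (n : ℝ) ^ (-b₁) → KV n β w 0 ≤ G * (n * w ^ 6)) :
    (∀ x : ℝ, (n : ℝ) ^ (-(1 / 6) + 1000 * q) ≤ x → x ≤ (n : ℝ) ^ (-b₁) →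
      (n : ℝ) ^ (-(11 * q)) * x ^ 2 ≤ H877.At β n x ((n : ℝ) ^ (-(24 * q)) * x ^ 3) - 1) ∧
    ∀ x : ℝ, (n : ℝ) ^ (-(1 / 6) + 1000 * q) ≤ x → x ≤ 16 * (n : ℝ) ^ (-b₁) →
      KV n β x 0 ≤ G * (n * x ^ 6) := by
  obtain ⟨y1, κ, hy1l, hy1u, hκ1, hκ2, g1, g6⟩ := hS
  have hn0 : (0 : ℝ) < n := by exact_mod_cast hn
  have hβ0 : 0 < β := by linarith
  have hb0 : 0 < (n : ℝ) ^ (-b₁) := Real.rpow_pos_of_pos hn0 _
  have h : JD β b₁ q C G n y1 κ := ⟨hβ, hn, hq, hC, hCG, hsm, hD, hl, hs, hb0.trans_le hy1l,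
    hy1u, hκ1, hκ2, g6, hU, fun w h4 h5 => hB w (hy1l.trans h4) (by linarith)⟩
  have key := h.flow hK g1
  obtain ⟨-, hδ0, -, -, hy12⟩ := h.small
  have hy10 := h.hy1
  have hx00 : 0 < (n : ℝ) ^ (-(1 / 6) + 1000 * q) := Real.rpow_pos_of_pos hn0 _
  have hκ0 : 0 < κ := by linarith
  have hL0 : ∀ u : ℝ, 0 < u →
      0 < (n : ℝ) ^ (-(10 * q)) * y1 ^ (-(2 * (3 * q))) * u ^ (2 * (1 + 3 * q)) := fun u hu => by
    have h1 := Real.rpow_pos_of_pos hn0 (-(10 * q))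
    have h2 := Real.rpow_pos_of_pos hy10 (-(2 * (3 * q)))
    have h3 := Real.rpow_pos_of_pos hu (2 * (1 + 3 * q))
    positivity
  refine ⟨fun x hx hx1 => ?_, fun x hx hx1 => ?_⟩
  · have hxp : 0 < x := hx00.trans_le hx
    have hxy1 : x ≤ y1 := hx1.trans hy1l
    have h1 := key x ⟨hx, hxy1⟩
    have hv : 0 < (n : ℝ) ^ (-(24 * q)) * x ^ 3 := by positivity
    have hv1 : (n : ℝ) ^ (-(24 * q)) * x ^ 3 ≤ κ * ((n : ℝ) ^ (-(24 * q)) * x ^ 3) :=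
      le_mul_of_one_le_left hv.le hκ1
    have h2 := H178.At_anti hβ0 (Φ := fun n => Phn n β) (n := n) (x := x)
      (h.cv hxp (by linarith)) (V := (n : ℝ) ^ (-(24 * q)) * x ^ 3)
      (w := κ * ((n : ℝ) ^ (-(24 * q)) * x ^ 3))
      (v := 2 * (κ * ((n : ℝ) ^ (-(24 * q)) * x ^ 3))) hv (by linarith) (hv.le.trans hv1)
      (by linarith)
    rw [H178.at_eq] at h2
    have h4 := bar_lo hn hq hy10 (by linarith) hx
    linarith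
  · rcases le_total x y1 with hxy | hxy
    · exact h.kv (Y := x) hx hxy (fun u hu => by
        have h5 := hL0 u (hx00.trans_le (hx.trans hu.1))
        have h6 := key u ⟨hx.trans hu.1, hu.2⟩
        linarith) x le_rfl (by linarith)
    · exact hB x (hy1l.trans hxy) (by linarith)

end Vale.Agent.P146.S3.F205
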