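import Vale.Agent.P146.H205.S3ApZ

/-!
# P146, S3: the entropies without field from the history of the response, for one `n`

* `kv0_core`: the entropy without field at `y` from the entropies at one field at `y` and `2 y`.
* `kv_hist`: the induction over the scales.
-/

open MeasureTheory ProbabilityTheory Filter Topology Set

namespace Vale.Agent.P146.S3

open Vale.Agent.P146
open Vale.Agent.P146.H877 (kap At)
open Vale.Agent.P146.H9 (Phn KV)
open Vale.Agent.P146.H205.U4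

variable {β : ℝ} {n : ℕ} {y V : ℝ}

/-- the error of contiguity in the window -/
lemma err_le (hβ : 1 ≤ β) (hn : 1 ≤ n) (hy : 0 < y) (hy1 : y ≤ 1 / 4) (hV0 : 0 ≤ V)
    (hV : V ≤ y ^ 3) (hl : 2 * β + 8 * Real.log (2 * n) ≤ n * y ^ 6) :
    2 * y * err β n y V ≤ n * y ^ 6 := by
  have hn0 : (0 : ℝ) < n := by exact_mod_cast hn
  have e1 : 2 * y * err β n y V = 4 * (n * y ^ 2 * V ^ 2) / β ^ 2 + 2 * y * β +
      4 * Real.log (2 * n) := by
    unfold err
    field_simp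
    ring
  have h1 : V ^ 2 ≤ (y ^ 3) ^ 2 := pow_le_pow_left₀ hV0 hV 2
  have h2 : n * y ^ 2 * V ^ 2 ≤ n * y ^ 6 / 16 := by
    have h3 : y ^ 2 ≤ 1 / 16 := by nlinarith
    calc n * y ^ 2 * V ^ 2 ≤ n * y ^ 2 * (y ^ 3) ^ 2 := by gcongr
      _ = n * y ^ 6 * y ^ 2 := by ring
      _ ≤ n * y ^ 6 * (1 / 16) := by gcongr
      _ = n * y ^ 6 / 16 := by ring
  have h4 : 4 * (n * y ^ 2 * V ^ 2) / β ^ 2 ≤ 4 * (n * y ^ 2 * V ^ 2) :=
    div_le_self (by positivity) (by nlinarith)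
  have h5 : 2 * y * β ≤ β := by nlinarith
  have h6 : 0 ≤ n * y ^ 6 := by positivity
  rw [e1]
  linarith

/-- **The entropy without field from the entropies at one field**, in the window. -/
theorem kv0_core {C : ℝ} (hβ : 1 ≤ β) (hn : 1 ≤ n) (hC : 1 ≤ C) (hy : 0 < y) (hy1 : y ≤ 1 / 4)
    (hV : 0 < V) (hVy : V ≤ y ^ 3) (hl : 2 * β + 8 * Real.log (2 * n) ≤ n * y ^ 6)
    (cv2 : ConcaveOn ℝ (Ici 0) (Phn n β (2 * y))) (hA : 1 ≤ At β n (2 * y) V)
    (h1 : KV n β y V ≤ C * (n * y ^ 6)) (h2 : KV n β (2 * y) V ≤ C * (n * (2 * y) ^ 6)) :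
    KV n β y 0 ≤ 70 * C * (n * y ^ 6) := by
  have hn0 : (0 : ℝ) < n := by exact_mod_cast hn
  have hβ0 : 0 < β := by linarith
  have hf := H178.At_lin hβ0 hn cv2 hV hA hV.le le_rfl
  have hyV : 2 * (y * V) ≤ β := by
    have h3 : y ^ 3 ≤ 1 := pow_le_one₀ hy.le (by linarith)
    have h4 : y * V ≤ 1 / 4 * 1 := mul_le_mul hy1 (hVy.trans h3) hV.le (by norm_num)
    linarith
  have h := kv_zero hβ0 hn hy hV hyV (by linarith)
  have h5 := err_le hβ hn hy hy1 hV.le hVy hl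
  have e : C * (n * (2 * y) ^ 6) = 64 * (C * (n * y ^ 6)) := by ring
  rw [e] at h2
  have h6 : 0 < n * y ^ 6 := by positivity
  have h7 : n * y ^ 6 ≤ C * (n * y ^ 6) := le_mul_of_one_le_left h6.le hC
  linarith [show 70 * C * (n * y ^ 6) = 70 * (C * (n * y ^ 6)) by ring]

/-- **The entropies without field from the history of the response.** -/
theorem kv_hist {C G ν s0 lo hi : ℝ} (hβ : 1 ≤ β) (hn : 1 ≤ n) (hC : 1 ≤ C) (hCG : 70 * C ≤ G)
    (hν : 0 < ν) (hν1 : ν ≤ 1) (hlo : 0 < lo) (hhi : hi ≤ 1 / 64)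
    (hl : 2 * β + 8 * Real.log (2 * n) ≤ n * lo ^ 6)
    (hs : 8 * 10 ^ 8 * (G * n) ≤ (n : ℝ) ^ (1 + s0))
    (cv : ∀ z, 0 < z → z ≤ 1 / 2 → ConcaveOn ℝ (Ici 0) (Phn n β z))
    (hA : ∀ z, lo ≤ z → z ≤ hi → 1 ≤ At β n z (2 * (ν * z ^ 3)))
    (hP : ∀ x V : ℝ, lo ≤ x → x ≤ hi → ν * x ^ 3 / 8 ≤ V → V ≤ ν * x ^ 3 →
      (∀ u : ℝ, x ≤ u → u ≤ 2 * x → H178.AP β s0 n u (2 * V)) → KV n β x V ≤ C * (n * x ^ 6))
    (hB : ∀ w, lo ≤ w → hi / 2 ≤ w → w ≤ 8 * hi → KV n β w 0 ≤ G * (n * w ^ 6)) :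
    ∀ w, lo ≤ w → w ≤ 8 * hi → KV n β w 0 ≤ G * (n * w ^ 6) := by
  have hn0 : (0 : ℝ) < n := by exact_mod_cast hn
  have hn1 : (1 : ℝ) ≤ n := by exact_mod_cast hn
  have hβ0 : 0 < β := by linarith
  have hG : 1 ≤ G := by linarith
  -- one step
  have step : ∀ y, lo ≤ y → y ≤ hi / 2 →
      (∀ w, 2 * y ≤ w → w ≤ 8 * hi → KV n β w 0 ≤ G * (n * w ^ 6)) →
      KV n β y 0 ≤ G * (n * y ^ 6) := by
    intro y hy1 hy2 hw
    have hy0 : 0 < y := by linarith
    obtain ⟨V, hV⟩ : ∃ V, V = ν * y ^ 3 := ⟨_, rfl⟩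
    have hV0 : 0 < V := by rw [hV]; positivity
    have hVy : V ≤ y ^ 3 := by
      rw [hV]
      exact mul_le_of_le_one_left (by positivity) hν1
    have e8 : ν * (2 * y) ^ 3 = 8 * V := by
      rw [hV]
      ring
    have hy3 : y ^ 3 ≤ 1 := pow_le_one₀ hy0.le (by linarith)
    have hA2 : 1 ≤ At β n (2 * y) (2 * V) := by
      refine at_anti hβ0 hn (cv (2 * y) (by linarith) (by linarith)) (by linarith) ?_
        (hA (2 * y) (by linarith) (by linarith))
      rw [e8]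
      linarith
    have hly : 2 * β + 8 * Real.log (2 * n) ≤ n * y ^ 6 :=
      hl.trans (mul_le_mul_of_nonneg_left (pow_le_pow_left₀ hlo.le hy1 6) hn0.le)
    have hly2 : 2 * β + 8 * Real.log (2 * n) ≤ n * (2 * y) ^ 6 :=
      hly.trans (mul_le_mul_of_nonneg_left (pow_le_pow_left₀ hy0.le (by linarith) 6) hn0.le)
    have hap : ∀ u : ℝ, 2 * y / 2 ≤ u → u ≤ 2 * (2 * y) → H178.AP β s0 n u (2 * V) := by
      refine ap_z' (z := 2 * y) hβ0 hn (by positivity : 0 ≤ G * (n : ℝ)) hs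
        (show 0 < 2 * y by positivity) le_rfl (by linarith) (by linarith) ?_
        (cv (2 * y) (by linarith) (by linarith)) hA2 (fun w h1 h2 => ?_)
        (err_win hβ hn ?_ (by positivity) (by linarith) (by linarith) ?_ hly2)
      · have h1 : y * V ≤ 1 / 128 * 1 :=
          mul_le_mul (by linarith) (hVy.trans hy3) hV0.le (by norm_num)
        linarith
      · have h3 := hw w h1 (by linarith)
        linarith [show G * n * w ^ 6 = G * (n * w ^ 6) by ring]
      · exact le_mul_of_one_le_left hn0.le hG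
      · linarith [show (2 * y) ^ 3 = 8 * y ^ 3 by ring]
    have k1 := hP y V hy1 (by linarith) (by rw [← hV]; linarith) (by rw [← hV])
      (fun u h1 h2 => hap u (by linarith) (by linarith))
    have k2 := hP (2 * y) V (by linarith) (by linarith) (by rw [e8]; linarith)
      (by rw [e8]; linarith) (fun u h1 h2 => hap u (by linarith) h2)
    have k3 := kv0_core hβ hn hC hy0 (by linarith) hV0 hVy hly
      (cv (2 * y) (by linarith) (by linarith))
      (at_anti hβ0 hn (cv (2 * y) (by linarith) (by linarith)) hV0 (by linarith) hA2) k1 k2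
    exact k3.trans (mul_le_mul_of_nonneg_right hCG (by positivity))
  -- the induction
  have key : ∀ k : ℕ, ∀ w, lo ≤ w → hi / 2 / 2 ^ k ≤ w → w ≤ 8 * hi →
      KV n β w 0 ≤ G * (n * w ^ 6) := by
    intro k
    induction k with
    | zero =>
      intro w h1 h2 h3
      rw [pow_zero, div_one] at h2
      exact hB w h1 h2 h3
    | succ k ih =>
      intro w h1 h2 h3
      rcases le_total (hi / 2) w with h | h
      · exact hB w h1 h h3
      · refine step w h1 h fun w' h4 h5 => ih w' (by linarith) ?_ h5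
        rw [pow_succ, ← div_div] at h2
        linarith
  intro w h1 h2
  have hw0 : 0 < w := by linarith
  obtain ⟨k, hk⟩ := pow_unbounded_of_one_lt (hi / 2 / w) (by norm_num : (1 : ℝ) < 2)
  refine key k w h1 ?_ h2
  rw [div_lt_iff₀ hw0] at hk
  rw [div_le_iff₀ (by positivity)]
  linarith

end Vale.Agent.P146.S3
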