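import Vale.Agent.P146.H205.S3Def

/-!
# P146, S3: the induction over the scales with a constant, for one `n`
-/

open MeasureTheory ProbabilityTheory Filter Topology Set

namespace Vale.Agent.P146.S3

open Vale.Agent.P146
open Vale.Agent.P146.H877 (kap At)
open Vale.Agent.P146.H9 (Phn KV)
open Vale.Agent.P146.H205.U4

/-- The invariant at the exponent `z`, for the fields near `ν z ^ 3` and without field. -/
structure Inv (β G ν : ℝ) (n : ℕ) (z : ℝ) : Prop where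
  win : ∀ v : ℝ, ν * z ^ 3 / 8 ≤ v → v ≤ 2 * (ν * z ^ 3) → KV n β z v ≤ G / 512 * (n * z ^ 6)
  zero : KV n β z 0 ≤ G / 4 * (n * z ^ 6)

variable {β G ν : ℝ} {n : ℕ} {y z V W : ℝ}

/-- The response over `(0, V)` is nonincreasing in `V`. -/
theorem at_anti (hβ : 0 < β) (hn : 1 ≤ n) (cv : ConcaveOn ℝ (Ici 0) (Phn n β z)) (hV : 0 < V)
    (hVW : V ≤ W) (h : 1 ≤ At β n z W) : 1 ≤ At β n z V := by
  have hn0 : (0 : ℝ) < n := by exact_mod_cast hn
  have h1 := H178.At_lin hβ hn cv (hV.trans_le hVW) h hV.le hVW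
  rw [H9.At_eq]
  rw [div_le_iff₀ (by positivity)] at h1
  have e : 2 * β / (n * V) * (Phn n β z V - Phn n β z 0) =
      (Phn n β z V - Phn n β z 0) * (2 * β) / (n * V) := by
    field_simp
  rw [e, le_div_iff₀ (by positivity), one_mul]
  exact h1

/-- **The a priori package from the invariant at `2 y` and `4 y`.** -/
theorem apc_of_inv (hβ : 0 < β) (hn : 1 ≤ n) (hG : 0 ≤ G) (hν : 0 < ν) (hy : 0 < y)
    (hyW : 8 * (y * (2 * (ν * y ^ 3))) ≤ β)
    (cv : ConcaveOn ℝ (Ici 0) (Phn n β y)) (cv2 : ConcaveOn ℝ (Ici 0) (Phn n β (2 * y)))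
    (hA : 1 ≤ At β n (2 * y) (2 * (ν * (2 * y) ^ 3))) (h2 : Inv β G ν n (2 * y))
    (h4 : Inv β G ν n (4 * y)) (he : err β n (4 * y) (2 * (ν * y ^ 3)) ≤ G * (n * y ^ 5))
    (he2 : err β n (2 * y) (2 * (ν * y ^ 3)) ≤ G * (n * y ^ 5)) :
    APc β (2400 * G) n y (2 * (ν * y ^ 3)) := by
  have hn0 : (0 : ℝ) < n := by exact_mod_cast hn
  have hνy : 0 < ν * y ^ 3 := by positivity
  have hW : 0 < 2 * (ν * y ^ 3) := by positivity
  have e2 : ν * (2 * y) ^ 3 = 8 * (ν * y ^ 3) := by ring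
  have hf : 1 ≤ At β n (2 * y) (2 * (ν * y ^ 3)) := by
    refine at_anti hβ hn cv2 hW ?_ hA
    rw [e2]
    linarith
  have hGn : 0 ≤ G * n := by positivity
  have k2 : KV n β (2 * y) 0 ≤ G * n * (2 * y) ^ 6 := by
    refine h2.zero.trans ?_
    have : 0 ≤ G * n * (2 * y) ^ 6 := by positivity
    linarith [show G / 4 * (n * (2 * y) ^ 6) = 1 / 4 * (G * n * (2 * y) ^ 6) by ring]
  have k4 : KV n β (4 * y) 0 ≤ G * n * (4 * y) ^ 6 := by
    refine h4.zero.trans ?_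
    have : 0 ≤ G * n * (4 * y) ^ 6 := by positivity
    linarith [show G / 4 * (n * (4 * y) ^ 6) = 1 / 4 * (G * n * (4 * y) ^ 6) by ring]
  have kW : KV n β (2 * y) (2 * (ν * y ^ 3)) ≤ G * n * (2 * y) ^ 6 := by
    refine (h2.win _ ?_ ?_).trans ?_
    · rw [e2]
      linarith
    · rw [e2]
      linarith
    · have : 0 ≤ G * n * (2 * y) ^ 6 := by positivity
      linarith [show G / 512 * (n * (2 * y) ^ 6) = 1 / 512 * (G * n * (2 * y) ^ 6) by ring]
  have e5 : G * (n * y ^ 5) = G * n * y ^ 5 := by ring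
  rw [e5] at he he2
  have key := apc_of hβ hn hy hW hyW cv cv2 hf k2 k4 kW he he2
  have p5 : 0 ≤ G * n * y ^ 5 := by positivity
  refine ⟨fun v h0 h1 => (key v h0 h1).1.trans ?_, fun v h0 h1 => (key v h0 h1).2.1.trans ?_,
    fun v h0 h1 => (key v h0 h1).2.2.trans (le_of_eq ?_)⟩
  · linarith [show 2400 * G * (n * y ^ 5) = 2400 * (G * n * y ^ 5) by ring]
  · linarith [show 2400 * G * (n * y ^ 5) = 2400 * (G * n * y ^ 5) by ring]
  · ring

/-- **The entropy without field from the window.** -/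
theorem zero_of_win (hβ : 0 < β) (hn : 1 ≤ n) (hν : 0 < ν) (hy : 0 < y)
    (hyW : 8 * (y * (2 * (ν * y ^ 3))) ≤ β)
    (cv2 : ConcaveOn ℝ (Ici 0) (Phn n β (2 * y)))
    (hA : 1 ≤ At β n (2 * y) (2 * (ν * (2 * y) ^ 3))) (h2 : Inv β G ν n (2 * y))
    (hw : ∀ v : ℝ, ν * y ^ 3 / 8 ≤ v → v ≤ 2 * (ν * y ^ 3) → KV n β y v ≤ G / 512 * (n * y ^ 6))
    (he : 2 * y * err β n y (ν * y ^ 3) ≤ G / 16 * (n * y ^ 6)) :
    KV n β y 0 ≤ G / 4 * (n * y ^ 6) := by
  have hn0 : (0 : ℝ) < n := by exact_mod_cast hn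
  have hνy : 0 < ν * y ^ 3 := by positivity
  have e2 : ν * (2 * y) ^ 3 = 8 * (ν * y ^ 3) := by ring
  have hf : n * (ν * y ^ 3) / (2 * β) ≤ Phn n β (2 * y) (ν * y ^ 3) - Phn n β (2 * y) 0 := by
    refine H178.At_lin hβ hn cv2 (show 0 < 2 * (ν * (2 * y) ^ 3) by positivity) hA hνy.le ?_
    rw [e2]
    linarith
  have hyV : 2 * (y * (ν * y ^ 3)) ≤ β := by
    have : 0 ≤ y * (ν * y ^ 3) := by positivity
    linarith
  have h := kv_zero hβ hn hy hνy hyV hf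
  have k1 := h2.win (ν * y ^ 3) (by rw [e2]; linarith) (by rw [e2]; linarith)
  have k2 := hw (ν * y ^ 3) (by linarith) (by linarith)
  have e3 : G / 512 * (n * (2 * y) ^ 6) = G / 8 * (n * y ^ 6) := by ring
  rw [e3] at k1
  have hG : 0 ≤ G * (n * y ^ 6) := by
    have h5 := H9.KV_nonneg n β (ν * y ^ 3) hy.le
    linarith [show G / 512 * (n * y ^ 6) = 1 / 512 * (G * (n * y ^ 6)) by ring]
  linarith [show G / 8 * (n * y ^ 6) = 1 / 8 * (G * (n * y ^ 6)) by ring,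
    show G / 512 * (n * y ^ 6) = 1 / 512 * (G * (n * y ^ 6)) by ring,
    show G / 16 * (n * y ^ 6) = 1 / 16 * (G * (n * y ^ 6)) by ring,
    show G / 4 * (n * y ^ 6) = 1 / 4 * (G * (n * y ^ 6)) by ring]

/-- **The induction over the scales.** -/
theorem ind {lo hi : ℝ} (hβ : 0 < β) (hn : 1 ≤ n) (hG : 0 ≤ G) (hν : 0 < ν) (hlo : 0 < lo)
    (hyW : ∀ z, lo ≤ z → z ≤ hi → 8 * (z * (2 * (ν * z ^ 3))) ≤ β)
    (cv : ∀ z, lo ≤ z → z ≤ hi → ConcaveOn ℝ (Ici 0) (Phn n β z))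
    (hA : ∀ z, lo ≤ z → z ≤ hi → 1 ≤ At β n z (2 * (ν * z ^ 3)))
    (he4 : ∀ z, lo ≤ z → z ≤ hi → err β n (4 * z) (2 * (ν * z ^ 3)) ≤ G * (n * z ^ 5))
    (he2 : ∀ z, lo ≤ z → z ≤ hi → err β n (2 * z) (2 * (ν * z ^ 3)) ≤ G * (n * z ^ 5))
    (he1 : ∀ z, lo ≤ z → z ≤ hi → 2 * z * err β n z (ν * z ^ 3) ≤ G / 16 * (n * z ^ 6))
    (hbase : ∀ z, lo ≤ z → hi / 4 ≤ z → z ≤ hi →
      Inv β G ν n z ∧ APc β (2400 * G) n z (2 * (ν * z ^ 3)))
    (hstep : ∀ y, lo ≤ y → y ≤ hi / 4 →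
      (∀ z, y ≤ z → z ≤ hi → APc β (2400 * G) n z (2 * (ν * z ^ 3))) →
      ∀ v : ℝ, ν * y ^ 3 / 8 ≤ v → v ≤ 2 * (ν * y ^ 3) → KV n β y v ≤ G / 512 * (n * y ^ 6)) :
    ∀ z, lo ≤ z → z ≤ hi → Inv β G ν n z ∧ APc β (2400 * G) n z (2 * (ν * z ^ 3)) := by
  have key : ∀ k : ℕ, ∀ z, lo ≤ z → hi / 4 / 2 ^ k ≤ z → z ≤ hi →
      Inv β G ν n z ∧ APc β (2400 * G) n z (2 * (ν * z ^ 3)) := by
    intro k
    induction k with
    | zero =>
      intro z hz hz1 hz2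
      rw [pow_zero, div_one] at hz1
      exact hbase z hz hz1 hz2
    | succ k ih =>
      have hap : ∀ z, lo ≤ z → hi / 4 / 2 ^ (k + 1) ≤ z → z ≤ hi →
          APc β (2400 * G) n z (2 * (ν * z ^ 3)) := by
        intro z hz hz1 hz2
        rcases le_total (hi / 4) z with h | h
        · exact (hbase z hz h hz2).2
        have hz0 : 0 < z := hlo.trans_le hz
        have hk : hi / 4 / 2 ^ k ≤ 2 * z := by
          rw [pow_succ, ← div_div] at hz1
          linarith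
        have i2 := (ih (2 * z) (by linarith) hk (by linarith)).1
        have i4 := (ih (4 * z) (by linarith) (by linarith) (by linarith)).1
        exact apc_of_inv hβ hn hG hν hz0 (hyW z hz hz2) (cv z hz hz2)
          (cv (2 * z) (by linarith) (by linarith)) (hA (2 * z) (by linarith) (by linarith)) i2 i4
          (he4 z hz hz2) (he2 z hz hz2)
      intro z hz hz1 hz2
      rcases le_total (hi / 4) z with h | h
      · exact hbase z hz h hz2
      have hz0 : 0 < z := hlo.trans_le hz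
      have hk : hi / 4 / 2 ^ k ≤ 2 * z := by
        rw [pow_succ, ← div_div] at hz1
        linarith
      have i2 := (ih (2 * z) (by linarith) hk (by linarith)).1
      have hw := hstep z hz h fun w hw1 hw2 => hap w (hz.trans hw1) (hz1.trans hw1) hw2
      refine ⟨⟨hw, ?_⟩, hap z hz hz1 hz2⟩
      exact zero_of_win hβ hn hν hz0 (hyW z hz hz2) (cv (2 * z) (by linarith) (by linarith))
        (hA (2 * z) (by linarith) (by linarith)) i2 hw (he1 z hz hz2)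
  intro z hz hz2
  have hz0 : 0 < z := hlo.trans_le hz
  obtain ⟨k, hk⟩ := pow_unbounded_of_one_lt (hi / 4 / z) (by norm_num : (1 : ℝ) < 2)
  refine key k z hz ?_ hz2
  rw [div_lt_iff₀ hz0] at hk
  rw [div_le_iff₀ (by positivity)]
  linarith

end Vale.Agent.P146.S3
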