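import Vale.Agent.P146.H877.ContigK
import Vale.Agent.P146.H9.Mod2

/-!
# P146: the entropy at the smaller fields from the entropy at one field

Let `Φ = Phn`, `K = KV`. If `Φ(2y, 2V) - Φ(2y, V) ≥ n V / (2β)` (the response at the exponent `2y`
over `(V, 2V)` is not below the critical one) then for all `v ∈ [0, V]`
`K(y, v) ≤ K(2y, V) + 2 K(y, V) + 2 y err`, `err = 2 n y V² / β² + β + 2 log (2 n) / y`.
No loss of a constant: contiguity at `y / 2` is used with its sharp constant.
-/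

open MeasureTheory ProbabilityTheory Filter Topology Set

namespace Vale.Agent.P146.H205.U4

open Vale.Agent.P146
open Vale.Agent.P146.H877 (kap At)
open Vale.Agent.P146.H9 (Phn KV)

variable {β : ℝ} {n : ℕ} {y V v : ℝ}

/-- the error of contiguity -/
noncomputable def err (β : ℝ) (n : ℕ) (y V : ℝ) : ℝ :=
  2 * (n * y * V ^ 2) / β ^ 2 + β + 2 * Real.log (2 * n) / y

/-- **Contiguity**: the response over `(0, V)` at the exponent `y` from the entropy at `V`. -/
theorem resp_le (hβ : 0 < β) (hn : 1 ≤ n) (hy : 0 < y) (hV : 0 < V) (hyV : 2 * (y * V) ≤ β) :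
    Phn n β y V - Phn n β y 0 - n * V / (2 * β) ≤ KV n β y V / y + err β n y V := by
  have hn0 : (0 : ℝ) < n := by exact_mod_cast hn
  have hy2 : 0 < y / 2 := by positivity
  have h1 := H877.contig_At hβ hn hy2 hV (by linarith : 4 * (y / 2 * V) ≤ β)
  have e0 : 2 * (y / 2) = y := by ring
  rw [e0, H9.At_eq] at h1
  have h2 := H9.Phn_kap β n hy2 hy
  have h3 : kap β n y / 2 - kap β n (y / 2) = y / 2 * (Phn n β y 0 - Phn n β (y / 2) 0) := by
    rw [h2]
    field_simp
  have e1 : y / 2 * n * V / (2 * β) * (2 * β / (n * V) * (Phn n β (y / 2) V -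
      Phn n β (y / 2) 0) - 1) =
      y / 2 * (Phn n β (y / 2) V - Phn n β (y / 2) 0 - n * V / (2 * β)) := by
    field_simp
  rw [e1, h3] at h1
  have h4 := (H9.Phn_sub_bd n β V hy2 (by linarith : y / 2 ≤ y)).2
  have e2 : 1 / (y / 2) - 1 / y = 1 / y := by
    field_simp
    norm_num
  rw [e2, mul_one_div] at h4
  have e3 : 4 / β ^ 2 * (n * (y / 2 * V) ^ 2) + (y / 2 * β + Real.log (2 * n)) =
      y / 2 * err β n y V := by
    unfold err
    field_simp
    ring
  have h5 : y / 2 * (Phn n β (y / 2) V - Phn n β (y / 2) 0 - n * V / (2 * β)) ≤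
      y / 2 * (Phn n β y 0 - Phn n β (y / 2) 0 + err β n y V) := by
    rw [mul_add, ← e3]
    linarith
  have h6 := le_of_mul_le_mul_left h5 hy2
  linarith

/-- the two differences of a concave function over `(0, V)` and `(v, V)` -/
lemma conc_up {f : ℝ → ℝ} (hf : ConcaveOn ℝ (Ici 0) f) (hv : 0 ≤ v) (hvV : v ≤ V) (hV : 0 < V) :
    f V - f v ≤ (V - v) / V * (f V - f 0) := by
  have h := hf.2 (show (0 : ℝ) ∈ Ici 0 from mem_Ici.2 le_rfl) (show V ∈ Ici (0 : ℝ) from hV.le)
    (show 0 ≤ (V - v) / V from div_nonneg (by linarith) hV.le)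
    (show 0 ≤ v / V from div_nonneg hv hV.le)
    (by field_simp; ring)
  simp only [smul_eq_mul, mul_zero, zero_add] at h
  have e : v / V * V = v := by field_simp
  rw [e] at h
  have e2 : (V - v) / V = 1 - v / V := by field_simp
  rw [e2] at h ⊢
  linarith

lemma conc_low {f : ℝ → ℝ} (hf : ConcaveOn ℝ (Ici 0) f) (hv : 0 ≤ v) (hvV : v ≤ V) (hV : 0 < V) :
    (V - v) / V * (f (2 * V) - f V) ≤ f V - f v := by
  rcases hvV.eq_or_lt with h0 | h0
  · subst h0
    simp
  have h3 := hf.slope_anti_adjacent (x := v) (y := V) (z := 2 * V) (mem_Ici.2 hv)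
    (mem_Ici.2 (by linarith)) h0 (by linarith)
  have e : 2 * V - V = V := by ring
  rw [e] at h3
  have hVv : 0 < V - v := by linarith
  have h4 := mul_le_mul_of_nonneg_left h3 hVv.le
  have e2 : (V - v) * ((f V - f v) / (V - v)) = f V - f v := by field_simp
  rw [e2] at h4
  have e3 : (V - v) / V * (f (2 * V) - f V) = (V - v) * ((f (2 * V) - f V) / V) := by
    field_simp
  rw [e3]
  exact h4

/-- **One doubling of the exponent at the field `v`.** -/
theorem dbl_le (hβ : 0 < β) (hn : 1 ≤ n) (hy : 0 < y) (hV : 0 < V) (hyV : 2 * (y * V) ≤ β)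
    (hv : 0 ≤ v) (hvV : v ≤ V) (cv : ConcaveOn ℝ (Ici 0) (Phn n β y))
    (cv2 : ConcaveOn ℝ (Ici 0) (Phn n β (2 * y)))
    (hf : n * V / (2 * β) ≤ Phn n β (2 * y) (2 * V) - Phn n β (2 * y) V) :
    Phn n β (2 * y) v - Phn n β y v ≤
      KV n β (2 * y) V / (2 * y) + KV n β y V / y + err β n y V := by
  have hn0 : (0 : ℝ) < n := by exact_mod_cast hn
  have hr := resp_le hβ hn hy hV hyV
  have h1 := conc_up cv hv hvV hV
  have h2 := conc_low cv2 hv hvV hV
  obtain ⟨θ, hθ⟩ : ∃ θ, θ = (V - v) / V := ⟨_, rfl⟩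
  rw [← hθ] at h1 h2
  have hθ0 : 0 ≤ θ := by
    rw [hθ]
    exact div_nonneg (by linarith) hV.le
  have hθ1 : θ ≤ 1 := by
    rw [hθ, div_le_one hV]
    linarith
  have h3 := mul_le_mul_of_nonneg_left hf hθ0
  have h4 := mul_le_mul_of_nonneg_left hr hθ0
  have hE : 0 ≤ KV n β y V / y + err β n y V := by
    have hk := div_nonneg (H9.KV_nonneg n β V hy.le) hy.le
    have hn1 : (1 : ℝ) ≤ n := by exact_mod_cast hn
    have hl : 0 ≤ Real.log (2 * n) := Real.log_nonneg (by linarith)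
    unfold err
    positivity
  have h5 : θ * (KV n β y V / y + err β n y V) ≤ KV n β y V / y + err β n y V :=
    mul_le_of_le_one_left hE hθ1
  have h6 := (H9.Phn_sub_bd n β V hy (by linarith : y ≤ 2 * y)).2
  have e2 : 1 / y - 1 / (2 * y) = 1 / (2 * y) := by
    field_simp
    norm_num
  rw [e2, mul_one_div] at h6
  have e3 : θ * (Phn n β y V - Phn n β y 0 - n * V / (2 * β)) =
      θ * (Phn n β y V - Phn n β y 0) - θ * (n * V / (2 * β)) := by ring
  rw [e3] at h4
  linarith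

/-- **The entropy at the field `v`.** -/
theorem kv_le (hβ : 0 < β) (hn : 1 ≤ n) (hy : 0 < y) (hV : 0 < V) (hyV : 2 * (y * V) ≤ β)
    (hv : 0 ≤ v) (hvV : v ≤ V) (cv : ConcaveOn ℝ (Ici 0) (Phn n β y))
    (cv2 : ConcaveOn ℝ (Ici 0) (Phn n β (2 * y)))
    (hf : n * V / (2 * β) ≤ Phn n β (2 * y) (2 * V) - Phn n β (2 * y) V) :
    KV n β y v ≤ KV n β (2 * y) V + 2 * KV n β y V + 2 * y * err β n y V := by
  have h1 := dbl_le hβ hn hy hV hyV hv hvV cv cv2 hf
  have h2 := (H9.Phn_sub_bd n β v hy (by linarith : y ≤ 2 * y)).1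
  have e2 : 1 / y - 1 / (2 * y) = 1 / (2 * y) := by
    field_simp
    norm_num
  rw [e2, mul_one_div] at h2
  have h3 := h2.trans h1
  rw [div_le_iff₀ (by positivity)] at h3
  refine h3.trans (le_of_eq ?_)
  field_simp

/-- **The centred log-moment from the entropies without field.** -/
theorem kap_le {β G l x : ℝ} {n : ℕ} (hG : ∀ z ∈ Icc l x, KV n β z 0 ≤ G * (n * z ^ 6))
    (hl : 0 < l) (hlx : l ≤ x) :
    kap β n x ≤ x / l * kap β n l + G / 5 * (n * (x ^ 6 - x * l ^ 5)) := by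
  have hx : 0 < x := by linarith
  have hd : ∀ z ∈ Icc l x, HasDerivAt (fun z => Phn n β z 0 - G / 5 * (n * z ^ 5))
      (KV n β z 0 / z ^ 2 - G / 5 * (n * (5 * z ^ 4))) z := fun z hz => by
    have h1 := H9.hasDerivAt_Phn n β 0 (hl.trans_le hz.1)
    have h2 := ((hasDerivAt_pow 5 z).const_mul (n : ℝ)).const_mul (G / 5)
    have h3 := h1.sub h2
    norm_num at h3
    exact h3
  have hanti : AntitoneOn (fun z => Phn n β z 0 - G / 5 * (n * z ^ 5)) (Icc l x) := by
    refine antitoneOn_of_deriv_nonpos (convex_Icc l x)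
      (fun z hz => (hd z hz).continuousAt.continuousWithinAt) (fun z hz => ?_) fun z hz => ?_
    · exact (hd z (interior_subset hz)).differentiableAt.differentiableWithinAt
    · have hz' := interior_subset hz
      have hz0 : 0 < z := hl.trans_le hz'.1
      rw [(hd z hz').deriv]
      have h1 := hG z hz'
      have h2 : KV n β z 0 / z ^ 2 ≤ G * (n * z ^ 4) := by
        rw [div_le_iff₀ (by positivity)]
        linarith [show G * (n * z ^ 4) * z ^ 2 = G * (n * z ^ 6) by ring]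
      linarith [show G / 5 * (n * (5 * z ^ 4)) = G * (n * z ^ 4) by ring]
  have h1 := hanti (left_mem_Icc.2 hlx) (right_mem_Icc.2 hlx) hlx
  simp only at h1
  have h2 := H9.Phn_kap β n hl hx
  have h3 : kap β n x / x ≤ kap β n l / l + G / 5 * (n * (x ^ 5 - l ^ 5)) := by
    have e : G / 5 * (n * (x ^ 5 - l ^ 5)) = G / 5 * (n * x ^ 5) - G / 5 * (n * l ^ 5) := by ring
    rw [e]
    linarith
  rw [div_le_iff₀ hx] at h3
  refine h3.trans (le_of_eq ?_)
  field_simp

end Vale.Agent.P146.H205.U4
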