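import Vale.Agent.P146.Bd4.B5

/-!
# P146: the second derivative at zero of the function of the first block

`vv_le`: along the constrained minimisers, `vv ≤ 1 / b + C x ^ 2`, `x` the exponent of the first
block.
-/

open MeasureTheory ProbabilityTheory Filter Topology Set

namespace Vale.Agent.P146.H205.Vv

open Vale.Agent.P157.Par
open Vale.Agent.P146.Gap
open Vale.Agent.P146.Pw2
open Vale.Agent.P146.Lb
open Vale.Agent.P367.Cl
open Vale.Agent.P146.Sh

theorem ml_first {b : ℝ} {n d : ℕ} {r : ℕ → ℝ} (hr : BPath b n r) (hd : 1 ≤ d) (hdn : d ≤ n)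
    (h0 : ∀ l < d, r l = 0) : Ml n (gm n) r (d - 1) = vv n r ^ 2 := by
  have hm := gm_exponents n
  have hp := hr.2.1
  have key : ∀ l, l < d → Ml n (gm n) r l = vv n r ^ 2 := by
    intro l
    induction l with
    | zero =>
      intro _
      rw [Ml, ee_zero hr.1]
      rfl
    | succ l ih =>
      intro hl
      rw [← Mb_last hm hp (by omega), h0 (l + 1) hl, h0 l (by omega), sub_zero,
        Mb_zero hm hp (by omega)]
      exact ih (by omega)
  exact key (d - 1) (by omega)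

theorem vv_sq {b : ℝ} (hb : 1 < b) : ∃ c C : ℝ, 0 < c ∧ 1 ≤ C ∧ ∀ (n d : ℕ) (r : ℕ → ℝ),
    1 ≤ d → d ≤ n → IsMinD b n d r → gm n d ≤ c → C ≤ gm n d ^ 40 * (n + 1) →
      |vv n r ^ 2 - 1 / b ^ 2| ≤ C * gm n d ^ 2 := by
  obtain ⟨c₁, C₁, hc₁, hC₁, hA⟩ := lawA hb
  obtain ⟨C₂, hC₂, hM⟩ := m1e b
  obtain ⟨c₃, K, hc₃, hK, hvk⟩ := vk_bd b
  set B : ℝ := K ^ 2 + 2 + C₂ with hB
  have hB0 : 0 < B := by positivity
  refine ⟨min c₁ (min (1 / C₁) 1), C₁ + (1 + B * C₁ ^ 2), by positivity, by nlinarith [sq_nonneg C₁],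
    fun n d r hd hdn hr hgc hgC => ?_⟩
  have hm := gm_exponents n
  have hp := hr.1.2.1
  have hg1 : gm n d ≤ c₁ := hgc.trans (min_le_left _ _)
  have hg2 : gm n d ≤ 1 / C₁ := (hgc.trans (min_le_right _ _)).trans (min_le_left _ _)
  have hg3 : gm n d ≤ 1 := (hgc.trans (min_le_right _ _)).trans (min_le_right _ _)
  have hg0 : 0 < gm n d := grid_gm_pos hd
  have hBC : 0 ≤ 1 + B * C₁ ^ 2 := by positivity
  obtain ⟨-, hrd, hrn, hMb⟩ := hA n d r hd hdn hr hg1 (by linarith)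
  have hdn' : d < n := by
    rcases hdn.lt_or_eq with h | h
    · exact h
    · subst h
      have : 0 < C₁ * gm d d := by positivity
      linarith
  have hrd1 : r (d - 1) = 0 := hr.2.1 (d - 1) (by omega)
  have e1 : d - 1 + 1 = d := by omega
  have hrd0 : 0 ≤ r d := by
    have := hp.2 (d - 1) (by omega)
    rw [e1, hrd1] at this
    exact this
  set X : ℝ := C₁ * gm n d with hX
  have hX0 : 0 < X := by positivity
  have hX1 : X ≤ 1 := by
    have h1 := mul_le_mul_of_nonneg_left hg2 (by linarith : 0 ≤ C₁)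
    have h2 : C₁ * (1 / C₁) = 1 := by field_simp
    linarith
  have hgX : gm n d ≤ X := by
    rw [hX]
    nlinarith
  obtain ⟨v1, v2, v3, v4⟩ := hvk n r hr.1
  have hv0 : 0 < vv n r := by linarith
  -- the slope on the first block
  have hsl : ∀ t ∈ Icc 0 (r (d - 1 + 1) - r (d - 1)),
      |Mb n (gm n) r (d - 1) t - Mb n (gm n) r (d - 1) 0| ≤ B * X * t := by
    intro t ht
    refine kv_slope (Mb_cont hm hp (by omega)) (fun s hs => ?_) ht
    refine ⟨_, Mb_deriv hm hp (by omega) hs, ?_⟩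
    have hs2 : r (d - 1) + s ≤ X := by
      have := hs.2
      rw [e1] at this
      linarith
    have h1 := hM n X r hr.1 hX0 hX1 (d - 1) (by omega) (by rw [e1]; exact hgX) s
      (Ioo_subset_Icc_self hs) hs2
    rw [e1, hrd1, zero_add] at h1
    have h2 : |kk n r ^ 2 * s - 2 * gm n d * vv n r ^ 3| ≤ K ^ 2 * X + 2 * X := by
      have h3 : |kk n r ^ 2 * s| ≤ K ^ 2 * X := by
        rw [abs_mul, abs_of_nonneg (sq_nonneg _), abs_of_pos hs.1]
        rw [hrd1, zero_add] at hs2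
        exact mul_le_mul (pow_le_pow_left₀ (by linarith) v4 2) hs2 hs.1.le (by positivity)
      have h4 : |2 * gm n d * vv n r ^ 3| ≤ 2 * X := by
        have h5 : vv n r ^ 3 ≤ 1 := pow_le_one₀ hv0.le v2
        have h6 : 0 ≤ vv n r ^ 3 := by positivity
        rw [abs_of_nonneg (by positivity)]
        calc 2 * gm n d * vv n r ^ 3 ≤ 2 * X * 1 :=
              mul_le_mul (by linarith) h5 h6 (by positivity)
          _ = 2 * X := by ring
      have h7 := abs_sub (kk n r ^ 2 * s) (2 * gm n d * vv n r ^ 3)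
      linarith
    have h8 : C₂ * (X * √X) ≤ C₂ * X := by
      have h9 : √X ≤ 1 := by
        rw [Real.sqrt_le_one]
        exact hX1
      have h10 := mul_le_mul_of_nonneg_left h9 hX0.le
      have h11 := mul_le_mul_of_nonneg_left h10 (by linarith : 0 ≤ C₂)
      linarith
    have h12 : |M1b n (gm n) r (d - 1) s| ≤
        |M1b n (gm n) r (d - 1) s - (kk n r ^ 2 * s - 2 * gm n d * vv n r ^ 3)| +
          |kk n r ^ 2 * s - 2 * gm n d * vv n r ^ 3| := by
      have := abs_add_le (M1b n (gm n) r (d - 1) s - (kk n r ^ 2 * s - 2 * gm n d * vv n r ^ 3))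
        (kk n r ^ 2 * s - 2 * gm n d * vv n r ^ 3)
      rwa [sub_add_cancel] at this
    have h13 : B * X = K ^ 2 * X + 2 * X + C₂ * X := by
      rw [hB]
      ring
    rw [h13]
    linarith
  have h14 := hsl (r (d - 1 + 1) - r (d - 1)) ⟨by rw [e1, hrd1]; linarith, le_rfl⟩
  rw [Mb_last hm hp (by omega), Mb_zero hm hp (by omega), ml_first hr.1 hd hdn hr.2.1, e1, hrd1,
    sub_zero] at h14
  have h15 := hMb d le_rfl hdn' 0 ⟨le_rfl, sub_nonneg.2 (hp.2 d hdn')⟩
  rw [Mb_zero hm hp hdn'] at h15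
  have h16 : B * X * r d ≤ B * C₁ ^ 2 * gm n d ^ 2 := by
    have h17 : B * X * r d ≤ B * X * X := mul_le_mul_of_nonneg_left hrd (by positivity)
    have h18 : B * X * X = B * C₁ ^ 2 * gm n d ^ 2 := by
      rw [hX]
      ring
    linarith
  have h19 : gm n d ^ 8 ≤ gm n d ^ 2 := pow_le_pow_of_le_one hg0.le hg3 (by norm_num)
  have h20 : |vv n r ^ 2 - 1 / b ^ 2| ≤ |Ml n (gm n) r d - vv n r ^ 2| +
      |Ml n (gm n) r d - 1 / b ^ 2| := by
    have h21 := abs_sub (Ml n (gm n) r d - 1 / b ^ 2) (Ml n (gm n) r d - vv n r ^ 2)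
    have e : Ml n (gm n) r d - 1 / b ^ 2 - (Ml n (gm n) r d - vv n r ^ 2) =
        vv n r ^ 2 - 1 / b ^ 2 := by ring
    rw [e] at h21
    linarith
  have h22 : 0 ≤ C₁ * gm n d ^ 2 := by positivity
  have h23 : (C₁ + (1 + B * C₁ ^ 2)) * gm n d ^ 2 = C₁ * gm n d ^ 2 + gm n d ^ 2 +
      B * C₁ ^ 2 * gm n d ^ 2 := by ring
  rw [h23]
  linarith

/-- **The second derivative at zero is at most `1 / b + C x ^ 2`.** -/
theorem vv_le {b : ℝ} (hb : 1 < b) : ∃ c C : ℝ, 0 < c ∧ 1 ≤ C ∧ ∀ (n d : ℕ) (r : ℕ → ℝ),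
    1 ≤ d → d ≤ n → IsMinD b n d r → gm n d ≤ c → C ≤ gm n d ^ 40 * (n + 1) →
      vv n r ≤ 1 / b + C * gm n d ^ 2 := by
  have hb0 : 0 < b := by linarith
  obtain ⟨c, C, hc, hC, h⟩ := vv_sq hb
  refine ⟨c, C * b, hc, by nlinarith, fun n d r hd hdn hr hgc hgC => ?_⟩
  have hCb : C ≤ C * b := by nlinarith
  have h1 := (abs_le.1 (h n d r hd hdn hr hgc (hCb.trans hgC))).2
  by_contra h2
  push Not at h2
  have h3 : 0 < 1 / b := by positivity
  have hx : 0 ≤ C * b * gm n d ^ 2 := by positivity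
  have h4 : (1 / b + C * b * gm n d ^ 2) ^ 2 < vv n r ^ 2 :=
    pow_lt_pow_left₀ h2 (by positivity) (by norm_num)
  have h5 : (1 / b + C * b * gm n d ^ 2) ^ 2 = 1 / b ^ 2 + 2 * C * gm n d ^ 2 * (b / b) +
      (C * b * gm n d ^ 2) ^ 2 := by
    field_simp
    ring
  rw [h5, div_self hb0.ne'] at h4
  have h6 : 0 ≤ C * gm n d ^ 2 := by positivity
  nlinarith [sq_nonneg (C * b * gm n d ^ 2)]

end Vale.Agent.P146.H205.Vv
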